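import Crest.Agent.X212.Cut21.Cov
import Crest.Agent.X212.Ind26.Cov
import Crest.Agent.X212.Alg36.Sd3

-- ▼ part X212/Alg36/Cut1
section

/-! CUT1 (helper36): closed surfaces bound in the cut manifold. -/

set_option autoImplicit false
set_option linter.unusedSectionVars false

namespace Crest.Agent.X212.Alg36

open Finset Classical
open Crest.Agent.X212.Hp13
open Crest.Agent.X212.Cut21 (pot pot_ge pot_le pot_sub NC IsCut Cut1Stmt)
open Crest.Agent.X212.Ind26 (Lift Cov)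

variable {G : Type} [AddCommGroup G]

theorem pot_pot {P : Type} [PartialOrder P] {A : Set P} {z : P → P → G} (hz : Coc A z) {a b x : P}
    (ha : a ∈ A) (hb : b ∈ A) (h1 : Cm a b) (h2 : Cm a x) (h3 : Cm b x) :
    pot z a x = pot z a b + pot z b x := by
  rcases h3 with h | h
  · rw [pot_ge z h, pot_sub hz ha h1 h2 h]; abel
  · rw [pot_le hz hb h, pot_sub hz ha h2 h1 h]; abel

variable {s s' : St} {π : s'.P → s.P} {z : s.P → s.P → ℤ}

/-- on the same sheet -/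
def Sh (π : s'.P → s.P) (x y : s.P) : Prop :=
  ∃ b ∈ s'.A, ∃ b' ∈ s'.A, π b = x ∧ π b' = y ∧ Cm b b'

theorem Sh.symm {x y : s.P} (h : Sh π x y) : Sh π y x :=
  let ⟨b, hb, b', hb', e, e', c⟩ := h; ⟨b', hb', b, hb, e', e, c.symm⟩

theorem cm_lift (h : Lift s s' π) {b q r : s'.P} (hb : b ∈ s'.A) (hq : Cm b q) (hr : Cm b r)
    (c : Cm (π q) (π r)) : Cm q r := c.imp (h.refl b hb q r hq hr) (h.refl b hb r q hr hq)

theorem Sh.trans (h : Lift s s' π) {x y t : s.P} (h1 : Sh π x y) (h2 : Sh π y t) (c : Cm x t) :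
    Sh π x t := by
  obtain ⟨b, hb, b', hb', rfl, rfl, c1⟩ := h1
  obtain ⟨d, hd, d', hd', e, rfl, c2⟩ := h2
  obtain rfl := h.bij.injOn hd hb' e
  exact ⟨b, hb, d', hd', rfl, rfl, cm_lift h hd c1.symm c2 c⟩

theorem sh_iff (h : Lift s s' π) {b q : s'.P} (hb : b ∈ s'.A) (c : Cm b q) :
    Sh π (π b) (π q) ↔ q ∈ s'.A := by
  refine ⟨fun ⟨d, hd, d', hd', e, e', k⟩ => ?_, fun hq => ⟨b, hb, q, hq, rfl, rfl, c⟩⟩
  obtain rfl := h.bij.injOn hd hb e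
  exact h.inj hb k c e' ▸ hd'

/-- push a closed cocycle down -/
theorem exists_push (h : Lift s s' π) {w : s'.P → s'.P → G} (hw : Coc s'.A w) (h0 : Cl0 s'.A w) :
    ∃ ρ : s.P → s.P → G, (∀ x y, x ∉ s.A → ρ x y = 0) ∧
      (∀ b ∈ s'.A, ∀ q, Cm b q → ρ (π b) (π q) = pot w b q) ∧
      (∀ x y t, Cm x y → Cm x t → Cm y t → ¬ Sh π x y → ¬ Sh π x t → ρ x y = ρ x t) ∧
      ∀ x y t, Sh π x y → Cm x t → Cm y t → ρ x t = ρ x y + ρ y t := by
  have k : ∀ x y, ∃ r : G, (x ∉ s.A → r = 0) ∧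
      ∀ b ∈ s'.A, ∀ q, Cm b q → π b = x → π q = y → r = pot w b q := fun x y => by
    by_cases e : ∃ b ∈ s'.A, ∃ q, Cm b q ∧ π b = x ∧ π q = y
    · obtain ⟨b, hb, q, c, rfl, rfl⟩ := e
      refine ⟨pot w b q, fun k => absurd (h.mem hb) k, fun d hd r c' e1 e2 => ?_⟩
      obtain rfl := h.bij.injOn hd hb e1
      rw [h.inj hb c' c e2]
    · exact ⟨0, fun _ => rfl, fun b hb q c e1 e2 => absurd ⟨b, hb, q, c, e1, e2⟩ e⟩
  choose ρ h1 h2 using k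
  have h3 : ∀ b ∈ s'.A, ∀ q, Cm b q → ρ (π b) (π q) = pot w b q :=
    fun b hb q c => h2 _ _ b hb q c rfl rfl
  refine ⟨ρ, h1, h3, fun x y t c1 c2 c3 n1 n2 => ?_, ?_⟩
  · by_cases hx : x ∈ s.A
    swap
    · rw [h1 _ _ hx, h1 _ _ hx]
    obtain ⟨b, hb, rfl⟩ := h.exA hx
    obtain ⟨q, cq, rfl⟩ := h.ex hb c1
    obtain ⟨r, cr, rfl⟩ := h.ex hb c2
    rw [sh_iff h hb cq] at n1
    rw [sh_iff h hb cr] at n2
    rw [h3 b hb q cq, h3 b hb r cr]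
    rcases cm_lift h hb cq cr c3 with k | k
    · exact (sub_eq_zero.1 ((pot_sub hw hb cq cr k).symm.trans
        (h0 q r ⟨k, b, hb, cq, cr⟩ n1 n2))).symm
    · exact sub_eq_zero.1 ((pot_sub hw hb cr cq k).symm.trans (h0 r q ⟨k, b, hb, cr, cq⟩ n2 n1))
  · rintro _ _ t ⟨b, hb, b', hb', rfl, rfl, c⟩ c1 c2
    obtain ⟨r, cr, rfl⟩ := h.ex hb c1
    have c3 := cm_lift h hb c cr c2
    rw [h3 b hb r cr, h3 b hb b' c, h3 b' hb' r c3, pot_pot hw hb hb' c cr c3]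

theorem not_sh (h : Cov s s' z π) {x y : s.P} (hxy : x ≤ y) (h0 : 0 < z x y) : ¬ Sh π x y := by
  rintro ⟨b, hb, b', hb', rfl, rfl, c⟩
  exact h0.ne' (h.zero hb hb' (h.refl b hb b b' Cm.rfl c hxy))

/-- `Bnd` passes to the cut along a surface without closed component -/
theorem Bnd.cov (h : Cov s s' z π) (hz : Coc s.A z) (hm : Mono s.A z) (hn : NC s.A z)
    (hB : Bnd G s.A) : Bnd G s'.A := by
  intro w hw h0
  have hl := h.toLift
  obtain ⟨ρ, r0, r1, r2, r3⟩ := exists_push hl hw h0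
  let W : s.P → s.P → G := fun x y => if Sh π x y then ρ x y else ρ x y - ρ y x
  have W1 : ∀ x y, Sh π x y → W x y = ρ x y := fun x y k => if_pos k
  have W2 : ∀ x y, ¬ Sh π x y → W x y = ρ x y - ρ y x := fun x y k => if_neg k
  have add : ∀ x y t, Cm x y → Cm y t → Cm x t → W x t = W x y + W y t := by
    intro x y t c1 c2 c3
    by_cases a : Sh π x y <;> by_cases b : Sh π y t
    · rw [W1 _ _ a, W1 _ _ b, W1 _ _ (a.trans hl b c3), r3 _ _ _ a c3 c2]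
    · have c : ¬ Sh π x t := fun k => b (a.symm.trans hl k c2)
      rw [W1 _ _ a, W2 _ _ b, W2 _ _ c, r3 _ _ _ a c3 c2,
        r2 t x y c3.symm c2.symm c1 (fun k => c k.symm) fun k => b k.symm]
      abel
    · have c : ¬ Sh π x t := fun k => a (k.trans hl b.symm c1)
      rw [W2 _ _ a, W1 _ _ b, W2 _ _ c, r3 _ _ _ b c1.symm c3.symm, r2 x y t c1 c3 c2 a c]
      abel
    · have e := r2 y x t c1.symm c2 c3 (fun k => a k.symm) b
      by_cases c : Sh π x t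
      · rw [W2 _ _ a, W2 _ _ b, W1 _ _ c, r3 _ _ _ c c1 c2.symm, e]; abel
      · rw [W2 _ _ a, W2 _ _ b, W2 _ _ c, e, r2 x y t c1 c3 c2 a c,
          r2 t x y c3.symm c2.symm c1 (fun k => c k.symm) fun k => b k.symm]
        abel
  obtain ⟨g, g0, hg⟩ := hB W (fun _ _ x y t h1 h2 _ _ _ =>
    add x y t (Or.inl h1) (Or.inl h2) (Or.inl (h1.trans h2))) fun x y _ hx hy => by
      rw [W2 _ _ fun ⟨b, hb, _, _, e, _⟩ => hx (e ▸ hl.mem hb), r0 _ _ hx, r0 _ _ hy, sub_self]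
  simp only [zero_add] at hg
  have self : ∀ x, W x x = 0 := fun x => by simpa using add x x x Cm.rfl Cm.rfl Cm.rfl
  have hg' : ∀ x y, Dp s.A x y → W x y = g y - g x ∧ W y x = g x - g y := fun x y k => by
    have e := add x y x (Or.inl k.1) (Or.inr k.1) Cm.rfl
    rw [self, hg x y k] at e
    exact ⟨hg x y k, by rw [eq_neg_of_add_eq_zero_right e.symm, cb, neg_sub]⟩
  have sym : ∀ x y, Dp s.A x y → ¬ Sh π x y → g x + ρ x y = g y + ρ y x := fun x y k n => by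
    rw [eq_add_of_sub_eq ((W2 _ _ n).symm.trans (hg' x y k).1)]; abel
  have key : ∀ x y, Dp s.A x y → 0 < z x y → g x + ρ x y = 0 := fun x y k hp => by
    refine hn.ind hz hm (G := fun x y _ => g x + ρ x y = 0) (fun x y _ _ hx _ _ _ => ?_)
      (fun x y t _ T k0 k1 => ?_) (fun x y t _ T k0 k1 => ?_) k le_rfl hp
    · rw [g0 x hx, r0 _ _ hx, add_zero]
    · have := hm _ _ T.d23
      rw [r2 x y t (Or.inl T.1) (Or.inl T.d13.1) (Or.inl T.2.1) (not_sh h T.1 (by omega))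
        (not_sh h T.d13.1 (by rw [T.add hz]; omega))]
    · have := hm _ _ T.d12
      have n1 := not_sh h T.2.1 (show 0 < z y t by omega)
      have n2 := not_sh h T.d13.1 (show 0 < z x t by rw [T.add hz]; omega)
      rw [sym _ _ T.d23 n1, sym _ _ T.d13 n2, r2 t y x (Or.inr T.2.1) (Or.inr T.d13.1)
        (Or.inr T.1) (fun k => n1 k.symm) fun k => n2 k.symm]
  have fin : ∀ b ∈ s'.A, ∀ q, Cm b q →
      pot w b q = (if q ∈ s'.A then g (π q) else 0) - g (π b) := fun b hb q c => by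
    have hu := hl.mem hb
    have e : W (π b) (π q) = g (π q) - g (π b) := by
      rcases c with c | c
      exacts [(hg' _ _ (Dp.of_left hu (hl.mon c))).1, (hg' _ _ (Dp.of_right hu (hl.mon c))).2]
    rw [← r1 b hb q c]
    split_ifs with hq
    · rw [← W1 _ _ ((sh_iff hl hb c).2 hq), e]
    have n := mt (sh_iff hl hb c).1 hq
    by_cases hv : π q ∈ s.A
    · rw [zero_sub, eq_neg_iff_add_eq_zero, add_comm]
      rcases c with c | c
      · have d := Dp.of_left hu (hl.mon c)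
        exact key _ _ d (lt_of_le_of_ne (hm _ _ d) fun k => hq ((h.up b hb q c).2 ⟨hv, k.symm⟩))
      · have d := Dp.of_right hu (hl.mon c)
        rw [← sym _ _ d fun k => n k.symm]
        exact key _ _ d (lt_of_le_of_ne (hm _ _ d) fun k => hq ((h.dn b hb q c).2 ⟨hv, k.symm⟩))
    · rw [W2 _ _ n, r0 _ _ hv, g0 _ hv, sub_zero] at e
      exact e
  refine ⟨fun q => if q ∈ s'.A then g (π q) else 0, fun q hq => if_neg hq, ?_⟩
  rintro q r ⟨k, b, hb, c1, c2⟩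
  rw [pot_sub hw hb c1 c2 k, fin b hb q c1, fin b hb r c2, zero_add, cb]
  abel

/-- GOOD-CUT, part 1 -/
theorem cut1Stmt : Cut1Stmt := fun _ _ _ _ _ hs hz hm hn h =>
  ⟨h.cov.conv hs.conv hz hm, h.cov.toLift.mf hs.mf, Bnd.cov h.cov hz hm hn hs.bnd,
    Bnd.cov h.cov hz hm hn hs.bnd2, h.cov.toLift.ee_eq, h.cov.toLift.esc⟩

end Crest.Agent.X212.Alg36
end

-- ▼ part X212/Alg36/Cut2a

/-! CUT2 (helper36), tools: FORCE, MEET, and the reduction of `Nice` and `Thick` of a cut to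
conditions downstairs. -/

set_option autoImplicit false
set_option linter.unusedSectionVars false

namespace Crest.Agent.X212.Alg36

open Finset Classical
open Crest.Agent.X212.Hp13
open Crest.Agent.X212.Kh11 (WS sctr_min sctr_max)
open Crest.Agent.X212.Cut21 (IsCut Fr Thick tri1 tri2 tri3 tri_lo tri_hi)
open Crest.Agent.X212.Ind26 (Lift Cov)

section
variable {P : Type} [PartialOrder P] [Fintype P]

/-- FORCE: a vertex that can always be made comparable can be assumed present -/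
theorem force {F : Set (Ch P)} (k : P) (h1 : ∀ C ∈ F, ∃ D ∈ F, D.1 = C.1.filter (Cm k))
    (h2 : ∀ C ∈ F, ∀ h, C.ins k h ∈ F) : WS {C | C ∈ F ∧ k ∈ C.1} F id := by
  have a : WS {C | C ∈ F ∧ ∀ x ∈ C.1, Cm k x} F id :=
    WS.of_int' (fun _ h => h.1) fun C hC => by
      obtain ⟨D, hD, e⟩ := h1 C hC
      refine ⟨D, ⟨hD, fun x hx => (mem_filter.1 (e ▸ hx)).2⟩, ?_, fun b hb h x hx => ?_⟩
      · rw [Ch.le_iff, e]; exact filter_subset _ _
      · rw [e]; exact mem_filter.2 ⟨h hx, hb.2 x hx⟩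
  have b : WS {C | C ∈ F ∧ k ∈ C.1} {C | C ∈ F ∧ ∀ x ∈ C.1, Cm k x} id :=
    WS.of_clo' (fun C h => ⟨h.1, fun x hx => C.cm h.2 hx⟩) fun C hC =>
      ⟨C.ins k hC.2, ⟨h2 C hC.1 _, mem_insert_self _ _⟩, C.le_ins _ _,
        fun b hb h => insert_subset hb.2 h⟩
  exact b.comp a

theorem force_up {F : Set (Ch P)} (up : IsUpperSet F) (k : P)
    (h1 : ∀ C ∈ F, ∃ D ∈ F, D ≤ C ∧ ∀ x ∈ D.1, Cm k x) : WS {C | C ∈ F ∧ k ∈ C.1} F id := by
  refine force k (fun C hC => ?_) fun C hC h => up (C.le_ins k h) hC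
  obtain ⟨D, hD, h, c⟩ := h1 C hC
  have s : D.1 ⊆ C.1.filter (Cm k) := fun x hx => mem_filter.2 ⟨h hx, c x hx⟩
  exact ⟨C.sub _ (D.2.1.mono s) (filter_subset _ _), up (show D ≤ _ from s) hD, rfl⟩

/-- MEET: the chains over `X` inside `Z` that meet `S` -/
theorem meet (X : Ch P) (Z S : Set P) (hX : ∀ x ∈ X.1, x ∈ Z ∧ x ∉ S) :
    Ctr {C | X ≤ C ∧ (∀ x ∈ C.1, x ∈ Z) ∧ Mt S C} ↔
      Ctr {d | d ∈ S ∧ d ∈ Z ∧ ∀ x ∈ X.1, Cm d x} := by
  have k : ∀ C : Ch P, ∃ m ∈ C.1, Mt S C → m ∈ S ∧ ∀ x ∈ C.1, x ∈ S → x ≤ m := fun C => by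
    by_cases h : Mt S C
    · obtain ⟨a, ha, ha'⟩ := h
      let D := C.sub (C.1.filter (· ∈ S)) ⟨a, mem_filter.2 ⟨ha, ha'⟩⟩ (filter_subset _ _)
      exact ⟨D.top, (mem_filter.1 D.top_mem).1, fun _ => ⟨(mem_filter.1 D.top_mem).2,
        fun x hx hs => Ch.le_top (c := D) (mem_filter.2 ⟨hx, hs⟩)⟩⟩
    · exact ⟨_, C.top_mem, fun k => absurd k h⟩
  choose f f1 f2 using k
  have le : ∀ (C : Ch P) (e : P), Mt S C → (f C ≤ e ↔ ∀ x ∈ C.1, x ∈ S → x ≤ e) := fun C e h =>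
    ⟨fun k x hx hs => ((f2 C h).2 x hx hs).trans k, fun k => k _ (f1 C) (f2 C h).1⟩
  refine WS.ctr_iff (f := f) ?_
  refine WS.of_le (fun C hC => ⟨(f2 C hC.2.2).1, hC.2.1 _ (f1 C),
    fun x hx => C.cm (f1 C) (hC.1 hx)⟩) (fun C hC D hD h =>
      (f2 D hD.2.2).2 _ (h (f1 C)) (f2 C hC.2.2).1) fun e he => ?_
  refine (force e (fun C hC => ?_) fun C hC h => ?_).ctr_iff.1
    (sctr_min (m := X.ins e he.2.2) ⟨⟨⟨X.le_ins _ _, fun x hx => ?_,
      e, mem_insert_self _ _, he.1⟩, (le _ _ ⟨e, mem_insert_self _ _, he.1⟩).2 fun x hx hs => ?_⟩,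
      mem_insert_self _ _⟩ fun C hC => insert_subset hC.2 hC.1.1.1)
  · have s : X.1 ⊆ C.1.filter (Cm e) := fun x hx => mem_filter.2 ⟨hC.1.1 hx, he.2.2 x hx⟩
    have m : Mt S (C.sub _ (X.2.1.mono s) (filter_subset _ _)) :=
      ⟨f C, mem_filter.2 ⟨f1 C, Or.inr hC.2⟩, (f2 C hC.1.2.2).1⟩
    exact ⟨C.sub _ (X.2.1.mono s) (filter_subset _ _), ⟨⟨s, fun x hx =>
      hC.1.2.1 x (mem_filter.1 hx).1, m⟩, (le _ _ m).2 fun x hx =>
      (le _ _ hC.1.2.2).1 hC.2 x (mem_filter.1 hx).1⟩, rfl⟩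
  · have m : Mt S (C.ins e h) := hC.1.2.2.mono (C.le_ins _ _)
    refine ⟨⟨hC.1.1.trans (C.le_ins _ _), fun x hx => ?_, m⟩, (le _ _ m).2 fun x hx hs => ?_⟩
    · rcases mem_insert.1 hx with rfl | hx
      exacts [he.2.1, hC.1.2.1 x hx]
    · rcases mem_insert.1 hx with rfl | hx
      exacts [le_rfl, (le _ _ hC.1.2.2).1 hC.2 x hx hs]
  · rcases mem_insert.1 hx with rfl | hx
    exacts [he.2.1, (hX x hx).1]
  · rcases mem_insert.1 hx with rfl | hx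
    exacts [le_rfl, absurd hs (hX x hx).2]

/-- two levels up -/
theorem ctr_up2 (X : Ch (Ch P)) (E : Set P) :
    Ctr {C : Ch (Ch P) | X ≤ C ∧ C.top.top ∈ E} ↔ Ctr {e | e ∈ E ∧ X.top.top ≤ e} := by
  rw [← (ws_up X.top E).ctr_iff]
  refine (ws_up X (Ch.top ⁻¹' E)).ctr_iff.trans ?_
  congr! 1
  ext; exact and_comm

theorem conn_up2 (X : Ch (Ch P)) (E : Set P) :
    Conn {C : Ch (Ch P) | X ≤ C ∧ C.top.top ∈ E} ↔ Conn {e | e ∈ E ∧ X.top.top ≤ e} := by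
  rw [← (ws_up X.top E).conn_iff]
  refine (ws_up X (Ch.top ⁻¹' E)).conn_iff.trans ?_
  congr! 1
  ext; exact and_comm

/-- the points of `A` over a point under `A` -/
theorem Nice.ctr_ge {A : Set P} (hA : A.OrdConnected) (hN : Nice A) {o : P} (ho : o ∈ Om A) :
    Ctr {e | e ∈ A ∧ o ≤ e} := by
  obtain ⟨hx, a, ha, hle⟩ := ho
  have h1 := hN (Ch.pt o) ⟨a, ha, by simpa [Cm] using Or.inr hle⟩ (by simpa [mt_pt] using hx)
  convert h1 using 1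
  ext b
  simp only [Set.mem_setOf_eq, Ch.pt_val, mem_singleton, forall_eq]
  exact and_congr_right fun hb => ⟨Or.inr, fun k => k.resolve_left fun k' =>
    hx (hA.out hb ha ⟨k', hle⟩)⟩

end

variable {s c : St} {z : s.P → s.P → ℤ} {pr : c.P → s.P} {lev : c.P → ℤ}

/-- `Nice` for a cut -/
theorem nice_cut (h : IsCut s.A z c.A pr lev) (hA : s.A.OrdConnected) (hz : Coc s.A z)
    (hm : Mono s.A z)
    (h1 : ∀ a ∈ s.A, ∀ y, a ≤ y → ∃ m ∈ s.A, m ≤ y ∧ z m y = z a y ∧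
      ∀ b ∈ s.A, b ≤ y → z b y = z a y → b ≤ m)
    (h2 : ∀ a ∈ s.A, ∀ x, x ≤ a → (x ∉ s.A ∨ 0 < z x a) →
      Ctr {b | b ∈ s.A ∧ x ≤ b ∧ z x b = z x a}) : Nice c.A := by
  rintro D ⟨b₀, h0, c0⟩ hD
  have hc := h.cov.conv hA hz hm
  have off : ∀ q ∈ D.1, q ∉ c.A := fun q hq k => hD ⟨q, hq, k⟩
  have up : ∀ b ∈ c.A, ∀ q, b ≤ q → z (pr b) (pr q) = lev q := fun b hb q k => by
    rw [← h.lv b q (Dp.of_left hb k), (h.mem b hb).2, sub_zero]
  have dn : ∀ b ∈ c.A, ∀ q, q ≤ b → z (pr q) (pr b) = -lev q := fun b hb q k => by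
    rw [← h.lv q b (Dp.of_right hb k), (h.mem b hb).2, zero_sub]
  have dp : ∀ b ∈ c.A, ∀ q, Cm b q → Dp c.A q q := fun b hb q k => ⟨le_rfl, b, hb, k, k⟩
  by_cases hu : ∃ q ∈ D.1, b₀ ≤ q
  · obtain ⟨q, hq, hle⟩ := hu
    let Y := (D.sub (D.1.filter (b₀ ≤ ·)) ⟨q, mem_filter.2 ⟨hq, hle⟩⟩ (filter_subset _ _)).bot
    have hY : Y ∈ D.1.filter (b₀ ≤ ·) := Ch.bot_mem (D.sub _ ⟨q, mem_filter.2 ⟨hq, hle⟩⟩ _)
    have hY' : ∀ r ∈ D.1, b₀ ≤ r → Y ≤ r := fun r hr k =>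
      Ch.bot_le (c := D.sub _ ⟨q, mem_filter.2 ⟨hq, hle⟩⟩ _) (mem_filter.2 ⟨hr, k⟩)
    obtain ⟨hY, hY0⟩ := mem_filter.1 hY
    obtain ⟨m, hm1, hm2, hm3, hm4⟩ := h1 _ (h.mem _ h0).1 _ (h.mono hY0)
    obtain ⟨n, hn, rfl⟩ := h.surj m hm1
    obtain ⟨r, cr, er⟩ := h.lift n hn _ (Or.inl hm2)
    have hr : n ≤ r := h.refl n hn n r Cm.rfl cr (er ▸ hm2)
    obtain rfl : r = Y := h.inj r Y (dp n hn r cr) (dp _ h0 Y (Or.inl hY0)) er
      (by rw [← up n hn r hr, er, hm3, up _ h0 _ hY0])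
    have key : ∀ b ∈ c.A, b ≤ Y → b ≤ n := fun b hb k => by
      have e : z (pr b) (pr Y) = z (pr n) (pr Y) := by rw [up b hb _ k, up n hn _ hr]
      have l := hm4 _ (h.mem b hb).1 (h.mono k) (e.trans hm3)
      refine (h.cov.le_iff hb hn).2 ⟨l, ?_⟩
      have := (tri1 (h.mem b hb).1 l hm2).add hz
      omega
    refine sctr_max (m := n) ⟨hn, fun t ht => ?_⟩ fun b hb => key b hb.1
      ((hb.2 Y hY).resolve_right fun k => off Y hY (hc.out h0 hb.1 ⟨hY0, k⟩))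
    rcases c0 t ht with k | k
    exacts [Or.inl (hr.trans (hY' t ht k)), Or.inr (k.trans (key _ h0 hY0))]
  · push Not at hu
    have hL : D.top ≤ b₀ := (c0 _ D.top_mem).resolve_left (hu _ D.top_mem)
    have hx := off _ D.top_mem
    have e1 : {b | b ∈ c.A ∧ ∀ x ∈ D.1, Cm b x} = {b | b ∈ c.A ∧ D.top ≤ b} := by
      ext b
      exact and_congr_right fun hb => ⟨fun k => (k _ D.top_mem).resolve_left fun k' =>
        hx (hc.out hb h0 ⟨k', hL⟩), fun k t ht => Or.inr ((Ch.le_top ht).trans k)⟩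
    rw [e1]
    refine (WS.of_iso (f := pr) (fun b hb => ?_) (fun a ha => ?_) fun b hb b' hb' => ?_).ctr_iff.2
      (h2 _ (h.mem _ h0).1 _ (h.mono hL) ?_)
    · exact ⟨(h.mem b hb.1).1, h.mono hb.2, by rw [dn b hb.1 _ hb.2, dn _ h0 _ hL]⟩
    · obtain ⟨b, hb, rfl⟩ := h.surj a ha.1
      obtain ⟨r, cr, er⟩ := h.lift b hb _ (Or.inr ha.2.1)
      have hr : r ≤ b := h.refl b hb r b cr Cm.rfl (er ▸ ha.2.1)
      obtain rfl : r = D.top := h.inj r _ (dp b hb r cr) (dp _ h0 _ (Or.inr hL)) er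
        (neg_injective (by rw [← dn b hb r hr, er, ha.2.2, dn _ h0 _ hL]))
      exact ⟨b, ⟨hb, hr⟩, rfl⟩
    · refine ⟨fun k => (h.cov.le_iff hb.1 hb'.1).2 ⟨k, ?_⟩, fun k => h.mono k⟩
      have := (tri2 (h.mem b hb.1).1 (h.mono hb.2) k).add hz
      rw [dn b hb.1 _ hb.2, dn b' hb'.1 _ hb'.2] at this
      omega
    · by_contra k
      push Not at k
      exact hx ((h.cov.dn _ h0 _ hL).2 ⟨k.1, le_antisymm k.2
        (hm _ _ (Dp.of_left k.1 (h.mono hL)))⟩)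

/-- `Thick` for a cut -/
theorem thick_cov (h : Cov s c z pr) (hz : Coc s.A z) (hm : Mono s.A z)
    (h3 : ∀ a ∈ s.A, Ctr {b | a ≤ b ∧ ∀ y, b ≤ y → y ∈ s.A ∧ z a y = 0})
    (h4 : ∀ a ∈ s.A, Conn {y | a ≤ y ∧ (y ∉ s.A ∨ 0 < z a y)}) : Thick c.A := by
  have hl := h.toLift
  have lift : ∀ b ∈ c.A, ∀ y, pr b ≤ y → ∃ q, b ≤ q ∧ pr q = y := fun b hb y k =>
    let ⟨q, cq, e⟩ := hl.ex hb (Or.inl k); ⟨q, hl.refl b hb b q Cm.rfl cq (e ▸ k), e⟩
  refine ⟨fun b hb => ?_, fun b hb => ?_⟩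
  · have hb := hb.1
    refine (WS.ctr_iff (f := pr) ?_).2 (h3 _ (hl.mem hb))
    refine WS.of_iso (fun d hd => ⟨hl.mon hd.2.1, fun y k => ?_⟩) (fun a ha => ?_)
      fun d hd d' hd' => hl.le_iff hb (Or.inl hd.2.1) (Or.inl hd'.2.1)
    · obtain ⟨q, k', rfl⟩ := lift d hd.1 y k
      exact (h.up b hb q (hd.2.1.trans k')).1 (by_contra fun n => hd.2.2 ⟨hd.1, q, n, k'⟩)
    · obtain ⟨d, k, rfl⟩ := lift b hb a ha.1
      exact ⟨d, ⟨(h.up b hb d k).2 (ha.2 _ le_rfl), k, fun ⟨_, q, n, k'⟩ =>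
        n ((h.up b hb q (k.trans k')).2 (ha.2 _ (hl.mon k')))⟩, rfl⟩
  · have e : ∀ q, b ≤ q → (q ∉ c.A ↔ pr q ∉ s.A ∨ 0 < z (pr b) (pr q)) := fun q k => by
      have := hm _ _ (Dp.of_left (hl.mem hb) (hl.mon k))
      rw [h.up b hb q k, not_and_or]
      exact or_congr_right (by omega)
    refine (WS.conn_iff (f := pr) ?_).2 (h4 _ (hl.mem hb))
    refine WS.of_iso (fun d hd => ⟨hl.mon hd.2, (e d hd.2).1 hd.1⟩) (fun a ha => ?_)
      fun d hd d' hd' => hl.le_iff hb (Or.inl hd.2) (Or.inl hd'.2)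
    obtain ⟨d, k, rfl⟩ := lift b hb a ha.1
    exact ⟨d, ⟨(e d k).2 ha.2, k⟩, rfl⟩

end Crest.Agent.X212.Alg36
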