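import Crest.Agent.X212.Sup43.Dec
import Crest.Agent.X212.Sf30.Du
import Crest.Agent.X212.Sup43.Defs

-- ▼ part X212/Sup43/Mu
section

/-!
# X212 / Sup43 (helper43): counting the crossing curves after a refinement
-/

set_option autoImplicit false
set_option linter.unusedSectionVars false

open Finset Classical

noncomputable section

namespace Crest.Agent.X212.Sup43

open Crest.Agent.X212.Hp13

theorem ncmp_le {P Q : Type} [PartialOrder P] [PartialOrder Q] [Fintype P] {E : Set P} {E' : Set Q}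
    (G : P → Set Q) (ne : ∀ e ∈ E, (G e).Nonempty)
    (conn : ∀ e ∈ E, ∀ p ∈ G e, ∀ q ∈ G e, Rch E' p q)
    (mono : ∀ e ∈ E, ∀ e' ∈ E, e ≤ e' → G e ⊆ G e') (cov : ∀ p ∈ E', ∃ e ∈ E, p ∈ G e) :
    ncmp E' ≤ ncmp E := by
  refine (Set.ncard_le_ncard (t := (fun C : Set P => {q | q ∈ E' ∧ ∃ e ∈ C, ∃ p ∈ G e, Rch E' p q})
    '' {C | IsCmp E C}) ?_ ((Set.toFinite _).image _)).trans (Set.ncard_image_le (Set.toFinite _))
  rintro _ ⟨p, hp, rfl⟩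
  obtain ⟨e, he, k⟩ := cov p hp
  refine ⟨_, isCmp_cmp he, Set.ext fun q => ⟨fun ⟨h1, e', h2, p', h3, h4⟩ => ⟨h1, Rch.trans ?_ h4⟩,
    fun ⟨h1, h2⟩ => ⟨h1, e, mem_cmp_self he, p, k, h2⟩⟩⟩
  refine h2.2.ind (p := fun t => ∀ r ∈ G t, Rch E' p r) (conn e he p k) (fun a ha b hb l => ?_) p' h3
  obtain ⟨r, hr⟩ := ne a ha
  exact ⟨fun j s hs => (j r hr).trans (conn b hb r (mono a ha b hb l hr) s hs),
    fun j s hs => j s (mono a ha b hb l hs)⟩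

section tri

variable {P : Type} [PartialOrder P] {A : Set P} {X Y : P → P → ℤ}

/-- `Y` jumps at level `k` on `a ≤ b`, `X` jumps on `b ≤ c` -/
structure Tr (A : Set P) (X Y : P → P → ℤ) (a b c : P) (k : ℤ) : Prop where
  ab : a ≤ b
  bc : b ≤ c
  mem : c ∈ A
  nn : 0 ≤ k
  lt : k < Y a b
  one : 1 ≤ X b c

/-- the cell contains the triple -/
def On (q : Lv A Y) (a b c : P) (k : ℤ) : Prop :=
  a ∈ q.1.1.1 ∧ b ∈ q.1.1.1 ∧ c ∈ q.1.1.1 ∧ q.1.2 = k + Y q.1.1.bot a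

/-- the chain of a triple -/
def c3 (a b c : P) (h1 : a ≤ b) (h2 : b ≤ c) : Ch P :=
  (Ch.pr b c h2).ins a fun x hx => Or.inl <| by
    rcases (by simpa using hx : x = b ∨ x = c) with rfl | rfl
    exacts [h1, h1.trans h2]

@[simp] theorem mem_c3 {a b c x : P} {h1 : a ≤ b} {h2 : b ≤ c} :
    x ∈ (c3 a b c h1 h2).1 ↔ x = a ∨ x = b ∨ x = c := by simp [c3]

theorem bot_c3 {a b c : P} (h1 : a ≤ b) (h2 : b ≤ c) : (c3 a b c h1 h2).bot = a :=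
  Ch.bot_eq (by simp) fun x hx => by
    rcases mem_c3.1 hx with rfl | rfl | rfl
    exacts [le_rfl, h1, h1.trans h2]

theorem top_c3 {a b c : P} (h1 : a ≤ b) (h2 : b ≤ c) : (c3 a b c h1 h2).top = c :=
  Ch.top_eq (by simp) fun x hx => by
    rcases mem_c3.1 hx with rfl | rfl | rfl
    exacts [h1.trans h2, h2, le_rfl]

theorem c3_le {a b c : P} {h1 : a ≤ b} {h2 : b ≤ c} {d : Ch P} (ha : a ∈ d.1) (hb : b ∈ d.1)
    (hc : c ∈ d.1) : c3 a b c h1 h2 ≤ d := fun x hx => by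
  rcases mem_c3.1 hx with rfl | rfl | rfl <;> assumption

theorem pr_le {a b : P} {h : a ≤ b} {d : Ch P} (ha : a ∈ d.1) (hb : b ∈ d.1) : Ch.pr a b h ≤ d :=
  fun x hx => by rcases (by simpa using hx : x = a ∨ x = b) with rfl | rfl <;> assumption

variable [iY : IsCoc A Y] {a b c a' b' c' : P} {k k' : ℤ}

theorem Tr.mem_II (hX : Mono A X) (cX : Coc A X) (h : Tr A X Y a b c k) {q : Lv A Y}
    (o : On q a b c k) : q ∈ II A X Y := by
  obtain ⟨o1, o2, o3, o4⟩ := o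
  let r : Lv A Y :=
    ⟨(Ch.pr a b h.ab, k), q.2.1.mono (pr_le (h := h.ab) o1 o2), h.nn, by simpa using h.lt⟩
  have l : r ≤ q := Lv.le_iff.2 ⟨pr_le (h := h.ab) o1 o2, by simpa [r] using o4⟩
  refine ⟨⟨c, o3, h.mem⟩, r, l, ?_⟩
  have := hX _ _ (q.2.1.dp o3 q.1.1.top_mem (Ch.le_top o3))
  have := h.one
  simp only [r, Ch.top_pr, cX.add' q.2.1 o2 o3 q.1.1.top_mem h.bc (Ch.le_top o3)]
  omega

/-- the least cell of a triple -/
theorem Tr.cell (hY : Mono A Y) (h : Tr A X Y a b c k) :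
    ∃ r : Lv A Y, r.1.1 = c3 a b c h.ab h.bc ∧ On r a b c k ∧ ∀ q, On q a b c k → r ≤ q := by
  have d : Dom A (c3 a b c h.ab h.bc) := Mt.dom ⟨c, by simp, h.mem⟩
  refine ⟨⟨(c3 a b c h.ab h.bc, k), d, h.nn, ?_⟩, rfl, ⟨by simp, by simp, by simp, ?_⟩,
    fun q o => Lv.le_iff.2 ⟨c3_le (h1 := h.ab) (h2 := h.bc) o.1 o.2.1 o.2.2.1,
      by simpa [bot_c3] using o.2.2.2⟩⟩
  · have := hY _ _ (Dp.of_right h.mem h.bc)
    have := h.lt
    simp only [bot_c3, top_c3, iY.coc.add' d (x := a) (y := b) (w := c) (by simp) (by simp) (by simp)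
      h.ab h.bc]
    omega
  · simp only [bot_c3, dom_zero (z := Y) d (x := a) (by simp), add_zero]

theorem On.up {p q : Lv A Y} (o : On p a b c k) (h : p ≤ q) : On q a b c k := by
  obtain ⟨h1, h2⟩ := Lv.le_iff.1 h
  refine ⟨h1 o.1, h1 o.2.1, h1 o.2.2.1, ?_⟩
  rw [h2, o.2.2.2, iY.coc.add' q.2.1 q.1.1.bot_mem (h1 p.1.1.bot_mem) (h1 o.1) (Ch.bot_anti h1)
    (Ch.bot_le o.1)]
  ring

theorem Tr.rch (hX : Mono A X) (cX : Coc A X) (hY : Mono A Y) (h : Tr A X Y a b c k) {p q : Lv A Y}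
    (hp : On p a b c k) (hq : On q a b c k) : Rch (II A X Y) p q :=
  let ⟨_, _, o, l⟩ := h.cell hY
  (Rch.of_cm (h.mem_II hX cX hp) (h.mem_II hX cX o) (Or.inr (l p hp))).trans
    (Rch.of_cm (h.mem_II hX cX o) (h.mem_II hX cX hq) (Or.inl (l q hq)))

theorem Tr.exists_on (hY : Mono A Y) (h : Tr A X Y a b c k) {d : Ch P} (ha : a ∈ d.1) (hb : b ∈ d.1)
    (hc : c ∈ d.1) : ∃ q : Lv A Y, q.1.1 = d ∧ On q a b c k :=
  let ⟨r, e, o, _⟩ := h.cell hY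
  let ⟨q, q1, q2⟩ := Lv.exists_ge hY r (Mt.dom ⟨c, hc, h.mem⟩) (e ▸ c3_le ha hb hc)
  ⟨q, q1, o.up q2⟩

theorem exists_tr (hA : IsUpperSet A) {q : Lv A Y} (h : q ∈ II A X Y) :
    ∃ x, Tr A X Y q.1.1.bot x q.1.1.top q.1.2 ∧ On q q.1.1.bot x q.1.1.top q.1.2 := by
  obtain ⟨⟨y, y1, y2⟩, r, h1, h2⟩ := h
  obtain ⟨l1, l2⟩ := Lv.le_iff.1 (show r ≤ q from h1)
  have t := l1 r.1.1.top_mem
  refine ⟨r.1.1.top, ⟨Ch.bot_le t, Ch.le_top t, hA (Ch.le_top y1) y2, q.2.2.1, ?_, h2⟩,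
    q.1.1.bot_mem, t, q.1.1.top_mem, by rw [dom_zero (z := Y) q.2.1 q.1.1.bot_mem, add_zero]⟩
  have := r.2.2.2
  rw [iY.coc.add' q.2.1 q.1.1.bot_mem (l1 r.1.1.bot_mem) t (Ch.bot_anti l1) r.1.1.bot_le_top]
  omega

/-- two triples in the product order -/
theorem Tr.rch_le (hX : Mono A X) (cX : Coc A X) (hY : Mono A Y)
    (h : Tr A X Y a b c k) (h' : Tr A X Y a' b' c' k') (la : a ≤ a') (lb : b ≤ b') (lc : c ≤ c')
    (e : k = k' + Y a a') {p q : Lv A Y} (hp : On p a b c k) (hq : On q a' b' c' k') :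
    Rch (II A X Y) p q := by
  have ab' := h.ab.trans lb
  have t1 : Tr A X Y a b c' k := ⟨h.ab, h.bc.trans lc, h'.mem, h.nn, h.lt, by
    have := hX _ _ (Dp.of_right h'.mem lc)
    have := h.one
    rw [cX c' h'.mem b c c' h.bc lc (Or.inr (h.bc.trans lc)) (Or.inr lc) Cm.rfl]
    omega⟩
  have t2 : Tr A X Y a b' c' k := ⟨ab', h'.bc, h'.mem, h.nn, by
    have := h'.lt
    rw [iY.coc c' h'.mem a a' b' la h'.ab (Or.inr (ab'.trans h'.bc))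
      (Or.inr (h'.ab.trans h'.bc)) (Or.inr h'.bc)]
    omega, h'.one⟩
  have four : ∀ {w x y z : P} (h1 : w ≤ x) (h2 : x ≤ y) (h3 : y ≤ z),
      ∃ d : Ch P, w ∈ d.1 ∧ x ∈ d.1 ∧ y ∈ d.1 ∧ z ∈ d.1 ∧ d.bot = w := fun {w x y z} h1 h2 h3 => by
    have j : ∀ t ∈ (c3 x y z h2 h3).1, w ≤ t := fun t ht =>
      h1.trans (bot_c3 h2 h3 ▸ Ch.bot_le ht)
    refine ⟨(c3 x y z h2 h3).ins w fun t ht => Or.inl (j t ht), by simp, by simp, by simp, by simp,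
      Ch.bot_eq (by simp) fun t ht => ?_⟩
    rcases mem_insert.1 ht with rfl | ht
    exacts [le_rfl, j t ht]
  obtain ⟨d1, a1, a2, a3, a4, -⟩ := four h.ab h.bc lc
  obtain ⟨q1, rfl, o1⟩ := h.exists_on hY a1 a2 a3
  obtain ⟨d2, b1, b2, b3, b4, -⟩ := four h.ab lb h'.bc
  obtain ⟨q2, rfl, o2⟩ := t1.exists_on hY b1 b2 b4
  obtain ⟨d3, c1, c2, c3, c4, c5⟩ := four la h'.ab h'.bc
  obtain ⟨q3, rfl, o3⟩ := t2.exists_on hY c1 c3 c4
  refine (h.rch hX cX hY hp o1).trans <| (t1.rch hX cX hY ⟨a1, a2, a4, o1.2.2.2⟩ o2).trans <|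
    (t2.rch hX cX hY ⟨b1, b3, b4, o2.2.2.2⟩ o3).trans (h'.rch hX cX hY ⟨c2, c3, c4, ?_⟩ hq)
  rw [o3.2.2.2, c5, e, dom_zero (z := Y) q3.2.1 c1, add_zero]

end tri

section fib

variable {P : Type} [PartialOrder P]

/-- the triples over a chain `c`; `W` is the side of `Y`, `V` the side of `X` -/
def Sg (A : Set P) (g : Ch (Ch P) → P) (c : Ch P) (W V : Set P) :
    Set (Ch (Ch P) × Ch (Ch P) × Ch (Ch P)) :=
  {τ | τ.1 ≤ τ.2.1 ∧ τ.2.1 ≤ τ.2.2 ∧ τ.2.2.top ≤ c ∧ tt τ.2.2 ∈ A ∧ be A τ.1 ∉ W ∧ be A τ.2.1 ∈ W ∧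
    g τ.2.1 ∈ V ∧ g τ.2.2 ∉ V}

/-- the fibres are connected -/
def FibC (A : Set P) (g : Ch (Ch P) → P) : Prop :=
  ∀ (c : Ch P) (W V : Set P), IsUpperSet W → IsLowerSet V → c.top ∈ A → c.bot ∉ W → c.top ∉ V →
    (∃ x ∈ c.1, x ∈ W ∧ x ∈ V) → (Sg A g c W V).Nonempty ∧ Conn (Sg A g c W V)

variable [Fintype P] {A : Set P} {X Y : P → P → ℤ}

theorem mu_le (hA : IsUpperSet A) (hX : Mono A X) (cX : Coc A X) (jx : ∀ x y, Dp A x y → X x y ≤ 1)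
    (hY : Mono A Y) (cY : Coc A Y) {g : Ch (Ch P) → P} (hg : Monotone g) (gm : ∀ C, g C ∈ C.top.1)
    (gb : ∀ C, be A C ≤ g C) (hF : FibC A g) (h' : Coc (tt ⁻¹' A) (pb (be A) Y)) :
    mu (tt ⁻¹' A) (pb g X) (pb (be A) Y) h' ≤ mu A X Y cY := by
  have : IsCoc A Y := ⟨cY⟩
  have : IsCoc (tt ⁻¹' A) (pb (be A) Y) := ⟨h'⟩
  have hA' : IsUpperSet (tt ⁻¹' A : Set (Ch (Ch P))) := hA.preimage (Ch.top_mono.comp Ch.top_mono)
  have dg : ∀ {C D}, Dp (tt ⁻¹' A) C D → Dp A (g C) (g D) := fun h =>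
    (dom_tt h).dp (Ch.top_mono h.le (gm _)) (gm _) (hg h.le)
  have hX' : Mono (tt ⁻¹' A) (pb g X) := fun _ _ h => hX _ _ (dg h)
  have hY' : Mono (tt ⁻¹' A) (pb (be A) Y) := fun _ _ h => hY _ _ (dp_be hA h)
  have cX' : Coc (tt ⁻¹' A) (pb g X) := fun a ha x y w h1 h2 _ c2 c3 =>
    cX.add' (dom_tt ⟨h2, a, ha, c2, c3⟩) (Ch.top_mono (h1.trans h2) (gm _)) (Ch.top_mono h2 (gm _))
      (gm _) (hg h1) (hg h2)
  let T : Lv A Y → Set (Ch (Ch P) × Ch (Ch P) × Ch (Ch P)) := fun e =>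
    {τ | Tr (tt ⁻¹' A) (pb g X) (pb (be A) Y) τ.1 τ.2.1 τ.2.2 (e.1.2 - Y e.1.1.bot (be A τ.1)) ∧
      τ.2.2.top ≤ e.1.1}
  have yy : ∀ (e : Lv A Y) {C D : Ch (Ch P)}, C ≤ D → D.top ≤ e.1.1 →
      Y e.1.1.bot (be A D) = Y e.1.1.bot (be A C) + Y (be A C) (be A D) := fun e C D h1 h2 =>
    have m := h2 (Ch.top_mono h1 (be_mem A C))
    cY.add' e.2.1 e.1.1.bot_mem m (h2 (be_mem A D)) (Ch.bot_le m) (be_mono hA h1)
  have key : ∀ e ∈ II A X Y, (T e).Nonempty ∧ Conn (T e) := fun e he => by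
    obtain ⟨x, t, o⟩ := exists_tr hA he
    have w : ∀ y ∈ e.1.1.1, y ∈ {y | ∃ w ∈ e.1.1.1, w ≤ y ∧ e.1.2 < Y e.1.1.bot w} ↔
        e.1.2 < Y e.1.1.bot y := fun y hy => ⟨fun ⟨w, w1, w2, w3⟩ => by
      have := hY _ _ (e.2.1.dp w1 hy w2)
      rw [cY.add' e.2.1 e.1.1.bot_mem w1 hy (Ch.bot_le w1) w2]
      omega, fun k => ⟨y, hy, le_rfl, k⟩⟩
    have v : ∀ y ∈ e.1.1.1, y ∈ {y | ∃ w ∈ e.1.1.1, y ≤ w ∧ 1 ≤ X w e.1.1.top} ↔
        1 ≤ X y e.1.1.top := fun y hy => ⟨fun ⟨w, w1, w2, w3⟩ => by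
      have := hX _ _ (e.2.1.dp hy w1 w2)
      rw [cX.add' e.2.1 hy w1 e.1.1.top_mem w2 (Ch.le_top w1)]
      omega, fun k => ⟨y, hy, le_rfl, k⟩⟩
    have z0 : Y e.1.1.bot e.1.1.bot = 0 := dom_zero e.2.1 e.1.1.bot_mem
    have z1 : X e.1.1.top e.1.1.top = 0 := Kh11.dom_self cX e.2.1 e.1.1.top_mem
    have := hF e.1.1 {y | ∃ w ∈ e.1.1.1, w ≤ y ∧ e.1.2 < Y e.1.1.bot w}
      {y | ∃ w ∈ e.1.1.1, y ≤ w ∧ 1 ≤ X w e.1.1.top} (fun _ _ l ⟨w, w1, w2, w3⟩ => ⟨w, w1, w2.trans l, w3⟩)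
      (fun _ _ l ⟨w, w1, w2, w3⟩ => ⟨w, w1, l.trans w2, w3⟩) t.mem
      (by rw [w _ e.1.1.bot_mem, z0]; exact not_lt.2 t.nn) (by rw [v _ e.1.1.top_mem, z1]; simp)
      ⟨x, o.2.1, (w x o.2.1).2 t.lt, (v x o.2.1).2 t.one⟩
    suffices T e = _ from this ▸ ‹_ ∧ _›
    ext ⟨a, b, c⟩
    have main : a ≤ b → b ≤ c → c.top ≤ e.1.1 →
        ((0 ≤ e.1.2 - Y e.1.1.bot (be A a) ∧ e.1.2 - Y e.1.1.bot (be A a) < Y (be A a) (be A b) ∧
          1 ≤ X (g b) (g c)) ↔ (be A a ∉ {y | ∃ w ∈ e.1.1.1, w ≤ y ∧ e.1.2 < Y e.1.1.bot w} ∧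
          be A b ∈ {y | ∃ w ∈ e.1.1.1, w ≤ y ∧ e.1.2 < Y e.1.1.bot w} ∧
          g b ∈ {y | ∃ w ∈ e.1.1.1, y ≤ w ∧ 1 ≤ X w e.1.1.top} ∧
          g c ∉ {y | ∃ w ∈ e.1.1.1, y ≤ w ∧ 1 ≤ X w e.1.1.top})) := fun h1 h2 h3 => by
      have lb := (Ch.top_mono h2).trans h3
      have m1 := lb (gm b)
      have m2 := h3 (gm c)
      rw [w _ ((Ch.top_mono h1).trans lb (be_mem A a)), w _ (lb (be_mem A b)), v _ m1, v _ m2,
        yy e h1 lb]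
      have := cX.add' e.2.1 m1 m2 e.1.1.top_mem (hg h2) (Ch.le_top m2)
      have := jx _ _ (e.2.1.dp m1 e.1.1.top_mem (Ch.le_top m1))
      have := hX _ _ (e.2.1.dp m2 e.1.1.top_mem (Ch.le_top m2))
      omega
    exact ⟨fun ⟨h, l⟩ => ⟨h.ab, h.bc, l, h.mem, (main h.ab h.bc l).1 ⟨h.nn, h.lt, h.one⟩⟩,
      fun ⟨h1, h2, h3, h4, h5⟩ => let ⟨k1, k2, k3⟩ := (main h1 h2 h3).2 h5
        ⟨⟨h1, h2, h4, k1, k2, k3⟩, h3⟩⟩
  refine ncmp_le (fun e => {p | ∃ τ ∈ T e, On p τ.1 τ.2.1 τ.2.2 (e.1.2 - Y e.1.1.bot (be A τ.1))})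
    (fun e he => ?_) (fun e he p ⟨τ, h1, h2⟩ q ⟨σ, h3, h4⟩ => ?_) (fun e _ e' _ l p ⟨τ, h1, h2⟩ => ?_)
    fun p hp => ?_
  · obtain ⟨τ, h⟩ := (key e he).1
    obtain ⟨r, -, o, -⟩ := h.1.cell hY'
    exact ⟨r, τ, h, o⟩
  · refine ((key e he).2 τ h1 σ h3).ind (p := fun t => ∀ r, On r t.1 t.2.1 t.2.2
      (e.1.2 - Y e.1.1.bot (be A t.1)) → Rch _ p r) (fun r => h1.1.rch hX' cX' hY' h2)
      (fun a ha b hb l => ?_) q h4
    have m := fun p q => ha.1.rch_le hX' cX' hY' hb.1 l.1 l.2.1 l.2.2 (p := p) (q := q) (by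
      rw [yy e l.1 ((Ch.top_mono (hb.1.ab.trans hb.1.bc)).trans hb.2)]
      show _ = _ + Y _ _
      ring)
    obtain ⟨r1, -, o1, -⟩ := ha.1.cell hY'
    obtain ⟨r2, -, o2, -⟩ := hb.1.cell hY'
    exact ⟨fun j r o => (j r1 o1).trans (m _ _ o1 o), fun j r o => (j r2 o2).trans (m _ _ o o2).symm⟩
  · obtain ⟨l1, l2⟩ := Lv.le_iff.1 l
    have m := h1.2 (Ch.top_mono (h1.1.ab.trans h1.1.bc) (be_mem A τ.1))
    have e1 : e'.1.2 - Y e'.1.1.bot (be A τ.1) = e.1.2 - Y e.1.1.bot (be A τ.1) := by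
      rw [l2, cY.add' e'.2.1 e'.1.1.bot_mem (l1 e.1.1.bot_mem) (l1 m) (Ch.bot_anti l1) (Ch.bot_le m)]
      ring
    exact ⟨τ, ⟨e1 ▸ h1.1, h1.2.trans l1⟩, e1 ▸ h2⟩
  · obtain ⟨x, t, o⟩ := exists_tr hA' hp
    set c := p.1.1.top.top
    have d : Dom A c := Mt.dom ⟨_, c.top_mem, t.mem⟩
    have m0 : be A p.1.1.bot ∈ c.1 := Ch.top_mono p.1.1.bot_le_top (be_mem A _)
    have m1 : be A x ∈ c.1 := Ch.top_mono t.bc (be_mem A _)
    have m2 : g x ∈ c.1 := Ch.top_mono t.bc (gm _)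
    have m3 : g p.1.1.top ∈ c.1 := gm _
    have t' : Tr A X Y (be A p.1.1.bot) (g x) c.top p.1.2 := ⟨(be_mono hA t.ab).trans (gb x),
      Ch.le_top m2, t.mem, t.nn, by
        have := hY _ _ (d.dp m1 m2 (gb x))
        have : p.1.2 < Y _ _ := t.lt
        rw [cY.add' d m0 m1 m2 (be_mono hA t.ab) (gb x)]
        omega, by
        have := hX _ _ (d.dp m3 c.top_mem (Ch.le_top m3))
        have : 1 ≤ X _ _ := t.one
        rw [cX.add' d m2 m3 c.top_mem (hg t.bc) (Ch.le_top m3)]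
        omega⟩
    obtain ⟨e, e1, e2⟩ := t'.exists_on hY m0 m2 c.top_mem
    have e3 : e.1.2 - Y e.1.1.bot (be A p.1.1.bot) = p.1.2 := by rw [e2.2.2.2]; ring
    exact ⟨e, t'.mem_II hX cX e2, (p.1.1.bot, x, p.1.1.top), ⟨e3 ▸ t, e1.ge⟩, e3 ▸ o⟩

end fib

end Crest.Agent.X212.Sup43
end
end

-- ▼ part X212/Sup43/BC
section

/-!
# X212 / Sup43 (helper43): the refinements B and C do not increase the number of crossing curves
-/

set_option autoImplicit false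
set_option linter.unusedSectionVars false

open Finset Classical

noncomputable section

namespace Crest.Agent.X212.Sup43

open Crest.Agent.X212.Hp13

section key

variable {P : Type} [PartialOrder P] {A : Set P}

/-- the value of `be` on a single chain -/
def bv (A : Set P) (d : Ch P) : P := if d.top ∈ A then d.bot else d.top

theorem bv_in {d : Ch P} (h : d.top ∈ A) : bv A d = d.bot := if_pos h
theorem bv_off {d : Ch P} (h : d.top ∉ A) : bv A d = d.top := if_neg h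
theorem bv_mem (d : Ch P) : bv A d ∈ d.1 := by
  unfold bv; split_ifs; exacts [d.bot_mem, d.top_mem]
theorem bv_pt (x : P) : bv A (Ch.pt x) = x := mem_singleton.1 (bv_mem (Ch.pt x))

/-- `e` does not change the value given by `d` -/
def Key (A : Set P) (d e : Ch P) : Prop := (e.top ∈ A ∧ d ≤ e) ∨ (d.top ∉ A ∧ e ≤ d)

theorem Key.rfl {d : Ch P} : Key A d d :=
  (_root_.em (d.top ∈ A)).imp (fun h => ⟨h, le_rfl⟩) fun h => ⟨h, le_rfl⟩

theorem be_key {C : Ch (Ch P)} {d : Ch P} (hd : d ∈ C.1) (h : ∀ e ∈ C.1, Key A d e) :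
    be A C = bv A d := by
  by_cases k : d.top ∈ A
  · have j := fun e he => (h e he).resolve_right fun t => t.1 k
    rw [be_in fun e he => (j e he).1, bv_in k, Ch.bot_eq hd fun e he => (j e he).2]
  · rw [bv_off k]
    exact be_out hd k fun e he hn => ((h e he).resolve_left fun t => hn t.1).2

theorem exists_key (A : Set P) (C : Ch (Ch P)) :
    ∃ d ∈ C.1, (∀ e ∈ C.1, Key A d e) ∧ be A C = bv A d := by
  suffices ∃ d ∈ C.1, ∀ e ∈ C.1, Key A d e from let ⟨d, h1, h2⟩ := this; ⟨d, h1, h2, be_key h1 h2⟩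
  rcases be_cases A C with ⟨k, -⟩ | ⟨c, h1, h2, h3, -⟩
  · exact ⟨_, C.bot_mem, fun e he => Or.inl ⟨k e he, Ch.bot_le he⟩⟩
  · refine ⟨c, h1, fun e he => ?_⟩
    rcases C.total he h1 with l | l
    · exact Or.inr ⟨h2, l⟩
    · exact (_root_.em (e.top ∈ A)).imp (fun t => ⟨t, l⟩) fun t => ⟨h2, h3 e he t⟩

theorem be_pt (d : Ch P) : be A (Ch.pt d) = bv A d :=
  be_key (by simp) (by simpa using Key.rfl)

theorem be_pr1 {d e : Ch P} (h : d ≤ e) (k : Key A d e) : be A (Ch.pr d e h) = bv A d :=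
  be_key (by simp) (by simpa using ⟨Key.rfl, k⟩)

theorem be_pr2 {d e : Ch P} (h : d ≤ e) (k : Key A e d) : be A (Ch.pr d e h) = bv A e :=
  be_key (by simp) (by simpa using ⟨k, Key.rfl⟩)

/-- cone with vertex `c` -/
def cap (c : P) (D : Ch P) : Ch P :=
  Ch.mk' (insert c (D.1.filter (· ≤ c))) (insert_nonempty _ _) fun x hx y hy => by
    rcases mem_insert.1 hx with rfl | hx <;> rcases mem_insert.1 hy with rfl | hy
    exacts [Cm.rfl, Or.inr (mem_filter.1 hy).2, Or.inl (mem_filter.1 hx).2,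
      D.cm (mem_filter.1 hx).1 (mem_filter.1 hy).1]

theorem mem_cap {c x : P} {D : Ch P} : x ∈ (cap c D).1 ↔ x = c ∨ x ∈ D.1 ∧ x ≤ c := by
  simp [cap, Ch.mk']

theorem top_cap (c : P) (D : Ch P) : (cap c D).top = c :=
  Ch.top_eq (mem_cap.2 (Or.inl rfl)) fun _ hx => (mem_cap.1 hx).elim Eq.le And.right

theorem cap_mono {c : P} {D E : Ch P} (h : D ≤ E) : cap c D ≤ cap c E := fun _ hx =>
  mem_cap.2 ((mem_cap.1 hx).imp_right fun k => ⟨h k.1, k.2⟩)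

theorem le_cap {c : P} {D : Ch P} (h : D.top ≤ c) : D ≤ cap c D := fun _ hx =>
  mem_cap.2 (Or.inr ⟨hx, (Ch.le_top hx).trans h⟩)

theorem pt_le_cap {c : P} {D : Ch P} : Ch.pt c ≤ cap c D := Ch.pt_le.2 (mem_cap.2 (Or.inl rfl))

theorem be_cap {c : Ch P} {D : Ch (Ch P)} (h : D.top ≤ c) (hc : c.top ∈ A) :
    be A (cap c D) = be A D := by
  obtain ⟨d, h1, h2, e⟩ := exists_key A D
  rw [e]
  refine be_key (le_cap h h1) fun x hx => ?_
  rcases mem_cap.1 hx with rfl | k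
  exacts [Or.inl ⟨hc, (Ch.le_top h1).trans h⟩, h2 x k.1]

theorem le_of {c d : Ch P} (h : ∀ x ∈ c.1, x ∈ d.1) : c ≤ d := h

theorem le2 {Q R : Type} [PartialOrder Q] [PartialOrder R] {p q : Q × R} (h1 : p.1 ≤ q.1)
    (h2 : p.2 ≤ q.2) : p ≤ q := ⟨h1, h2⟩

theorem conn_of {E : Set P} {n : P} (hn : n ∈ E) (h : ∀ x ∈ E, Rch E x n) : E.Nonempty ∧ Conn E :=
  ⟨⟨n, hn⟩, fun x hx y hy => (h x hx).trans (h y hy).symm⟩

theorem rch_up {E : Set P} {x y m : P} (hx : x ∈ E) (hy : y ∈ E) (hm : m ∈ E) (h1 : x ≤ m)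
    (h2 : y ≤ m) : Rch E x y := (Rch.of_cm hx hm (Or.inl h1)).trans (Rch.of_cm hm hy (Or.inr h2))

/-- from a chain to the top point, inside a condition on `bv` -/
theorem to_top {Q : Type} [PartialOrder Q] {E : Set Q} {g : Ch P} (hg : g.top ∈ A) {U : Set P}
    (hU : g.top ∈ U) (F : ∀ d, d ≤ g → Q)
    (hF : ∀ d e (h1 : d ≤ e) (h2 : e ≤ g), bv A d ∈ U → bv A e ∈ U → Rch E (F d (h1.trans h2)) (F e h2))
    {d : Ch P} (hd : d ≤ g) (h : bv A d ∈ U) : Rch E (F d hd) (F _ (Ch.pt_le.2 g.top_mem)) := by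
  have m := hd (bv_mem (A := A) d)
  have l := Ch.le_top m
  have e : bv A (Ch.pr _ _ l) ∈ U := by rw [bv_in (by simpa), Ch.bot_pr]; exact h
  exact (hF _ d (Ch.pt_le.2 (bv_mem d)) hd (by rwa [bv_pt]) h).symm.trans <|
    (hF _ _ (Ch.pt_le.2 (by simp)) (pr_le m g.top_mem) (by rwa [bv_pt]) e).trans
      (hF _ _ (Ch.pt_le.2 (by simp)) (pr_le m g.top_mem) (by rwa [bv_pt]) e).symm

theorem pair_conn (hA : IsUpperSet A) {W : Set P} (hW : IsUpperSet W) {c : Ch P} (h0 : c.bot ∉ W)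
    (h1 : c.top ∈ W) :
    let S : Set (Ch (Ch P) × Ch (Ch P)) :=
      {τ | τ.1 ≤ τ.2 ∧ τ.2.top ≤ c ∧ be A τ.1 ∉ W ∧ be A τ.2 ∈ W}
    S.Nonempty ∧ Conn S := by
  intro S
  by_cases hc : c.top ∈ A
  · have m : ∀ d (h : d ≤ c), bv A d ∈ W → (Ch.pt c, Ch.pr d c h) ∈ S := fun d h k =>
      ⟨Ch.pt_le.2 (by simp), by simp, by rwa [be_pt, bv_in hc], by rwa [be_pr1 h (Or.inl ⟨hc, h⟩)]⟩
    refine conn_of (m _ (Ch.pt_le.2 c.top_mem) (by rwa [bv_pt])) fun ⟨a, b⟩ h => ?_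
    obtain ⟨k1, k2, k3, k4⟩ := id h
    obtain ⟨d, d1, -, e⟩ := exists_key A b
    have l := (Ch.le_top d1).trans k2
    have la := (Ch.top_mono k1).trans k2
    refine (rch_up (m := (cap c a, cap c b)) h (m d l (e ▸ k4))
      ⟨cap_mono k1, (top_cap _ _).le, by rwa [be_cap la hc], by rwa [be_cap k2 hc]⟩
      (le2 (le_cap la) (le_cap k2))
      (le2 pt_le_cap (pr_le (h := l) (le_cap k2 d1) (mem_cap.2 (Or.inl rfl))))).trans
      (to_top hc h1 (fun d h => (Ch.pt c, Ch.pr d c h)) (fun d e j1 j2 j3 j4 => ?_) l (e ▸ k4))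
    have i : Ch.pr e c j2 ≤ c3 d e c j1 j2 := le_of (by simp)
    exact rch_up (m := (Ch.pt c, c3 d e c j1 j2)) (m _ (j1.trans j2) j3) (m _ j2 j4) ⟨Ch.pt_le.2 (by simp),
      (top_c3 j1 j2).le, (m _ j2 j4).2.2.1, hW (be_mono hA i) (m _ j2 j4).2.2.2⟩
      (le2 le_rfl (le_of (by simp))) (le2 le_rfl i)
  · have o : ∀ D : Ch (Ch P), D.top ≤ c → be A D = D.top.top := fun D h =>
      be_off fun k => hc (hA (Ch.top_mono h) k)
    have m : ∀ d (h : d ≤ c), d.top ∉ W → (Ch.pt d, Ch.pr d c h) ∈ S := fun d h k =>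
      ⟨Ch.pt_le.2 (by simp), by simp, by rwa [o _ (by simpa), Ch.top_pt],
        by rwa [o _ (by simp), Ch.top_pr]⟩
    have z : ∀ d e (j1 : d ≤ e) (j2 : e ≤ c), e.top ∉ W →
        Rch S (Ch.pt d, Ch.pr d c (j1.trans j2)) (Ch.pt e, Ch.pr e c j2) := fun d e j1 j2 j3 =>
      rch_up (m := (Ch.pr d e j1, c3 d e c j1 j2))
        (m _ (j1.trans j2) fun k => j3 (hW (Ch.top_mono j1) k))
        (m _ j2 j3) ⟨le_of (by simp), (top_c3 j1 j2).le, by rwa [o _ (by simpa), Ch.top_pr],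
          by rwa [o _ (top_c3 j1 j2).le, top_c3]⟩ (le2 (le_of (by simp)) (le_of (by simp)))
        (le2 (le_of (by simp)) (le_of (by simp)))
    refine conn_of (m _ (Ch.pt_le.2 c.bot_mem) (by simpa)) fun ⟨a, b⟩ h => ?_
    obtain ⟨k1, k2, k3, k4⟩ := id h
    have la : a.top ≤ c := (Ch.top_mono k1).trans k2
    have k5 : a.top.top ∉ W := o a la ▸ k3
    let e := a.top.ins c.bot fun x hx => Or.inl (Ch.bot_le (la hx))
    have e1 : e ≤ c := insert_subset c.bot_mem la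
    have e2 : e.top ∉ W := by
      rcases mem_insert.1 e.top_mem with j | j
      · rwa [j]
      · exact fun t => k5 (hW (Ch.le_top j) t)
    exact (rch_up (m := (a, cap c b)) h (m _ la k5) ⟨k1.trans (le_cap k2),
      (top_cap _ _).le, k3, hW (be_mono hA (le_cap k2)) k4⟩ (le2 le_rfl (le_cap k2)) (le2 (Ch.pt_le.2 a.top_mem)
        (pr_le (h := la) (le_cap k2 (k1 a.top_mem)) (mem_cap.2 (Or.inl rfl))))).trans
      ((z _ e (Ch.le_ins _ _ _) e1 e2).trans (z _ e (Ch.pt_le.2 (mem_insert_self _ _)) e1 e2).symm)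

theorem fibC_tt (hA : IsUpperSet A) : FibC A tt := by
  intro c W V hW hV hc h0 h1 ⟨x, x1, x2, x3⟩
  let v := c.sub (c.1.filter (· ∈ V)) ⟨x, mem_filter.2 ⟨x1, x3⟩⟩ (filter_subset _ _)
  have v1 : v ≤ c := filter_subset _ _
  obtain ⟨⟨n, hn⟩, k⟩ := pair_conn hA hW (c := v) (fun t => h0 (hW (Ch.bot_le
    (c := v) (mem_filter.2 ⟨c.bot_mem, hV (Ch.bot_le x1) x3⟩)) t))
    (hW (Ch.le_top (c := v) (mem_filter.2 ⟨x1, x3⟩)) x2)
  have t : ∀ b, tt (cap c b) = c.top := fun b => congrArg Ch.top (top_cap c b)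
  have m : ∀ τ : Ch (Ch P) × Ch (Ch P), τ.1 ≤ τ.2 ∧ τ.2.top ≤ v ∧ be A τ.1 ∉ W ∧ be A τ.2 ∈ W →
      (τ.1, τ.2, cap c τ.2) ∈ Sg A tt c W V := fun τ ⟨k1, k2, k3, k4⟩ =>
    ⟨k1, le_cap (k2.trans v1), (top_cap _ _).le, (t _).symm ▸ hc, k3, k4,
      hV (Ch.top_mono k2) (mem_filter.1 v.top_mem).2, (t _).symm ▸ h1⟩
  refine conn_of (m n hn) fun ⟨a, b, e⟩ h => ?_
  obtain ⟨k1, k2, k3, -, k5, k6, k7, -⟩ := id h
  have j : a ≤ b ∧ b.top ≤ v ∧ be A a ∉ W ∧ be A b ∈ W := ⟨k1, fun y hy =>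
    mem_filter.2 ⟨k3 (Ch.top_mono k2 hy), hV (Ch.le_top hy) k7⟩, k5, k6⟩
  exact (rch_up (m := (a, b, cap c e)) h (m (a, b) j) ⟨k1, k2.trans (le_cap k3), (top_cap _ _).le,
    (t _).symm ▸ hc, k5, k6, k7, (t _).symm ▸ h1⟩ (le2 le_rfl (le2 le_rfl (le_cap k3)))
    (le2 le_rfl (le2 le_rfl (cap_mono k2)))).trans ((k (a, b) j n hn).map
      (f := fun τ => (τ.1, τ.2, cap c τ.2)) fun p hp q hq l =>
        Rch.of_cm (m p hp) (m q hq) (Or.inl (Prod.mk_le_mk.2 ⟨(Prod.le_def.1 l).1,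
          Prod.mk_le_mk.2 ⟨(Prod.le_def.1 l).2, cap_mono (Prod.le_def.1 l).2⟩⟩)))

theorem pair_conn' (hA : IsUpperSet A) {W V : Set P} (hW : IsUpperSet W) (hV : IsLowerSet V)
    {c : Ch P} (hc : c.top ∈ A) (h1 : c.top ∉ V) {x : P} (x1 : x ∈ c.1) (x2 : x ∈ W) (x3 : x ∈ V) :
    let S : Set (Ch (Ch P) × Ch (Ch P)) :=
      {τ | τ.1 ≤ τ.2 ∧ τ.2.top ≤ c ∧ be A τ.1 ∈ W ∧ be A τ.1 ∈ V ∧ be A τ.2 ∉ V}
    S.Nonempty ∧ Conn S := by
  intro S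
  let g := c.sub (c.1.filter (· ∈ W)) ⟨x, mem_filter.2 ⟨x1, x2⟩⟩ (filter_subset _ _)
  have g1 : g ≤ c := filter_subset _ _
  have g2 : g.top = c.top := le_antisymm (Ch.top_mono g1)
    (Ch.le_top (c := g) (mem_filter.2 ⟨c.top_mem, hW (Ch.le_top x1) x2⟩))
  have g3 : g.top ∈ A := g2 ▸ hc
  have zig : ∀ {p q : Ch (Ch P) × Ch (Ch P)} (m u : Ch (Ch P)), p ∈ S → q ∈ S → p.1 ≤ m → q.1 ≤ m →
      p.2 ≤ u → q.2 ≤ u → m ≤ u → u.top ≤ c → be A m ∈ V → Rch S p q :=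
    fun m u hp hq a1 a2 a3 a4 a5 a6 a7 => rch_up (m := (m, u)) hp hq
      ⟨a5, a6, hW (be_mono hA a1) hp.2.2.1, a7, fun k => hp.2.2.2.2 (hV (be_mono hA a3) k)⟩
      (le2 a1 a3) (le2 a2 a4)
  have gv : be A (Ch.pt g) ∈ V := by
    rw [be_pt, bv_in g3]; exact hV (Ch.bot_le (c := g) (mem_filter.2 ⟨x1, x2⟩)) x3
  have m : ∀ d (h : d ≤ g), bv A d ∉ V → (Ch.pt g, Ch.pr d g h) ∈ S := fun d h k =>
    ⟨Ch.pt_le.2 (by simp), by simpa, by rw [be_pt]; exact (mem_filter.1 (bv_mem g)).2, gv,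
      by rwa [be_pr1 h (Or.inl ⟨g3, h⟩)]⟩
  have fin : ∀ d (h : d ≤ g), bv A d ∉ V →
      Rch S (Ch.pt g, Ch.pr d g h) (Ch.pt g, Ch.pr _ g (Ch.pt_le.2 g.top_mem)) := fun d h k =>
    to_top (U := Vᶜ) g3 (g2 ▸ h1) (fun d h => (Ch.pt g, Ch.pr d g h)) (fun d e j1 j2 j3 j4 =>
      zig _ (c3 d e g j1 j2) (m _ (j1.trans j2) j3) (m _ j2 j4) le_rfl le_rfl (le_of (by simp))
        (le_of (by simp)) (Ch.pt_le.2 (by simp)) (by rwa [top_c3]) gv) h k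
  refine conn_of (m _ (Ch.pt_le.2 g.top_mem) (by rwa [bv_pt, g2])) fun ⟨b, e⟩ h => ?_
  obtain ⟨k1, k2, k3, k4, k5⟩ := id h
  obtain ⟨d, d1, -, d3⟩ := exists_key A b
  obtain ⟨f, f1, f2, f3⟩ := exists_key A e
  simp only [d3, f3] at k3 k4 k5
  have dc : d ≤ c := (Ch.le_top (k1 d1)).trans k2
  have fc : f ≤ c := (Ch.le_top f1).trans k2
  rcases f2 d (k1 d1) with ⟨j1, j2⟩ | ⟨j1, j2⟩
  · have dg : d ≤ g := fun y hy => mem_filter.2 ⟨dc hy, hW (Ch.bot_le hy) (bv_in j1 ▸ k3)⟩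
    have s1 : (Ch.pt d, Ch.pr f d j2) ∈ S := ⟨Ch.pt_le.2 (by simp), by simpa, by rwa [be_pt],
      by rwa [be_pt], by rwa [be_pr1 j2 (Or.inl ⟨j1, j2⟩)]⟩
    exact (Rch.of_cm h s1 (Or.inr (le2 (Ch.pt_le.2 d1) (pr_le (h := j2) f1 (k1 d1))))).trans <|
      (zig (Ch.pr d g dg) (c3 f d g j2 dg) s1 (m f (j2.trans dg) k5) (Ch.pt_le.2 (by simp))
        (Ch.pt_le.2 (by simp)) (le_of (by simp)) (le_of (by simp))
        (le_of (by simp)) (by rwa [top_c3]) (by rwa [be_pr1 dg (Or.inl ⟨g3, dg⟩)])).trans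
      (fin _ _ k5)
  · have l := Ch.top_mono j2
    have j0 : d.top ∉ A := fun t => j1 (hA l t)
    rw [bv_off j0] at k3 k4
    rw [bv_off j1] at k5
    have xd : Ch.pt d.top ≤ d := Ch.pt_le.2 d.top_mem
    have xy : Ch.pt d.top ≤ Ch.pr _ _ l := Ch.pt_le.2 (by simp)
    have yf : Ch.pr _ _ l ≤ f := pr_le (j2 d.top_mem) f.top_mem
    have yg : Ch.pr _ _ l ≤ g := pr_le (mem_filter.2 ⟨dc d.top_mem, k3⟩)
      (mem_filter.2 ⟨fc f.top_mem, hW l k3⟩)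
    have bx : be A (Ch.pt (Ch.pt d.top)) = d.top := by rw [be_pt, bv_pt]
    have by' : bv A (Ch.pr _ _ l) ∉ V := by rwa [bv_off (by simpa), Ch.top_pr]
    have s1 : (Ch.pt d, Ch.pr d f j2) ∈ S := ⟨Ch.pt_le.2 (by simp), by simpa,
      by rwa [be_pt, bv_off j0], by rwa [be_pt, bv_off j0],
      by rwa [be_pr2 j2 (Or.inr ⟨j1, j2⟩), bv_off j1]⟩
    have s2 : (Ch.pt (Ch.pt d.top), Ch.pr _ f (xd.trans j2)) ∈ S := ⟨Ch.pt_le.2 (by simp), by simpa,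
      bx.symm ▸ k3, bx.symm ▸ k4, by rwa [be_pr2 _ (Or.inr ⟨j1, xd.trans j2⟩), bv_off j1]⟩
    have s3 : (Ch.pt (Ch.pt d.top), Ch.pr _ _ xy) ∈ S := ⟨Ch.pt_le.2 (by simp),
      by simpa using yf.trans fc, bx.symm ▸ k3, bx.symm ▸ k4,
      by rwa [be_pr2 _ (Or.inr ⟨by simpa, xy⟩)]⟩
    exact (Rch.of_cm h s1 (Or.inr (le2 (Ch.pt_le.2 d1) (pr_le (h := j2) (k1 d1) f1)))).trans <|
      (zig (Ch.pr _ d xd) (c3 _ d f xd j2) s1 s2 (Ch.pt_le.2 (by simp)) (Ch.pt_le.2 (by simp))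
        (le_of (by simp)) (le_of (by simp)) (le_of (by simp))
        (by rwa [top_c3]) (by rwa [be_pr2 _ (Or.inr ⟨j0, xd⟩), bv_off j0])).trans <|
      (zig _ (c3 _ _ f xy yf) s2 s3 le_rfl le_rfl (le_of (by simp))
        (le_of (by simp)) (Ch.pt_le.2 (by simp)) (by rwa [top_c3]) (bx.symm ▸ k4)).trans <|
      (zig (Ch.pr _ g (xy.trans yg)) (c3 _ _ g xy yg) s3 (m _ yg by') (Ch.pt_le.2 (by simp))
        (Ch.pt_le.2 (by simp)) (le_of (by simp)) (le_of (by simp))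
        (le_of (by simp)) (by rwa [top_c3])
        (by rwa [be_pr1 _ (Or.inl ⟨g3, xy.trans yg⟩), bv_pt])).trans (fin _ _ by')

theorem fibC_be (hA : IsUpperSet A) : FibC A (be A) := by
  intro c W V hW hV hc h0 h1 ⟨x, x1, x2, x3⟩
  obtain ⟨⟨n, hn⟩, k⟩ := pair_conn' hA hW hV hc h1 x1 x2 x3
  have t : ∀ b, tt (cap c b) ∈ A := fun b => by
    show (cap c b).top.top ∈ A
    rwa [top_cap]
  have m : ∀ τ : Ch (Ch P) × Ch (Ch P),
      τ.1 ≤ τ.2 ∧ τ.2.top ≤ c ∧ be A τ.1 ∈ W ∧ be A τ.1 ∈ V ∧ be A τ.2 ∉ V →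
      (Ch.pt c, cap c τ.1, cap c τ.2) ∈ Sg A (be A) c W V := fun τ ⟨k1, k2, k3, k4, k5⟩ =>
    have l := be_cap (A := A) ((Ch.top_mono k1).trans k2) hc
    ⟨pt_le_cap, cap_mono k1, (top_cap _ _).le, t _, by rwa [be_pt, bv_in hc], l.symm ▸ k3,
      l.symm ▸ k4, (be_cap k2 hc).symm ▸ k5⟩
  refine conn_of (m n hn) fun ⟨a, b, e⟩ h => ?_
  obtain ⟨k1, k2, k3, -, k5, k6, k7, k8⟩ := id h
  have j := m (b, e) ⟨k2, k3, k6, k7, k8⟩
  have lb := (Ch.top_mono k2).trans k3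
  have la := (Ch.top_mono k1).trans lb
  exact (rch_up (m := (cap c a, cap c b, cap c e)) h j ⟨cap_mono k1, cap_mono k2, (top_cap _ _).le,
    t _, (be_cap la hc).symm ▸ k5, j.2.2.2.2.2⟩ (le2 (le_cap la) (le2 (le_cap lb) (le_cap k3)))
    (le2 pt_le_cap le_rfl)).trans ((k (b, e) ⟨k2, k3, k6, k7, k8⟩ n hn).map
      (f := fun τ => (Ch.pt c, cap c τ.1, cap c τ.2)) fun p hp q hq l =>
        Rch.of_cm (m p hp) (m q hq) (Or.inl (le2 le_rfl (le2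
          (cap_mono (Prod.le_def.1 l).1) (cap_mono (Prod.le_def.1 l).2)))))

end key

theorem bStmt : BStmt := fun _ _ _ _ h h' => mu_le h.up h.sx.mono h.sx.coc h.jx h.sy.mono h.sy.coc
  (be_mono h.up) (be_mem _) (fun _ => le_rfl) (fibC_be h.up) h'

theorem cStmt : CStmt := fun _ _ _ _ h h' => mu_le h.up h.sx.mono h.sx.coc h.jx h.sy.mono h.sy.coc
  (Ch.top_mono.comp Ch.top_mono) (fun C => C.top.top_mem) (be_le _) (fibC_tt h.up) h'

end Crest.Agent.X212.Sup43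
end
end

-- ▼ part X212/Alg36/Ext

/-! EXT (helper36): a convex connected piece of a surface with positive `ee` is a local
extremum. -/

set_option autoImplicit false
set_option linter.unusedSectionVars false

namespace Crest.Agent.X212.Alg36

open Finset Classical
open Crest.Agent.X212.Hp13

variable {P : Type} [PartialOrder P] [Fintype P] {E : Set P}

/-- the chains that cross `E` from below to above -/
noncomputable def sut (E : Set P) : Finset (Ch P) :=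
  univ.filter fun c => Mt E c ∧ c.bot ∉ E ∧ c.top ∉ E

theorem mem_sut {c : Ch P} : c ∈ sut E ↔ Mt E c ∧ c.bot ∉ E ∧ c.top ∉ E := by simp [sut]

theorem three_le_sut {c : Ch P} (hE : E.OrdConnected) (h : c ∈ sut E) : 3 ≤ c.1.card := by
  obtain ⟨⟨a, ha, k⟩, h1, h2⟩ := mem_sut.1 h
  have e1 : c.bot ≠ a := fun e => h1 (e ▸ k)
  have e2 : a ≠ c.top := fun e => h2 (e ▸ k)
  have e3 : c.bot ≠ c.top := fun e => h1 (hE.out k k ⟨e ▸ Ch.le_top ha, Ch.bot_le ha⟩)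
  rw [← card_eq_three.2 ⟨_, _, _, e1, e3, e2, rfl⟩]
  exact card_le_card (insert_subset c.bot_mem (insert_subset ha (singleton_subset_iff.2 c.top_mem)))

/-- `2 ee = 2 eu - #(ends of sutures)` on a surface -/
theorem Mf.two_ee (h : Mf 2 E) (hE : E.OrdConnected) : 2 * ee E = 2 * eu E - (sut E).card := by
  have h1 := sum_top (ind E)
  have h2 := sum_bot (ind E)
  have h3 : ∑ a, bet a * ind E a = -∑ a, eps a * ind E a := by
    rw [← sum_neg_distrib]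
    refine sum_congr rfl fun a _ => ?_
    by_cases k : a ∈ E
    · rw [h.bet_eq k]; ring
    · simp [ind_of_not k]
  have h4 := Mf.sum_iMt h
  have h5 := eu_eq E
  have h6 : ∑ c : Ch P, c.sg * (if c ∈ sut E then 1 else 0) = -((sut E).card : ℤ) := by
    simp only [mul_ite, mul_one, mul_zero]
    rw [← sum_filter, filter_mem_eq_inter, univ_inter, card_eq_sum_ones, Nat.cast_sum,
      ← sum_neg_distrib]
    refine sum_congr rfl fun c hc => ?_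
    rw [Ch.sg, le_antisymm (h.card_le c (mem_sut.1 hc).1) (three_le_sut hE hc)]
    norm_num
  have h7 : ∑ c : Ch P, c.sg * iMt E c = ∑ c : Ch P, c.sg * ind E c.top +
      ∑ c : Ch P, c.sg * ind E c.bot - ∑ c : Ch P, c.sg * iIn E c +
      ∑ c : Ch P, c.sg * (if c ∈ sut E then 1 else 0) := by
    rw [← sum_add_distrib, ← sum_sub_distrib, ← sum_add_distrib]
    refine sum_congr rfl fun c _ => ?_
    rw [← mul_add, ← mul_sub, ← mul_add]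
    congr 1
    by_cases a : c.bot ∈ E <;> by_cases b : c.top ∈ E
    · have : ∀ x ∈ c.1, x ∈ E := fun x hx => hE.out a b ⟨Ch.bot_le hx, Ch.le_top hx⟩
      simp [iMt_of ⟨_, c.top_mem, b⟩, ind_of_mem a, ind_of_mem b, iIn, if_pos this, mem_sut, a]
    · have : ¬ ∀ x ∈ c.1, x ∈ E := fun k => b (k _ c.top_mem)
      simp [iMt_of ⟨_, c.bot_mem, a⟩, ind_of_mem a, ind_of_not b, iIn, if_neg this, mem_sut, a]
    · have : ¬ ∀ x ∈ c.1, x ∈ E := fun k => a (k _ c.bot_mem)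
      simp [iMt_of ⟨_, c.top_mem, b⟩, ind_of_not a, ind_of_mem b, iIn, if_neg this, mem_sut, b]
    · have : ¬ ∀ x ∈ c.1, x ∈ E := fun k => a (k _ c.bot_mem)
      simp [iMt, ind_of_not a, ind_of_not b, iIn, if_neg this, mem_sut, a, b]
  rw [sum_eps_ind] at h1 h3
  norm_num at h4
  omega

theorem extStmt : Sup43.ExtStmt := by
  intro L _ _ R E hR hE hc hn hp
  have h := hR.mono hE
  have h1 := Mf.two_ee h hc
  by_contra k
  simp only [not_or, IsLowerSet, IsUpperSet, not_forall] at k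
  obtain ⟨⟨a, x, hx, ha, hx'⟩, b, y, hy, hb, hy'⟩ := k
  have m1 := pr_mix ha hx' (Or.inr hx)
  have m2 := pr_mix hb hy' (Or.inl hy)
  have h2 := Sf30.eu_le_one' h hn ⟨_, m1⟩
  rcases (sut E).eq_empty_or_nonempty with e | e
  · have n : ∀ c : Ch L, Mt E c → c.bot ∉ E → c.top ∈ E := fun c k1 k2 => by_contra fun k3 =>
      notMem_empty c (e ▸ mem_sut.2 ⟨k1, k2, k3⟩)
    have := Sf30.eu_add_le h hn (fun c => c.bot ∈ E) (fun c m d k => propext ⟨fun l => ?_,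
      fun l => ?_⟩) univ fun i _ => ?_
    · simp only [card_univ, Fintype.card_prop] at this
      omega
    · by_contra l'
      exact ((mt_compl hc m.1).1 m.2).resolve_left (not_not.2 l)
        (hc.out l (n d (m.1.mono k) l') ⟨c.bot_le_top, Ch.top_mono k⟩)
    · obtain ⟨t, ht, ht'⟩ := m.1
      exact hc.out l ht' ⟨Ch.bot_anti k, Ch.bot_le ht⟩
    · by_cases k : i
      · exact ⟨_, m2, by rw [bot_pr hy]; simp [hb, k]⟩
      · refine ⟨_, m1, propext ⟨fun l => absurd ?_ hx', fun l => absurd l k⟩⟩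
        exact hc.out l ha ⟨Ch.bot_le ((mem_pr _).2 (Or.inr rfl)), hx⟩
  · have := e.card_pos
    omega

end Crest.Agent.X212.Alg36
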