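import Mathlib
import Crest.Agent.X212.Kh11.Fib3
import Crest.Agent.X212.Hp13.Defs

-- ▼ part X212/Alg36/Lin
section

/-! ALG (helper36), format-free part: the cochain complex of the order complex of a finite set `A`
of a partial order, over a field; Euler characteristic against first cohomology. -/

set_option autoImplicit false

namespace Crest.Agent.X212.Alg36

open Finset Module

section rank

variable {K : Type*} [Field K] {V0 V1 V2 V3 : Type*} [AddCommGroup V0] [Module K V0]
  [AddCommGroup V1] [Module K V1] [AddCommGroup V2] [Module K V2] [AddCommGroup V3] [Module K V3]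
  [FiniteDimensional K V0] [FiniteDimensional K V1] [FiniteDimensional K V2]

/-- rank count in a four term complex with vanishing top and first cohomology. -/
theorem rank_four (d0 : V0 →ₗ[K] V1) (d1 : V1 →ₗ[K] V2) (d2 : V2 →ₗ[K] V3)
    (h21 : ∀ x, d2 (d1 x) = 0) (hs : Function.Surjective d2)
    (h1 : ∀ x, d1 x = 0 → ∃ y, d0 y = x) :
    finrank K V1 + finrank K V3 + finrank K (LinearMap.ker d0) ≤ finrank K V0 + finrank K V2 := by
  have e0 := LinearMap.finrank_range_add_finrank_ker d0
  have e1 := LinearMap.finrank_range_add_finrank_ker d1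
  have e2 := LinearMap.finrank_range_add_finrank_ker d2
  have r2 : finrank K (LinearMap.range d2) = finrank K V3 := by
    rw [LinearMap.range_eq_top.2 hs, finrank_top]
  have l1 : finrank K (LinearMap.range d1) ≤ finrank K (LinearMap.ker d2) := by
    apply Submodule.finrank_mono
    rintro _ ⟨x, rfl⟩
    exact h21 x
  have l0 : finrank K (LinearMap.ker d1) ≤ finrank K (LinearMap.range d0) := by
    apply Submodule.finrank_mono
    intro x hx
    exact h1 x hx
  omega

end rank

/-- a matrix whose transpose has no kernel is onto. -/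
theorem surj_of_transpose {K : Type*} [Field K] {m n : Type*} [Fintype m] [Fintype n]
    [DecidableEq m] [DecidableEq n] (B : Matrix m n K)
    (h : ∀ u : m → K, Matrix.vecMul u B = 0 → u = 0) : Function.Surjective B.mulVecLin := by
  have h1 : Function.Injective B.transpose.mulVecLin := by
    rw [← LinearMap.ker_eq_bot, LinearMap.ker_eq_bot']
    intro u hu
    apply h u
    simpa [Matrix.mulVec_transpose] using hu
  have h2 : B.transpose.rank = Fintype.card m := by
    unfold Matrix.rank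
    rw [LinearMap.finrank_range_of_inj h1]
    simp
  rw [Matrix.rank_transpose] at h2
  rw [← LinearMap.range_eq_top]
  apply Submodule.eq_top_of_finrank_eq
  unfold Matrix.rank at h2
  rw [h2]
  simp

end Crest.Agent.X212.Alg36
end

-- ▼ part X212/Alg36/Cx
section

/-! ALG (helper36): cochains on the chains of a finite set `A` of a partial order. -/

set_option autoImplicit false

namespace Crest.Agent.X212.Alg36

open Finset Module

variable {α : Type*} [PartialOrder α]

open Classical in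
/-- chains with `k` elements inside `A`. -/
noncomputable def chains (A : Finset α) (k : ℕ) : Finset (Finset α) :=
  A.powerset.filter fun c => IsChain (· ≤ ·) (c : Set α) ∧ c.card = k

theorem mem_chains {A : Finset α} {k : ℕ} {c : Finset α} :
    c ∈ chains A k ↔ c ⊆ A ∧ IsChain (· ≤ ·) (c : Set α) ∧ c.card = k := by
  classical
  simp [chains]

theorem chains_mono {A B : Finset α} (h : A ⊆ B) (k : ℕ) : chains A k ⊆ chains B k := by
  intro c hc
  rw [mem_chains] at hc ⊢
  exact ⟨hc.1.trans h, hc.2⟩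

open Classical in
/-- the sign of `x` in the chain `c`. -/
noncomputable def sg (c : Finset α) (x : α) : ℤ := (-1) ^ (c.filter (· < x)).card

theorem sg_sq (c : Finset α) (x : α) : sg c x * sg c x = 1 := by
  unfold sg
  rw [← pow_add, ← two_mul, pow_mul]
  simp

theorem sg_ne (K : Type*) [Ring K] [Nontrivial K] (c : Finset α) (x : α) : (sg c x : K) ≠ 0 := by
  intro h
  have := congrArg (fun t : ℤ => (t : K)) (sg_sq c x)
  simp [h] at this

variable [DecidableEq α]

theorem erase_mem_chains {A : Finset α} {k : ℕ} {c : Finset α} (hc : c ∈ chains A (k + 1))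
    {x : α} (hx : x ∈ c) : c.erase x ∈ chains A k := by
  rw [mem_chains] at hc ⊢
  refine ⟨(erase_subset _ _).trans hc.1, hc.2.1.mono (by simp), ?_⟩
  rw [card_erase_of_mem hx, hc.2.2]
  rfl

theorem sg_erase_lt {c : Finset α} {x y : α} (hx : x ∈ c) (h : x < y) :
    sg (c.erase x) y = -sg c y := by
  classical
  unfold sg
  have : c.filter (· < y) = insert x ((c.erase x).filter (· < y)) := by
    ext t
    simp only [mem_filter, mem_insert, mem_erase]
    constructor
    · rintro ⟨h1, h2⟩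
      by_cases ht : t = x
      · exact Or.inl ht
      · exact Or.inr ⟨⟨ht, h1⟩, h2⟩
    · rintro (rfl | ⟨⟨_, h1⟩, h2⟩)
      · exact ⟨hx, h⟩
      · exact ⟨h1, h2⟩
  have e : ∀ (s t : Finset α), s = t → s.card = t.card := fun _ _ h => by rw [h]
  have h2 := e _ _ this
  rw [card_insert_of_notMem (by simp)] at h2
  convert (show (-1 : ℤ) ^ ((c.erase x).filter (· < y)).card =
    -(-1) ^ (c.filter (· < y)).card by rw [h2, pow_succ]; ring)

theorem sg_erase_nlt {c : Finset α} {x y : α} (h : ¬ x < y) : sg (c.erase x) y = sg c y := by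
  classical
  unfold sg
  congr 2
  ext t
  simp only [mem_filter, mem_erase]
  constructor
  · rintro ⟨⟨_, h1⟩, h2⟩
    exact ⟨h1, h2⟩
  · rintro ⟨h1, h2⟩
    exact ⟨⟨fun e => h (e ▸ h2), h1⟩, h2⟩

variable {K : Type*} [Field K]

/-- the coboundary. -/
noncomputable def dd (φ : Finset α → K) (c : Finset α) : K := ∑ x ∈ c, (sg c x : K) * φ (c.erase x)

theorem dd_dd (φ : Finset α → K) {c : Finset α} (hc : IsChain (· ≤ ·) (c : Set α)) :
    dd (dd φ) c = 0 := by
  unfold dd
  simp only [mul_sum]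
  rw [sum_sigma']
  refine sum_involution (fun p _ => ⟨p.2, p.1⟩) ?_ ?_ ?_ ?_
  · rintro ⟨x, y⟩ hp
    simp only [mem_sigma, mem_erase] at hp
    obtain ⟨hx, hne, hy⟩ := hp
    simp only
    rw [erase_right_comm (a := y)]
    rcases hc hx hy (Ne.symm hne) with h | h
    · have hl : x < y := lt_of_le_of_ne h (Ne.symm hne)
      rw [sg_erase_lt hx hl, sg_erase_nlt (c := c) (x := y) (y := x) (not_lt_of_gt hl)]
      push_cast
      ring
    · have hl : y < x := lt_of_le_of_ne h hne
      rw [sg_erase_lt hy hl, sg_erase_nlt (c := c) (x := x) (y := y) (not_lt_of_gt hl)]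
      push_cast
      ring
  · rintro ⟨x, y⟩ hp _ h
    simp only [mem_sigma, mem_erase] at hp
    have := congrArg Sigma.fst h
    exact hp.2.1 this
  · rintro ⟨x, y⟩ hp
    simp only [mem_sigma, mem_erase] at hp ⊢
    exact ⟨hp.2.2, Ne.symm hp.2.1, hp.1⟩
  · rintro ⟨x, y⟩ _
    rfl

theorem dd_congr {φ ψ : Finset α → K} {c : Finset α} (h : ∀ x ∈ c, φ (c.erase x) = ψ (c.erase x)) :
    dd φ c = dd ψ c := sum_congr rfl fun x hx => by rw [h x hx]

/-- the matrix of the coboundary. -/
noncomputable def mat (K : Type*) [Field K] (A : Finset α) (k : ℕ) :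
    Matrix (chains A (k + 1)) (chains A k) K :=
  fun c e => ∑ x ∈ c.1, if c.1.erase x = e.1 then (sg c.1 x : K) else 0

/-- extension by zero. -/
noncomputable def ex {A : Finset α} {k : ℕ} (φ : chains A k → K) (c : Finset α) : K :=
  if h : c ∈ chains A k then φ ⟨c, h⟩ else 0

theorem ex_mem {A : Finset α} {k : ℕ} (φ : chains A k → K) {c : Finset α} (h : c ∈ chains A k) :
    ex φ c = φ ⟨c, h⟩ := by
  simp [ex, h]

theorem ex_not {A : Finset α} {k : ℕ} (φ : chains A k → K) {c : Finset α} (h : c ∉ chains A k) :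
    ex φ c = 0 := by
  simp [ex, h]

theorem mat_mulVec {A : Finset α} {k : ℕ} (φ : chains A k → K) (c : chains A (k + 1)) :
    (mat K A k).mulVec φ c = dd (ex φ) c.1 := by
  unfold dd Matrix.mulVec dotProduct mat
  simp only [sum_mul]
  rw [sum_comm]
  refine sum_congr rfl fun x hx => ?_
  have hm := erase_mem_chains c.2 hx
  rw [ex_mem φ hm, sum_eq_single ⟨_, hm⟩]
  · simp
  · intro e _ he
    rw [if_neg, zero_mul]
    intro h
    exact he (Subtype.ext h.symm)
  · simp

theorem mat_mat {A : Finset α} {k : ℕ} (φ : chains A k → K) :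
    (mat K A (k + 1)).mulVec ((mat K A k).mulVec φ) = 0 := by
  funext c
  rw [mat_mulVec, dd_congr (ψ := dd (ex φ))]
  · exact dd_dd _ (mem_chains.1 c.2).2.1
  · intro x hx
    rw [ex_mem _ (erase_mem_chains c.2 hx), mat_mulVec]

/-- the boundary of a chain `u`, read on `e`. -/
noncomputable def bd (A : Finset α) (k : ℕ) (u : Finset α → K) (e : Finset α) : K :=
  ∑ c ∈ chains A (k + 1), u c * ∑ x ∈ c, if c.erase x = e then (sg c x : K) else 0

theorem vecMul_mat {A : Finset α} {k : ℕ} (u : chains A (k + 1) → K) (e : chains A k) :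
    Matrix.vecMul u (mat K A k) e = bd A k (ex u) e.1 := by
  unfold bd Matrix.vecMul dotProduct mat
  rw [← sum_coe_sort (chains A (k + 1))]
  refine sum_congr rfl fun c _ => ?_
  rw [ex_mem u c.2]

/-- the coefficient of `e` in the boundary of `c` is `± 1` when `e` is a facet of `c`. -/
theorem coef_ne {c e : Finset α} (he : e ⊆ c) (hc : c.card = e.card + 1) :
    (∑ x ∈ c, if c.erase x = e then (sg c x : K) else 0) ≠ 0 := by
  obtain ⟨x, hx, hxe⟩ : ∃ x, x ∈ c ∧ x ∉ e := by
    by_contra h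
    push Not at h
    have := card_le_card (show c ⊆ e from h)
    omega
  have hx2 : c.erase x = e := by
    symm
    apply eq_of_subset_of_card_le
    · intro t ht
      exact mem_erase.2 ⟨fun h => hxe (h ▸ ht), he ht⟩
    · rw [card_erase_of_mem hx]
      omega
  rw [sum_eq_single x, if_pos hx2]
  · exact sg_ne K c x
  · intro y hy hyx
    rw [if_neg]
    intro h
    have : x ∈ c.erase y := mem_erase.2 ⟨Ne.symm hyx, hx⟩
    exact hxe (h ▸ this)
  · intro h
    exact absurd hx h

theorem coef_zero {c e : Finset α} (he : ¬ e ⊆ c) :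
    (∑ x ∈ c, if c.erase x = e then (sg c x : K) else 0) = 0 := by
  refine sum_eq_zero fun x _ => if_neg fun h => he ?_
  rw [← h]
  exact erase_subset _ _

end Crest.Agent.X212.Alg36
end

-- ▼ part X212/Alg36/Half
section

/-! ALG (helper36): in a strongly connected 3-dimensional pseudo-manifold, a proper part `A` with
`χ(A) ≤ 0` carries an integer cocycle that is not a coboundary. -/

set_option autoImplicit false

namespace Crest.Agent.X212.Alg36

open Finset Module

variable {α : Type*} [PartialOrder α]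

/-- `z` is a cocycle on `A` (a functor from the order on `A` to `G`). -/
def FCoc {G : Type*} [Add G] (A : Finset α) (z : α → α → G) : Prop :=
  ∀ x ∈ A, ∀ y ∈ A, ∀ t ∈ A, x ≤ y → y ≤ t → z x t = z x y + z y t

/-- `z` is a coboundary on `A`. -/
def FEx {G : Type*} [Sub G] (A : Finset α) (z : α → α → G) : Prop :=
  ∃ g : α → G, ∀ x ∈ A, ∀ y ∈ A, x ≤ y → z x y = g y - g x

/-- two `n + 1`-element chains of `P` share a facet. -/
def Adj (P : Finset α) (n : ℕ) (c c' : Finset α) : Prop :=
  c ∈ chains P (n + 1) ∧ c' ∈ chains P (n + 1) ∧ ∃ e ∈ chains P n, e ⊆ c ∧ e ⊆ c'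

/-- pseudo-manifold: a chain with `n` elements has at most two extensions, and the top chains are
connected through facets. -/
structure PM (P : Finset α) (n : ℕ) : Prop where
  two : ∀ e ∈ chains P n, ∀ a ∈ chains P (n + 1), ∀ b ∈ chains P (n + 1), ∀ c ∈ chains P (n + 1),
    e ⊆ a → e ⊆ b → e ⊆ c → a = b ∨ a = c ∨ b = c
  conn : ∀ a ∈ chains P (n + 1), ∀ b ∈ chains P (n + 1), Relation.ReflTransGen (Adj P n) a b

variable [DecidableEq α] {K : Type*} [Field K]

theorem PM.step {P : Finset α} {n : ℕ} (h : PM P n) {u : Finset α → K}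
    (hu : ∀ e ∈ chains P n, bd P n u e = 0) {a b : Finset α} (hab : Adj P n a b) (ha : u a = 0) :
    u b = 0 := by
  obtain ⟨h1, h2, e, he, hea, heb⟩ := hab
  by_cases hE : a = b
  · exact hE ▸ ha
  have := hu e he
  unfold bd at this
  rw [sum_eq_single b] at this
  · rcases mul_eq_zero.1 this with h0 | h0
    · exact h0
    · refine absurd h0 (coef_ne heb ?_)
      rw [(mem_chains.1 h2).2.2, (mem_chains.1 he).2.2]
  · intro c hc hcb
    by_cases hec : e ⊆ c
    · rcases h.two e he a h1 b h2 c hc hea heb hec with h3 | h3 | h3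
      · exact absurd h3 hE
      · rw [← h3, ha, zero_mul]
      · exact absurd h3.symm hcb
    · rw [coef_zero hec, mul_zero]
  · intro h3
    exact absurd h2 h3

/-- a top cycle supported in a proper part vanishes. -/
theorem PM.cyc_zero {P A : Finset α} {n : ℕ} (h : PM P n) (hA : A ⊆ P) {c0 : Finset α}
    (h0 : c0 ∈ chains P (n + 1)) (h0A : ¬ c0 ⊆ A) (u : chains A (n + 1) → K)
    (hu : Matrix.vecMul u (mat K A n) = 0) : u = 0 := by
  have key : ∀ e ∈ chains P n, bd P n (ex u) e = 0 := by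
    intro e he
    have e1 : bd P n (ex u) e = bd A n (ex u) e := by
      unfold bd
      symm
      refine sum_subset (chains_mono hA _) fun c _ hc => ?_
      rw [ex_not u hc, zero_mul]
    rw [e1]
    by_cases heA : e ∈ chains A n
    · have := congrFun hu ⟨e, heA⟩
      rwa [vecMul_mat] at this
    · unfold bd
      refine sum_eq_zero fun c hc => ?_
      rw [coef_zero, mul_zero]
      intro hec
      exact heA (mem_chains.2 ⟨hec.trans (mem_chains.1 hc).1, (mem_chains.1 he).2⟩)
  have z0 : ex u c0 = 0 := ex_not u fun hc => h0A (mem_chains.1 hc).1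
  funext c
  have hc := h.conn c0 h0 c.1 (chains_mono hA _ c.2)
  have : ex u c.1 = 0 := by
    generalize c.1 = d at hc
    induction hc with
    | refl => exact z0
    | tail _ h2 ih => exact h.step key h2 ih
  rwa [ex_mem u c.2] at this

theorem sg_eq {c : Finset α} {x : α} {s : Finset α} (h : ∀ t, (t ∈ c ∧ t < x) ↔ t ∈ s) :
    sg c x = (-1) ^ s.card := by
  classical
  unfold sg
  congr 2
  ext t
  rw [mem_filter, h]

theorem dd_pair (φ : Finset α → K) {x y : α} (h : x < y) : dd φ {x, y} = φ {y} - φ {x} := by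
  unfold dd
  rw [sum_pair h.ne]
  have s1 : sg ({x, y} : Finset α) x = (-1) ^ (∅ : Finset α).card := sg_eq fun t => by
    simp only [mem_insert, mem_singleton, notMem_empty, iff_false]
    rintro ⟨rfl | rfl, h2⟩
    · exact lt_irrefl _ h2
    · exact lt_asymm h h2
  have s2 : sg ({x, y} : Finset α) y = (-1) ^ ({x} : Finset α).card := sg_eq fun t => by
    simp only [mem_insert, mem_singleton]
    constructor
    · rintro ⟨rfl | rfl, h2⟩
      · rfl
      · exact absurd h2 (lt_irrefl _)
    · rintro rfl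
      exact ⟨Or.inl rfl, h⟩
  have e1 : ({x, y} : Finset α).erase x = {y} := by
    rw [erase_insert (by simpa using h.ne)]
  have e2 : ({x, y} : Finset α).erase y = {x} := by
    rw [pair_comm, erase_insert (by simpa using h.ne')]
  rw [s1, s2, e1, e2]
  simp
  ring

theorem dd_triple (φ : Finset α → K) {x y t : α} (h : x < y) (h' : y < t) :
    dd φ {x, y, t} = φ {y, t} - φ {x, t} + φ {x, y} := by
  have h'' := h.trans h'
  have n1 : x ∉ ({y, t} : Finset α) := by simp [h.ne, h''.ne]
  have n2 : y ∉ ({x, t} : Finset α) := by simp [h.ne', h'.ne]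
  have n3 : t ∉ ({x, y} : Finset α) := by simp [h''.ne', h'.ne']
  unfold dd
  rw [sum_insert n1, sum_pair h'.ne]
  have s1 : sg ({x, y, t} : Finset α) x = (-1) ^ (∅ : Finset α).card := sg_eq fun s => by
    simp only [mem_insert, mem_singleton, notMem_empty, iff_false]
    rintro ⟨rfl | rfl | rfl, h2⟩
    · exact lt_irrefl _ h2
    · exact lt_asymm h h2
    · exact lt_asymm h'' h2
  have s2 : sg ({x, y, t} : Finset α) y = (-1) ^ ({x} : Finset α).card := sg_eq fun s => by
    simp only [mem_insert, mem_singleton]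
    constructor
    · rintro ⟨rfl | rfl | rfl, h2⟩
      · rfl
      · exact absurd h2 (lt_irrefl _)
      · exact absurd h2 (lt_asymm h')
    · rintro rfl
      exact ⟨Or.inl rfl, h⟩
  have s3 : sg ({x, y, t} : Finset α) t = (-1) ^ ({x, y} : Finset α).card := sg_eq fun s => by
    simp only [mem_insert, mem_singleton]
    constructor
    · rintro ⟨rfl | rfl | rfl, h2⟩
      · exact Or.inl rfl
      · exact Or.inr rfl
      · exact absurd h2 (lt_irrefl _)
    · rintro (rfl | rfl)
      · exact ⟨Or.inl rfl, h''⟩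
      · exact ⟨Or.inr (Or.inl rfl), h'⟩
  have e1 : ({x, y, t} : Finset α).erase x = {y, t} := erase_insert n1
  have e2 : ({x, y, t} : Finset α).erase y = {x, t} := by
    rw [insert_comm]
    exact erase_insert n2
  have e3 : ({x, y, t} : Finset α).erase t = {x, y} := by
    rw [show ({x, y, t} : Finset α) = {t, x, y} by
      ext s
      simp only [mem_insert, mem_singleton]
      tauto]
    exact erase_insert n3
  rw [s1, s2, s3, e1, e2, e3, card_pair h.ne]
  simp
  ring

theorem pair_mem {A : Finset α} {x y : α} (hx : x ∈ A) (hy : y ∈ A) (h : x < y) :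
    ({x, y} : Finset α) ∈ chains A 2 := by
  refine mem_chains.2 ⟨?_, ?_, card_pair h.ne⟩
  · intro t ht
    simp only [mem_insert, mem_singleton] at ht
    rcases ht with rfl | rfl <;> assumption
  · rw [coe_pair]
    exact IsChain.pair h.le

theorem triple_mem {A : Finset α} {x y t : α} (hx : x ∈ A) (hy : y ∈ A) (ht : t ∈ A) (h : x < y)
    (h' : y < t) : ({x, y, t} : Finset α) ∈ chains A 3 := by
  have h'' := h.trans h'
  refine mem_chains.2 ⟨?_, ?_, ?_⟩
  · intro s hs
    simp only [mem_insert, mem_singleton] at hs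
    rcases hs with rfl | rfl | rfl <;> assumption
  · rw [coe_insert, coe_pair]
    refine (IsChain.pair h'.le).insert ?_
    rintro b (rfl | rfl) _
    · exact Or.inl h.le
    · exact Or.inl h''.le
  · rw [card_insert_of_notMem (by simp [h.ne, h''.ne]), card_pair h'.ne]

omit [DecidableEq α] in
theorem single_mem {A : Finset α} {x : α} (hx : x ∈ A) : ({x} : Finset α) ∈ chains A 1 :=
  mem_chains.2 ⟨by simpa using hx, by simp, card_singleton _⟩

theorem eq_pair {A c : Finset α} (hc : c ∈ chains A 2) :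
    ∃ x ∈ A, ∃ y ∈ A, x < y ∧ c = {x, y} := by
  obtain ⟨h1, h2, h3⟩ := mem_chains.1 hc
  obtain ⟨x, y, hne, rfl⟩ := card_eq_two.1 h3
  have hx : x ∈ A := h1 (by simp)
  have hy : y ∈ A := h1 (by simp)
  rcases h2 (show x ∈ _ by simp) (show y ∈ _ by simp) hne with h | h
  · exact ⟨x, hx, y, hy, lt_of_le_of_ne h hne, rfl⟩
  · exact ⟨y, hy, x, hx, lt_of_le_of_ne h hne.symm, pair_comm _ _⟩

/-- Euler characteristic of the 3-skeleton of the order complex of `A`. -/
noncomputable def chi4 (A : Finset α) : ℤ :=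
  ((chains A 1).card : ℤ) - (chains A 2).card + (chains A 3).card - (chains A 4).card

theorem ker_d1 {A : Finset α} (hex : ∀ z : α → α → K, FCoc A z → FEx A z)
    (φ : chains A 2 → K) (hφ : (mat K A 2).mulVec φ = 0) :
    ∃ ψ : chains A 1 → K, (mat K A 1).mulVec ψ = φ := by
  classical
  let z : α → α → K := fun x y => if x < y then ex φ {x, y} else 0
  have hz : FCoc A z := by
    intro x hx y hy t ht h h'
    rcases h.eq_or_lt with rfl | h
    · simp [z]
    rcases h'.eq_or_lt with rfl | h'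
    · simp [z]
    have := congrFun hφ ⟨_, triple_mem hx hy ht h h'⟩
    rw [mat_mulVec, dd_triple _ h h'] at this
    simp only [z, if_pos h, if_pos h', if_pos (h.trans h')]
    simp only [Pi.zero_apply] at this
    linear_combination -this
  obtain ⟨g, hg⟩ := hex z hz
  refine ⟨fun e => ∑ x ∈ e.1, g x, funext fun c => ?_⟩
  obtain ⟨x, hx, y, hy, h, hc⟩ := eq_pair c.2
  have e1 := hg x hx y hy h.le
  simp only [z, if_pos h] at e1
  rw [mat_mulVec, hc, dd_pair _ h, ex_mem _ (single_mem hx), ex_mem _ (single_mem hy)]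
  simp only [sum_singleton]
  rw [← e1, ex_mem _ (pair_mem hx hy h)]
  congr 1
  exact Subtype.ext hc.symm

/-- no first cohomology and no top cycle: the Euler characteristic is at least one. -/
theorem one_le_chi4 {A : Finset α} (hne : A.Nonempty)
    (htop : ∀ u : chains A 4 → K, Matrix.vecMul u (mat K A 3) = 0 → u = 0)
    (hex : ∀ z : α → α → K, FCoc A z → FEx A z) : 1 ≤ chi4 A := by
  classical
  have h := rank_four (mat K A 1).mulVecLin (mat K A 2).mulVecLin (mat K A 3).mulVecLin
    (fun x => mat_mat x) (surj_of_transpose _ htop) (fun φ hφ => ker_d1 hex φ hφ)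
  have h1 : 1 ≤ finrank K (LinearMap.ker (mat K A 1).mulVecLin) := by
    rw [Nat.one_le_iff_ne_zero, Ne, Submodule.finrank_eq_zero, LinearMap.ker_eq_bot']
    intro h0
    obtain ⟨x, hx⟩ := hne
    have : (fun _ => (1 : K) : chains A 1 → K) = 0 := by
      apply h0
      funext c
      obtain ⟨a, ha, b, hb, hab, hc⟩ := eq_pair c.2
      rw [Matrix.mulVecLin_apply, mat_mulVec, hc, dd_pair _ hab, ex_mem _ (single_mem ha),
        ex_mem _ (single_mem hb)]
      simp
    exact one_ne_zero (congrFun this ⟨_, single_mem hx⟩)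
  simp only [finrank_fintype_fun_eq_card, Fintype.card_coe, Nat.reduceAdd] at h h1
  unfold chi4
  omega

/-- clearing denominators. -/
theorem exists_int_coc {A : Finset α} {z : α → α → ℚ} (hz : FCoc A z) (hn : ¬ FEx A z) :
    ∃ w : α → α → ℤ, FCoc A w ∧ ¬ FEx A fun x y => (w x y : ℚ) := by
  classical
  let N : ℕ := ∏ p ∈ A ×ˢ A, (z p.1 p.2).den
  have hN : (N : ℚ) ≠ 0 := by
    have : N ≠ 0 := prod_ne_zero_iff.2 fun p _ => (z p.1 p.2).den_nz
    exact_mod_cast this
  have hw : ∀ x ∈ A, ∀ y ∈ A, ((((N : ℚ) * z x y).num : ℤ) : ℚ) = N * z x y := by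
    intro x hx y hy
    obtain ⟨m, hm⟩ : (z x y).den ∣ N :=
      dvd_prod_of_mem (fun p : α × α => (z p.1 p.2).den) (mem_product.2 ⟨hx, hy⟩ : (x, y) ∈ _)
    have : (N : ℚ) * z x y = ((m * (z x y).num : ℤ) : ℚ) := by
      rw [hm]
      push_cast
      rw [mul_right_comm, mul_comm ((z x y).den : ℚ), Rat.mul_den_eq_num]
      ring
    rw [this, Rat.num_intCast]
  refine ⟨fun x y => ((N : ℚ) * z x y).num, ?_, ?_⟩
  · intro x hx y hy t ht h h'
    have : ((((N : ℚ) * z x t).num : ℤ) : ℚ) =
        ((((N : ℚ) * z x y).num + ((N : ℚ) * z y t).num : ℤ) : ℚ) := by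
      push_cast
      rw [hw x hx t ht, hw x hx y hy, hw y hy t ht, hz x hx y hy t ht h h']
      ring
    exact_mod_cast this
  · rintro ⟨g, hg⟩
    refine hn ⟨fun x => g x / N, fun x hx y hy h => ?_⟩
    have := hg x hx y hy h
    simp only at this
    rw [hw x hx y hy] at this
    field_simp
    linear_combination this

/-- HALF, format-free: a proper nonempty part with `χ ≤ 0` of a 3-dimensional pseudo-manifold
carries an integer cocycle which is not a coboundary (not even over `ℚ`). -/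
theorem PM.exists_coc {P A : Finset α} (h : PM P 3) (hA : A ⊆ P) (hne : A.Nonempty)
    {c0 : Finset α} (h0 : c0 ∈ chains P 4) (h0A : ¬ c0 ⊆ A) (hχ : chi4 A ≤ 0) :
    ∃ w : α → α → ℤ, FCoc A w ∧ ¬ FEx A fun x y => (w x y : ℚ) := by
  by_contra hc
  have := one_le_chi4 (K := ℚ) hne (fun u hu => h.cyc_zero hA h0 h0A u hu) fun z hz => by
    by_contra hn
    exact hc (exists_int_coc hz hn)
  omega

omit [DecidableEq α] in
theorem FEx.cast {A : Finset α} {w : α → α → ℤ} (h : FEx A w) : FEx A fun x y => (w x y : ℚ) := by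
  obtain ⟨g, hg⟩ := h
  refine ⟨fun x => g x, fun x hx y hy hxy => ?_⟩
  simp only [hg x hx y hy hxy]
  push_cast
  rfl

end Crest.Agent.X212.Alg36
end

-- ▼ part X212/Alg36/Two
section

/-! ALG (helper36): bridge to `Kh11.chi`, Euler characteristic of 2-dimensional posets against
`H^1`, and `H^1 = 0` for all coefficients from fields. -/

set_option autoImplicit false

namespace Crest.Agent.X212.Alg36

open Finset Module
open Crest.Agent.X212.Kh11 (chi chs red mem_chs Cn Rch H1z Ctr Low Upp)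

variable {α : Type*} [PartialOrder α]

/-- all chains of `A` have at most `n` elements. -/
def Dim (A : Finset α) (n : ℕ) : Prop :=
  ∀ c ⊆ A, IsChain (· ≤ ·) (c : Set α) → c.card ≤ n

theorem Dim.mono {A B : Finset α} {n : ℕ} (h : Dim B n) (hA : A ⊆ B) : Dim A n :=
  fun c hc => h c (hc.trans hA)

theorem Dim.le {A : Finset α} {n m : ℕ} (h : Dim A n) (hm : n ≤ m) : Dim A m :=
  fun c hc hc' => (h c hc hc').trans hm

theorem Dim.chains_eq {A : Finset α} {n k : ℕ} (h : Dim A n) (hk : n < k) : chains A k = ∅ := by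
  refine eq_empty_of_forall_notMem fun c hc => ?_
  obtain ⟨h1, h2, h3⟩ := mem_chains.1 hc
  have := h c h1 h2
  omega

theorem chi_eq_chi4 {A : Finset α} (h : Dim A 4) : chi A = chi4 A := by
  classical
  have e : red A = ∑ k ∈ range 5, ((chains A k).card : ℤ) * (-1) ^ k := by
    unfold red
    rw [← sum_fiberwise_of_maps_to (s := chs A) (t := range 5) (g := fun c => c.card)]
    · refine sum_congr rfl fun k _ => ?_
      have : (chs A).filter (fun c => c.card = k) = chains A k := by
        ext c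
        rw [mem_filter, mem_chs, mem_chains, and_assoc]
      rw [this, sum_congr rfl (g := fun _ => (-1 : ℤ) ^ k), sum_const, nsmul_eq_mul]
      intro c hc
      rw [(mem_chains.1 hc).2.2]
    · intro c hc
      rw [mem_chs] at hc
      have := h c hc.1 hc.2
      rw [mem_range]
      omega
  have e0 : chains A 0 = {∅} := by
    ext c
    rw [mem_chains, mem_singleton, card_eq_zero]
    exact ⟨fun h => h.2.2, fun h => by subst h; simp [IsChain]⟩
  unfold chi chi4
  rw [e]
  simp only [sum_range_succ, range_zero, sum_empty, e0, card_singleton]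
  push_cast
  ring

section fields

variable [DecidableEq α] {K : Type*} [Field K]

theorem ker_d0_le {A : Finset α} (hc : Cn A) :
    finrank K (LinearMap.ker (mat K A 1).mulVecLin) ≤ 1 := by
  rcases A.eq_empty_or_nonempty with rfl | ⟨x0, h0⟩
  · refine (Submodule.finrank_le _).trans ?_
    have : chains (∅ : Finset α) 1 = ∅ :=
      Dim.chains_eq (n := 0) (fun c hc _ => by simp [subset_empty.1 hc]) one_pos
    simp [this]
  let ev : LinearMap.ker (mat K A 1).mulVecLin →ₗ[K] K :=
    (LinearMap.proj ⟨{x0}, single_mem h0⟩).comp (Submodule.subtype _)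
  have hinj : Function.Injective ev := by
    rw [← LinearMap.ker_eq_bot, LinearMap.ker_eq_bot']
    rintro ⟨ψ, hψ⟩ h
    have h1 : ψ ⟨{x0}, single_mem h0⟩ = 0 := h
    have key : ∀ a ∈ A, ∀ b ∈ A, a ≤ b → ex ψ {a} = ex ψ {b} := by
      intro a ha b hb hab
      rcases hab.eq_or_lt with rfl | hab
      · rfl
      have := congrFun (LinearMap.mem_ker.1 hψ) ⟨_, pair_mem ha hb hab⟩
      rw [Matrix.mulVecLin_apply, mat_mulVec, dd_pair _ hab] at this
      exact (sub_eq_zero.1 this).symm
    apply Subtype.ext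
    funext c
    obtain ⟨y, hy⟩ := card_eq_one.1 (mem_chains.1 c.2).2.2
    have hyA : y ∈ A := (mem_chains.1 c.2).1 (by simp [hy])
    have : ex ψ {x0} = ex ψ {y} := (hc x0 h0 y hyA).eq (g := fun a => ex ψ {a}) key
    rw [ex_mem _ (single_mem h0), h1, ← hy, ex_mem _ c.2] at this
    exact this.symm
  simpa using LinearMap.finrank_le_finrank_of_injective hinj

/-- the space of cycles with `k + 1` elements. -/
noncomputable abbrev Cyc (K : Type*) [Field K] (A : Finset α) (k : ℕ) : Submodule K (chains A (k + 1) → K) :=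
  LinearMap.ker (mat K A k).transpose.mulVecLin

theorem mem_cyc {A : Finset α} {k : ℕ} {u : chains A (k + 1) → K} :
    u ∈ Cyc K A k ↔ Matrix.vecMul u (mat K A k) = 0 := by
  rw [LinearMap.mem_ker, Matrix.mulVecLin_apply, Matrix.mulVec_transpose]

theorem rank_add_cyc (A : Finset α) (k : ℕ) :
    finrank K (LinearMap.range (mat K A k).mulVecLin) + finrank K (Cyc K A k) =
      (chains A (k + 1)).card := by
  have h1 := LinearMap.finrank_range_add_finrank_ker (mat K A k).transpose.mulVecLin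
  have h2 := Matrix.rank_transpose (mat K A k)
  unfold Matrix.rank at h2
  rw [h2] at h1
  simpa using h1

theorem rank_add_ker (A : Finset α) (k : ℕ) :
    finrank K (LinearMap.range (mat K A k).mulVecLin) +
      finrank K (LinearMap.ker (mat K A k).mulVecLin) = (chains A k).card := by
  simpa using LinearMap.finrank_range_add_finrank_ker (mat K A k).mulVecLin

theorem cyc_eq_bot {A : Finset α} {k : ℕ}
    (h : ∀ u : chains A (k + 1) → K, Matrix.vecMul u (mat K A k) = 0 → u = 0) :
    finrank K (Cyc K A k) = 0 := by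
  rw [Submodule.finrank_eq_zero, eq_bot_iff]
  intro u hu
  exact h u (mem_cyc.1 hu)

theorem PM.cyc_le {P : Finset α} {n : ℕ} (h : PM P n) : finrank K (Cyc K P n) ≤ 1 := by
  rcases (chains P (n + 1)).eq_empty_or_nonempty with h0 | ⟨c0, h0⟩
  · refine (Submodule.finrank_le _).trans ?_
    simp [h0]
  let ev : Cyc K P n →ₗ[K] K := (LinearMap.proj ⟨c0, h0⟩).comp (Submodule.subtype _)
  have hinj : Function.Injective ev := by
    rw [← LinearMap.ker_eq_bot, LinearMap.ker_eq_bot']
    rintro ⟨u, hu⟩ hz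
    have h1 : u ⟨c0, h0⟩ = 0 := hz
    have key : ∀ e ∈ chains P n, bd P n (ex u) e = 0 := fun e he => by
      have := congrFun (mem_cyc.1 hu) ⟨e, he⟩
      rwa [vecMul_mat] at this
    apply Subtype.ext
    funext c
    have hc := h.conn c0 h0 c.1 c.2
    have : ex u c.1 = 0 := by
      generalize c.1 = d at hc
      induction hc with
      | refl => rw [ex_mem _ h0, h1]
      | tail _ h2 ih => exact h.step key h2 ih
    rwa [ex_mem u c.2] at this
  simpa using LinearMap.finrank_le_finrank_of_injective hinj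

/-- a free facet kills the top cycles. -/
theorem PM.cyc_free {P : Finset α} {n : ℕ} (h : PM P n) {e c0 : Finset α} (he : e ∈ chains P n)
    (h0 : c0 ∈ chains P (n + 1)) (hec : e ⊆ c0)
    (hf : ∀ c ∈ chains P (n + 1), e ⊆ c → c = c0) : finrank K (Cyc K P n) = 0 := by
  refine cyc_eq_bot fun u hu => ?_
  have key : ∀ e ∈ chains P n, bd P n (ex u) e = 0 := fun e he => by
    have := congrFun hu ⟨e, he⟩
    rwa [vecMul_mat] at this
  have z0 : ex u c0 = 0 := by
    have := key e he
    unfold bd at this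
    rw [sum_eq_single c0] at this
    · refine (mul_eq_zero.1 this).resolve_right (coef_ne hec ?_)
      rw [(mem_chains.1 h0).2.2, (mem_chains.1 he).2.2]
    · intro c hc hcb
      rw [coef_zero fun h3 => hcb (hf c hc h3), mul_zero]
    · intro h3
      exact absurd h0 h3
  funext c
  have hc := h.conn c0 h0 c.1 c.2
  have : ex u c.1 = 0 := by
    generalize c.1 = d at hc
    induction hc with
    | refl => exact z0
    | tail _ h2 ih => exact h.step key h2 ih
  rwa [ex_mem u c.2] at this

/-- a cocycle read as a cochain on the 2-element chains. -/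
theorem exists_coch {A : Finset α} {z : α → α → K} (hz : Kh11.Coc A z) :
    ∃ φ : chains A 2 → K, (mat K A 2).mulVec φ = 0 ∧
      ∀ x ∈ A, ∀ y ∈ A, x < y → ex φ {x, y} = z x y := by
  choose x hx y hy hxy hc using fun c : chains A 2 => eq_pair c.2
  have key : ∀ a ∈ A, ∀ b ∈ A, a < b → ex (fun c => z (x c) (y c)) {a, b} = z a b := by
    intro a ha b hb hab
    rw [ex_mem _ (pair_mem ha hb hab)]
    set c : chains A 2 := ⟨_, pair_mem ha hb hab⟩
    have e : ({a, b} : Finset α) = {x c, y c} := hc c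
    have m1 : a ∈ ({x c, y c} : Finset α) := e ▸ (by simp)
    have m2 : b ∈ ({x c, y c} : Finset α) := e ▸ (by simp)
    simp only [mem_insert, mem_singleton] at m1 m2
    rcases m1 with m1 | m1 <;> rcases m2 with m2 | m2
    · exact absurd (m1.trans m2.symm) hab.ne
    · rw [← m1, ← m2]
    · exact absurd (m1 ▸ m2 ▸ hxy c) (lt_asymm hab)
    · exact absurd (m1.trans m2.symm) hab.ne
  refine ⟨fun c => z (x c) (y c), funext fun c => ?_, key⟩
  obtain ⟨h1, h2, h3⟩ := mem_chains.1 c.2
  obtain ⟨t, ht, htop⟩ := Kh11.exists_top h2 (card_pos.1 (by omega))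
  obtain ⟨a, ha, b, hb, hab, he⟩ := eq_pair (erase_mem_chains c.2 ht)
  have hb' : b ∈ c.1.erase t := he ▸ (by simp)
  have hbt : b < t := lt_of_le_of_ne (htop b (mem_of_mem_erase hb')) (ne_of_mem_erase hb')
  have ec : c.1 = {a, b, t} := by
    rw [← insert_erase ht, he]
    ext s
    simp only [mem_insert, mem_singleton]
    tauto
  rw [mat_mulVec, ec, dd_triple _ hab hbt, key b hb t (h1 ht) hbt, key a ha b hb hab,
    key a ha t (h1 ht) (hab.trans hbt), hz a ha b hb t (h1 ht) hab.le hbt.le]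
  simp

/-- Euler characteristic of a connected 2-dimensional poset: `χ ≤ 1 + (top cycles)`, one less if
some cocycle is not a coboundary. -/
theorem chi_le_of_dim_three {A : Finset α} (hd : Dim A 3) (hc : Cn A) :
    chi A ≤ 1 + finrank K (Cyc K A 2) ∧
      ∀ z : α → α → K, Kh11.Coc A z → ¬ Kh11.Ex A z → chi A ≤ finrank K (Cyc K A 2) := by
  have e0 := rank_add_ker (K := K) A 1
  have e1 := rank_add_ker (K := K) A 2
  have e2 := rank_add_cyc (K := K) A 2
  have k0 := ker_d0_le (K := K) hc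
  have hle : LinearMap.range (mat K A 1).mulVecLin ≤ LinearMap.ker (mat K A 2).mulVecLin := by
    rintro _ ⟨ψ, rfl⟩
    exact mat_mat ψ
  have l0 : finrank K (LinearMap.range (mat K A 1).mulVecLin) ≤
      finrank K (LinearMap.ker (mat K A 2).mulVecLin) := Submodule.finrank_mono hle
  have hχ : chi A = ((chains A 1).card : ℤ) - (chains A 2).card + (chains A (2 + 1)).card := by
    rw [chi_eq_chi4 (hd.le (by norm_num)), chi4, hd.chains_eq (k := 4) (by norm_num)]
    simp
  refine ⟨by omega, fun z hz hn => ?_⟩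
  obtain ⟨φ, hφ, hv⟩ := exists_coch hz
  have hlt : LinearMap.range (mat K A 1).mulVecLin < LinearMap.ker (mat K A 2).mulVecLin := by
    refine lt_of_le_of_ne hle fun e => hn ?_
    have : φ ∈ LinearMap.range (mat K A 1).mulVecLin := e ▸ (LinearMap.mem_ker.2 hφ)
    obtain ⟨ψ, hψ⟩ := this
    refine ⟨fun x => ex ψ {x}, fun x hx y hy hxy => ?_⟩
    rcases hxy.eq_or_lt with rfl | hxy
    · rw [hz.self hx, sub_self]
    have := congrFun hψ ⟨_, pair_mem hx hy hxy⟩
    rw [Matrix.mulVecLin_apply, mat_mulVec, dd_pair _ hxy] at this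
    rw [← hv x hx y hy hxy, ex_mem _ (pair_mem hx hy hxy), ← this]
  have l1 : finrank K (LinearMap.range (mat K A 1).mulVecLin) <
      finrank K (LinearMap.ker (mat K A 2).mulVecLin) := Submodule.finrank_lt_finrank_of_lt hlt
  omega

end fields

/-- on a connected set a cocycle can be normalised to vanish along a connected family of pairs. -/
theorem exists_tree {G : Type*} [AddCommGroup G] {A : Finset α} (hc : Cn A) (z : α → α → G)
    {x0 : α} (h0 : x0 ∈ A) :
    ∃ a : α → G, ∀ {γ : Type} (g : α → γ), (∀ x ∈ A, ∀ y ∈ A, x < y → z x y = a y - a x →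
      g x = g y) → ∀ x ∈ A, g x0 = g x := by
  classical
  have main : ∀ n : ℕ, n + 1 ≤ A.card → ∃ S ⊆ A, x0 ∈ S ∧ S.card = n + 1 ∧ ∃ a : α → G,
      ∀ {γ : Type} (g : α → γ), (∀ x ∈ S, ∀ y ∈ S, x < y → z x y = a y - a x →
      g x = g y) → ∀ x ∈ S, g x0 = g x := by
    intro n
    induction n with
    | zero => exact fun _ => ⟨{x0}, by simpa using h0, by simp, by simp, 0, by simp⟩
    | succ n ih =>
      intro hn
      obtain ⟨S, hS, hx0, hcard, a, ha⟩ := ih (by omega)
      obtain ⟨y, hy, hyS⟩ : ∃ y ∈ A, y ∉ S := by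
        by_contra h
        push Not at h
        have := card_le_card (show A ⊆ S from h)
        omega
      obtain ⟨p, hp, q, hq, hqS, hpq⟩ : ∃ p ∈ S, ∃ q ∈ A, q ∉ S ∧ (p ≤ q ∨ q ≤ p) := by
        by_contra h
        push Not at h
        refine hyS ((hc x0 h0 y hy).ind (p := fun t => t ∈ S) hx0 fun u hu v hv huv => ?_)
        constructor
        · intro h1
          by_contra h2
          exact (h u h1 v hv h2).1 huv
        · intro h1
          by_contra h2
          exact (h v h1 u hu h2).2 huv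
      have hne : p ≠ q := fun e => hqS (e ▸ hp)
      let a' : α → G := Function.update a q (if p ≤ q then a p + z p q else a p - z q p)
      have hS' : ∀ t ∈ S, a' t = a t := fun t ht =>
        Function.update_of_ne (fun e : t = q => hqS (e ▸ ht)) _ _
      refine ⟨insert q S, insert_subset hq hS, mem_insert_of_mem hx0,
        by rw [card_insert_of_notMem hqS, hcard], a', fun g hg x hx => ?_⟩
      have old := ha g fun u hu v hv huv e =>
        hg u (mem_insert_of_mem hu) v (mem_insert_of_mem hv) huv (by rw [hS' u hu, hS' v hv, e])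
      rcases mem_insert.1 hx with rfl | hx
      · rw [old p hp]
        by_cases h : p ≤ x
        · refine hg p (mem_insert_of_mem hp) x hx (lt_of_le_of_ne h hne) ?_
          rw [hS' p hp]
          simp [a', h]
        · refine (hg x hx p (mem_insert_of_mem hp)
            (lt_of_le_of_ne (hpq.resolve_left h) hne.symm) ?_).symm
          rw [hS' p hp]
          simp [a', h]
      · exact old x hx
  obtain ⟨S, hS, -, hcard, a, ha⟩ := main (A.card - 1) (by have := card_pos.2 ⟨x0, h0⟩; omega)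
  have e : S = A := eq_of_subset_of_card_le hS (by have := card_pos.2 ⟨x0, h0⟩; omega)
  subst e
  exact ⟨a, ha⟩

/-- `H^1 = 0` over all fields gives `H^1 = 0` for all coefficients. -/
theorem h1z_of_fields {A : Finset α} (hc : Cn A)
    (h : ∀ (K : Type) [Field K] (z : α → α → K), Kh11.Coc A z → Kh11.Ex A z) : H1z A := by
  classical
  intro G _ z hz
  rcases A.eq_empty_or_nonempty with rfl | ⟨x0, h0⟩
  · exact ⟨0, by simp⟩
  obtain ⟨a, ha⟩ := exists_tree hc z h0
  let w : α → α → G := fun x y => z x y - (a y - a x)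
  let T : Finset G := ((A ×ˢ A).filter fun p => p.1 ≤ p.2).image fun p => w p.1 p.2
  let M : Submodule ℤ G := Submodule.span ℤ (T : Set G)
  have hM : ∀ x ∈ A, ∀ y ∈ A, x ≤ y → w x y ∈ M := fun x hx y hy hxy =>
    Submodule.subset_span (mem_coe.2 (mem_image.2 ⟨(x, y), by simp [hx, hy, hxy], rfl⟩))
  by_cases hb : M = ⊥
  · refine ⟨a, fun x hx y hy hxy => ?_⟩
    have := hM x hx y hy hxy
    rw [hb, Submodule.mem_bot] at this
    exact sub_eq_zero.1 this
  exfalso
  haveI : Module.Finite ℤ M := Module.Finite.span_of_finite ℤ T.finite_toSet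
  haveI : Nontrivial M := Submodule.nontrivial_iff_ne_bot.2 hb
  obtain ⟨N, hN⟩ : ∃ N : Submodule ℤ M, IsCoatom N := by
    rcases eq_top_or_exists_le_coatom (⊥ : Submodule ℤ M) with h1 | ⟨N, hN, -⟩
    · exact absurd h1 bot_ne_top
    · exact ⟨N, hN⟩
  obtain ⟨I, hI, ⟨e⟩⟩ := isSimpleModule_iff_quot_maximal.1 (isSimpleModule_iff_isCoatom.2 hN)
  letI := Ideal.Quotient.field I
  let π : M →ₗ[ℤ] ℤ ⧸ I := e.toLinearMap.comp N.mkQ
  let v : α → α → ℤ ⧸ I := fun x y => if h : w x y ∈ M then π ⟨w x y, h⟩ else 0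
  have hv : Kh11.Coc A v := by
    intro x hx y hy t ht h1 h2
    simp only [v, dif_pos (hM x hx y hy h1), dif_pos (hM y hy t ht h2),
      dif_pos (hM x hx t ht (h1.trans h2))]
    rw [← map_add]
    congr 1
    apply Subtype.ext
    simp only [w, Submodule.coe_add, hz x hx y hy t ht h1 h2]
    abel
  obtain ⟨b, hb'⟩ := h _ v hv
  have hconst := ha b fun x hx y hy hxy e0 => by
    have h1 := hb' x hx y hy hxy.le
    have h2 : w x y = 0 := sub_eq_zero.2 e0
    simp only [v, dif_pos (hM x hx y hy hxy.le)] at h1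
    rw [show (⟨w x y, hM x hx y hy hxy.le⟩ : M) = 0 from Subtype.ext h2, map_zero] at h1
    exact (sub_eq_zero.1 h1.symm).symm
  apply hN.1
  rw [eq_top_iff]
  rintro ⟨m, hm⟩ -
  have : ∀ m (hm : m ∈ M), (⟨m, hm⟩ : M) ∈ N := by
    intro m hm
    induction hm using Submodule.span_induction with
    | mem g hg =>
      obtain ⟨⟨x, y⟩, hp, rfl⟩ := mem_image.1 (mem_coe.1 hg)
      simp only [mem_filter, mem_product] at hp
      have h1 := hb' x hp.1.1 y hp.1.2 hp.2
      rw [← hconst x hp.1.1, ← hconst y hp.1.2, sub_self] at h1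
      simp only [v, dif_pos (hM x hp.1.1 y hp.1.2 hp.2)] at h1
      have h2 : N.mkQ ⟨w x y, hM x hp.1.1 y hp.1.2 hp.2⟩ = 0 := e.injective (by simpa [π] using h1)
      exact (Submodule.Quotient.mk_eq_zero N).1 h2
    | zero => exact N.zero_mem
    | add x y hx hy ih1 ih2 => exact N.add_mem ih1 ih2
    | smul r x hx ih => exact N.smul_mem r ih
  exact this m hm

/-- closed connected surface: `χ ≤ 2`. -/
theorem PM.chi_le_two {A : Finset α} (h : PM A 2) (hd : Dim A 3) (hc : Cn A) : chi A ≤ 2 := by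
  classical
  have h1 := (chi_le_of_dim_three (K := ℚ) hd hc).1
  have h2 := h.cyc_le (K := ℚ)
  omega

/-- SPHERE: `χ = 2` kills `H^1` (all coefficients). -/
theorem PM.h1z_of_chi_two {A : Finset α} (h : PM A 2) (hd : Dim A 3) (hc : Cn A)
    (hχ : 2 ≤ chi A) : H1z A := by
  classical
  refine h1z_of_fields hc fun K _ z hz => ?_
  by_contra hn
  have h1 := (chi_le_of_dim_three (K := K) hd hc).2 z hz hn
  have h2 := h.cyc_le (K := K)
  omega

/-- no top cycle over any field. -/
def NoCyc [DecidableEq α] (A : Finset α) (k : ℕ) : Prop :=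
  ∀ (K : Type) [Field K], finrank K (Cyc K A k) = 0

theorem PM.noCyc_sub [DecidableEq α] {P A : Finset α} {n : ℕ} (h : PM P n) (hA : A ⊆ P)
    {c0 : Finset α} (h0 : c0 ∈ chains P (n + 1)) (h0A : ¬ c0 ⊆ A) : NoCyc A n :=
  fun _ _ => cyc_eq_bot fun u hu => h.cyc_zero hA h0 h0A u hu

theorem PM.noCyc_free [DecidableEq α] {P : Finset α} {n : ℕ} (h : PM P n) {e c0 : Finset α}
    (he : e ∈ chains P n) (h0 : c0 ∈ chains P (n + 1)) (hec : e ⊆ c0)
    (hf : ∀ c ∈ chains P (n + 1), e ⊆ c → c = c0) : NoCyc P n :=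
  fun _ _ => h.cyc_free he h0 hec hf

/-- connected surface with boundary: `χ ≤ 1`. -/
theorem NoCyc.chi_le_one [DecidableEq α] {A : Finset α} (h : NoCyc A 2) (hd : Dim A 3)
    (hc : Cn A) : chi A ≤ 1 := by
  have h1 := (chi_le_of_dim_three (K := ℚ) hd hc).1
  have h2 := h ℚ
  omega

/-- DISC: connected, no top cycle, `χ = 1` gives `Ctr`. -/
theorem NoCyc.ctr [DecidableEq α] {A : Finset α} (h : NoCyc A 2) (hd : Dim A 3) (hc : Cn A)
    (hχ : 1 ≤ chi A) : Ctr A := by
  refine ⟨?_, hc, le_antisymm (h.chi_le_one hd hc) hχ, h1z_of_fields hc fun K _ z hz => ?_⟩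
  · rcases A.eq_empty_or_nonempty with rfl | h1
    · rw [Kh11.chi_empty] at hχ
      omega
    · exact h1
  · by_contra hn
    have h1 := (chi_le_of_dim_three (K := K) hd hc).2 z hz hn
    have h2 := h K
    omega

/-- HALF on `Kh11` names. -/
theorem NoCyc.exists_coc [DecidableEq α] {A : Finset α} (h : NoCyc A 3) (hd : Dim A 4)
    (hne : A.Nonempty) (hχ : chi A ≤ 0) :
    ∃ w : α → α → ℤ, Kh11.Coc A w ∧ ¬ Kh11.Ex A w ∧ ¬ Kh11.Ex A fun x y => (w x y : ℚ) := by
  by_contra hc
  have := one_le_chi4 (K := ℚ) hne (fun u hu => by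
    have := h ℚ
    rw [Submodule.finrank_eq_zero, eq_bot_iff] at this
    exact this (mem_cyc.2 hu)) fun z hz => by
    by_contra hn
    obtain ⟨w, hw, hn'⟩ := exists_int_coc hz hn
    exact hc ⟨w, hw, fun h' => hn' (FEx.cast h'), hn'⟩
  rw [chi_eq_chi4 hd] at hχ
  omega

end Crest.Agent.X212.Alg36
end

-- ▼ part X212/Alg36/Hp1

/-! ALG (helper36) on `Hp13/Defs`: bridge to `Kh11`, top cycles of a manifold state, discs and
spheres have no `H^1`, existence of a non exact cocycle. -/

set_option autoImplicit false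
set_option linter.unusedSectionVars false

namespace Crest.Agent.X212.Alg36

open Finset Module Classical
open Crest.Agent.X212.Hp13

variable {P : Type} [PartialOrder P] [Fintype P]

/-- a set as a `Finset`. -/
noncomputable def fs (E : Set P) : Finset P := univ.filter (· ∈ E)

@[simp] theorem mem_fs {E : Set P} {x : P} : x ∈ fs E ↔ x ∈ E := by simp [fs]

theorem rch_fs {E : Set P} {x y : P} : Kh11.Rch (fs E) x y ↔ Rch E x y := by
  unfold Kh11.Rch Rch
  have : Kh11.Stp (fs E) = fun x y => x ∈ E ∧ y ∈ E ∧ Cm x y := by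
    funext x y
    simp [Kh11.Stp, Cm]
  rw [this]

theorem cn_fs {E : Set P} : Kh11.Cn (fs E) ↔ Conn E := by
  simp only [Kh11.Cn, Conn, mem_fs, rch_fs]

theorem coc_fs {G : Type} [AddCommGroup G] {E : Set P} {z : P → P → G} :
    Kh11.Coc (fs E) z ↔ CocOn E z := by
  simp only [Kh11.Coc, CocOn, mem_fs]

theorem ex_fs {G : Type} [AddCommGroup G] {E : Set P} {z : P → P → G} :
    Kh11.Ex (fs E) z ↔ ExOn E z := by
  simp only [Kh11.Ex, ExOn, mem_fs]

theorem chi_fs (E : Set P) : Kh11.chi (fs E) = eu E := by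
  unfold Kh11.chi Kh11.red eu
  rw [← add_sum_erase _ _ (Kh11.empty_mem_chs (fs E))]
  have : ∑ c ∈ (Kh11.chs (fs E)).erase ∅, (-1 : ℤ) ^ c.card =
      ∑ c ∈ univ.filter (fun c : Ch P => ∀ x ∈ c.1, x ∈ E), c.sg := by
    symm
    refine sum_bij (fun c _ => c.1) ?_ ?_ ?_ ?_
    · intro c hc
      simp only [mem_filter, mem_univ, true_and] at hc
      rw [mem_erase, Kh11.mem_chs]
      exact ⟨c.2.1.ne_empty, fun x hx => mem_fs.2 (hc x hx), c.2.2⟩
    · intro c _ d _ h
      exact Ch.ext h
    · intro c hc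
      rw [mem_erase, Kh11.mem_chs] at hc
      refine ⟨⟨c, nonempty_iff_ne_empty.2 hc.1, hc.2.2⟩, ?_, rfl⟩
      exact mem_filter.2 ⟨mem_univ _, fun x hx => mem_fs.1 (hc.2.1 hx)⟩
    · intro c _
      rfl
  rw [this]
  simp

/-- `H^1 = 0` on the full subposet, all coefficients. -/
def H1 (E : Set P) : Prop :=
  ∀ (G : Type) [AddCommGroup G] (z : P → P → G), CocOn E z → ExOn E z

theorem h1_fs {E : Set P} : Kh11.H1z (fs E) ↔ H1 E := by
  simp only [Kh11.H1z, H1, coc_fs, ex_fs]

theorem ctr_fs {E : Set P} : Kh11.Ctr (fs E) ↔ Ctr E := by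
  constructor
  · rintro ⟨⟨x, hx⟩, h2, h3, h4⟩
    exact ⟨⟨x, mem_fs.1 hx⟩, cn_fs.1 h2, h1_fs.1 h4, chi_fs E ▸ h3⟩
  · rintro ⟨⟨x, hx⟩, h2, h3, h4⟩
    exact ⟨⟨x, mem_fs.2 hx⟩, cn_fs.2 h2, (chi_fs E).symm ▸ h4, h1_fs.2 h3⟩

theorem rch_symm {E : Set P} {x y : P} (h : Rch E x y) : Rch E y x :=
  rch_fs.1 (rch_fs.2 h).symm

theorem rch_ind {E : Set P} {x y : P} (h : Rch E x y) {p : P → Prop} (hx : p x)
    (hp : ∀ a ∈ E, ∀ b ∈ E, a ≤ b → (p a ↔ p b)) : p y :=
  (rch_fs.2 h).ind hx fun a ha b hb => hp a (mem_fs.1 ha) b (mem_fs.1 hb)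

/-- the chain with two (possibly equal) comparable elements. -/
noncomputable def pr {x y : P} (h : Cm x y) : Ch P :=
  ⟨{x, y}, insert_nonempty _ _, by
    rw [coe_pair]
    exact h.elim IsChain.pair fun h => Set.pair_comm y x ▸ IsChain.pair h⟩

theorem mem_pr {x y : P} (h : Cm x y) {t : P} : t ∈ (pr h).1 ↔ t = x ∨ t = y := by
  simp [pr]

theorem pt_le {x : P} {c : Ch P} : Ch.pt x ≤ c ↔ x ∈ c.1 := by
  rw [Ch.le_iff, Ch.pt_val, singleton_subset_iff]

variable {d : ℕ} {A : Set P}

theorem Mf.dim (h : Mf d A) {E : Set P} (hE : E ⊆ A) : Dim (fs E) (d + 1) := by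
  intro c hc hch
  rcases c.eq_empty_or_nonempty with rfl | ⟨x, hx⟩
  · simp
  · exact h.card_le ⟨c, ⟨x, hx⟩, hch⟩ ⟨x, hx, hE (mem_fs.1 (hc hx))⟩

/-- a chain with `d` elements meeting `A` has exactly two extensions. -/
theorem Mf.card_two (h : Mf d A) {e : Ch P} (he : Mt A e) (hc : e.1.card = d) :
    (univ.filter (e < ·)).card = 2 := by
  have h1 := h.eul e he
  have e1 : univ.filter (e ≤ ·) = insert e (univ.filter (e < ·)) := by
    ext c
    simp only [mem_filter, mem_univ, true_and, mem_insert]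
    rw [le_iff_eq_or_lt, eq_comm]
  rw [e1, sum_insert (by simp), sum_congr rfl (g := fun _ => (-1 : ℤ) ^ (d + 1)), sum_const,
    nsmul_eq_mul, Ch.sg, hc, pow_succ] at h1
  · have h2 : ((-1 : ℤ) ^ d) ≠ 0 := pow_ne_zero _ (by norm_num)
    have h3 : (((univ.filter (e < ·)).card : ℤ) - 2) * (-1) ^ d = 0 := by linear_combination -h1
    have := (mul_eq_zero.1 h3).resolve_right h2
    omega
  · intro c hc'
    simp only [mem_filter, mem_univ, true_and] at hc'
    have h4 := h.card_le c (he.mono hc'.le)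
    have h5 : e.1.card < c.1.card := card_lt_card hc'
    rw [Ch.sg, show c.1.card = d + 1 by omega]

theorem Mf.two (h : Mf d A) {e : Ch P} (he : Mt A e) (hc : e.1.card = d) {a b c : Ch P}
    (ha : e < a) (hb : e < b) (hc' : e < c) : a = b ∨ a = c ∨ b = c := by
  by_contra hn
  push Not at hn
  have h3 : ({a, b, c} : Finset (Ch P)) ⊆ univ.filter (e < ·) := by
    intro t ht
    simp only [mem_insert, mem_singleton] at ht
    rcases ht with rfl | rfl | rfl <;> simpa
  have := card_le_card h3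
  rw [Mf.card_two h he hc, card_insert_of_notMem (by simp [hn.1, hn.2.1]), card_pair hn.2.2] at this
  omega

/-- a property of top chains that passes through facets is constant on the star of a cell. -/
theorem Mf.star (h : Mf d A) (Z : Ch P → Prop)
    (hZ : ∀ e : Ch P, Mt A e → e.1.card = d → ∀ a b, e < a → e < b → Z a → Z b)
    {c : Ch P} (hc : Mt A c) {a b : Ch P} (ha : c ≤ a) (hb : c ≤ b) (ha' : a.1.card = d + 1)
    (hb' : b.1.card = d + 1) (hz : Z a) : Z b := by
  induction hn : d + 1 - c.1.card using Nat.strong_induction_on generalizing c a b with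
  | _ n ih =>
  have hle := h.card_le c hc
  by_cases h1 : c.1.card = d + 1
  · have e1 : c = a := Ch.ext (eq_of_subset_of_card_le ha (by omega))
    have e2 : c = b := Ch.ext (eq_of_subset_of_card_le hb (by omega))
    exact e2 ▸ e1 ▸ hz
  have la : c < a := lt_of_le_of_ne ha fun e => h1 (e ▸ ha')
  have lb : c < b := lt_of_le_of_ne hb fun e => h1 (e ▸ hb')
  by_cases h2 : c.1.card = d
  · exact hZ c hc h2 a b la lb hz
  have hconn := h.conn c hc (by omega) a la b lb
  have := rch_ind hconn (p := fun t => ∀ s, t ≤ s → s.1.card = d + 1 → Z s) ?_ ?_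
  · exact this b le_rfl hb'
  · intro s hs hs'
    have e1 : a = s := Ch.ext (eq_of_subset_of_card_le hs (by omega))
    exact e1 ▸ hz
  · intro t ht t' ht' htt
    refine ⟨fun H s hs hs' => H s (htt.trans hs) hs', fun H s hs hs' => ?_⟩
    have hm : Mt A t := hc.mono (le_of_lt ht)
    obtain ⟨r, hr, hr'⟩ := h.pure t' (hm.mono htt)
    have hlt : c.1.card < t.1.card := card_lt_card ht
    have := h.card_le t hm
    exact ih _ (by omega) hm (htt.trans hr) hs hr' hs' (H r hr hr') rfl

/-- the same along a component of `A`. -/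
theorem Mf.along (h : Mf d A) (Z : Ch P → Prop)
    (hZ : ∀ e : Ch P, Mt A e → e.1.card = d → ∀ a b, e < a → e < b → Z a → Z b)
    {x y : P} (hx : x ∈ A) (hxy : Rch A x y) {a b : Ch P} (ha : x ∈ a.1) (hb : y ∈ b.1)
    (ha' : a.1.card = d + 1) (hb' : b.1.card = d + 1) (hz : Z a) : Z b := by
  have mt : ∀ t ∈ A, Mt A (Ch.pt t) := fun t ht => ⟨t, by simp, ht⟩
  have := rch_ind hxy (p := fun t => ∀ s : Ch P, t ∈ s.1 → s.1.card = d + 1 → Z s) ?_ ?_
  · exact this b hb hb'
  · intro s hs hs'
    exact Mf.star h Z hZ (mt x hx) (pt_le.2 ha) (pt_le.2 hs) ha' hs' hz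
  · intro t ht t' ht' htt
    obtain ⟨r, hr, hr'⟩ := h.pure (pr (Or.inl htt)) ⟨t, (mem_pr _).2 (Or.inl rfl), ht⟩
    have m1 : t ∈ r.1 := hr ((mem_pr _).2 (Or.inl rfl))
    have m2 : t' ∈ r.1 := hr ((mem_pr _).2 (Or.inr rfl))
    exact ⟨fun H s hs hs' => Mf.star h Z hZ (mt t' ht') (pt_le.2 m2) (pt_le.2 hs) hr' hs'
        (H r m1 hr'),
      fun H s hs hs' => Mf.star h Z hZ (mt t ht) (pt_le.2 m1) (pt_le.2 hs) hr' hs' (H r m2 hr')⟩

section cyc

variable {K : Type*} [Field K]

theorem Mf.cyc_step (h : Mf d A) {E : Set P} {u : chains (fs E) (d + 1) → K}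
    (hu : Matrix.vecMul u (mat K (fs E) d) = 0) (e : Ch P) (he : Mt A e) (hc : e.1.card = d)
    (a b : Ch P) (ha : e < a) (hb : e < b) (hz : ex u a.1 = 0) : ex u b.1 = 0 := by
  by_cases hE : a = b
  · exact hE ▸ hz
  by_cases hbE : b.1 ∈ chains (fs E) (d + 1)
  swap
  · exact ex_not u hbE
  have heE : e.1 ∈ chains (fs E) d :=
    mem_chains.2 ⟨(Ch.le_iff.1 hb.le).trans (mem_chains.1 hbE).1, e.2.2, hc⟩
  have := congrFun hu ⟨e.1, heE⟩
  rw [vecMul_mat] at this
  unfold bd at this
  rw [sum_eq_single b.1] at this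
  · refine (mul_eq_zero.1 this).resolve_right (coef_ne hb.le ?_)
    rw [(mem_chains.1 hbE).2.2, hc]
  · intro c hc' hcb
    by_cases hec : e.1 ⊆ c
    · obtain ⟨-, h2, h3⟩ := mem_chains.1 hc'
      let c' : Ch P := ⟨c, card_pos.1 (by omega), h2⟩
      have hl : e < c' := lt_of_le_of_ne hec fun h4 => by
        have : e.1.card = c.card := congrArg (fun t : Ch P => t.1.card) h4
        omega
      rcases Mf.two h he hc ha hb hl with h4 | h4 | h4
      · exact absurd h4 hE
      · rw [show c = a.1 from (congrArg Subtype.val h4).symm, hz, zero_mul]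
      · exact absurd (congrArg Subtype.val h4).symm hcb
    · rw [coef_zero hec, mul_zero]
  · intro h3
    exact absurd hbE h3

end cyc

/-- from every point of `E` one can leave `E` through `A`. -/
def Esc (A E : Set P) : Prop := ∀ a ∈ E, ∃ b ∈ A, Rch A a b ∧ ∃ x, x ∉ E ∧ Cm b x

theorem Mf.noCyc (h : Mf d A) {E : Set P} (hE : E ⊆ A) (hesc : Esc A E) : NoCyc (fs E) d := by
  intro K _
  refine cyc_eq_bot fun u hu => funext fun c => ?_
  obtain ⟨h1, h2, h3⟩ := mem_chains.1 c.2
  obtain ⟨a, ha⟩ : c.1.Nonempty := card_pos.1 (by omega)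
  have haE : a ∈ E := mem_fs.1 (h1 ha)
  obtain ⟨b, hb, hab, x, hx, hbx⟩ := hesc a haE
  obtain ⟨r, hr, hr'⟩ := h.pure (pr hbx) ⟨b, (mem_pr _).2 (Or.inl rfl), hb⟩
  have z0 : ex u r.1 = 0 := ex_not u fun hh =>
    hx (mem_fs.1 ((mem_chains.1 hh).1 (hr ((mem_pr _).2 (Or.inr rfl)))))
  have := Mf.along h (fun s => ex u s.1 = 0) (Mf.cyc_step h hu) hb (rch_symm hab)
    (a := r) (b := ⟨c.1, ⟨a, ha⟩, h2⟩) (hr ((mem_pr _).2 (Or.inl rfl))) ha hr' h3 z0
  simp only at this
  rwa [ex_mem u c.2] at this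

theorem Mf.cyc_le (h : Mf d A) {E : Set P} (hE : E ⊆ A) (hc : ∀ x ∈ E, ∀ y ∈ E, Rch A x y)
    (K : Type*) [Field K] : finrank K (Cyc K (fs E) d) ≤ 1 := by
  rcases (chains (fs E) (d + 1)).eq_empty_or_nonempty with h0 | ⟨c0, h0⟩
  · refine (Submodule.finrank_le _).trans ?_
    simp [h0]
  let ev : Cyc K (fs E) d →ₗ[K] K := (LinearMap.proj ⟨c0, h0⟩).comp (Submodule.subtype _)
  have hinj : Function.Injective ev := by
    rw [← LinearMap.ker_eq_bot, LinearMap.ker_eq_bot']
    rintro ⟨u, hu⟩ hz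
    have z1 : u ⟨c0, h0⟩ = 0 := hz
    apply Subtype.ext
    funext c
    obtain ⟨h1, h2, h3⟩ := mem_chains.1 c.2
    obtain ⟨a, ha⟩ : c.1.Nonempty := card_pos.1 (by omega)
    obtain ⟨k1, k2, k3⟩ := mem_chains.1 h0
    obtain ⟨b, hb⟩ : c0.Nonempty := card_pos.1 (by omega)
    have := Mf.along h (fun s => ex u s.1 = 0) (Mf.cyc_step h (mem_cyc.1 hu))
      (hE (mem_fs.1 (k1 hb))) (hc b (mem_fs.1 (k1 hb)) a (mem_fs.1 (h1 ha)))
      (a := ⟨c0, ⟨b, hb⟩, k2⟩) (b := ⟨c.1, ⟨a, ha⟩, h2⟩) hb ha k3 h3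
      (by simp only; rw [ex_mem _ h0, z1])
    simp only at this
    rwa [ex_mem u c.2] at this
  simpa using LinearMap.finrank_le_finrank_of_injective hinj

theorem rch_mono {E F : Set P} (h : E ⊆ F) {x y : P} (hr : Rch E x y) : Rch F x y :=
  rch_fs.1 ((rch_fs.2 hr).mono fun _ ht => mem_fs.2 (h (mem_fs.1 ht)))

/-- a connected part of a surface has `eu ≤ 2`. -/
theorem Mf.eu_le_two (h : Mf 2 A) {E : Set P} (hE : E ⊆ A) (hc : Conn E) : eu E ≤ 2 := by
  have h1 := (chi_le_of_dim_three (K := ℚ) (Mf.dim h hE) (cn_fs.2 hc)).1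
  have h2 := Mf.cyc_le h hE (fun x hx y hy => rch_mono hE (hc x hx y hy)) ℚ
  rw [chi_fs] at h1
  omega

/-- SPHERE: `eu = 2` kills `H^1`. -/
theorem Mf.h1_of_eu_two (h : Mf 2 A) {E : Set P} (hE : E ⊆ A) (hc : Conn E) (hχ : 2 ≤ eu E) :
    H1 E := by
  refine h1_fs.1 (h1z_of_fields (cn_fs.2 hc) fun K _ z hz => ?_)
  by_contra hn
  have h1 := (chi_le_of_dim_three (K := K) (Mf.dim h hE) (cn_fs.2 hc)).2 z hz hn
  have h2 := Mf.cyc_le h hE (fun x hx y hy => rch_mono hE (hc x hx y hy)) K
  rw [chi_fs] at h1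
  omega

/-- a connected part with boundary has `eu ≤ 1`. -/
theorem Mf.eu_le_one (h : Mf 2 A) {E : Set P} (hE : E ⊆ A) (hc : Conn E) (hesc : Esc A E) :
    eu E ≤ 1 :=
  chi_fs E ▸ (Mf.noCyc h hE hesc).chi_le_one (Mf.dim h hE) (cn_fs.2 hc)

/-- DISC: connected, with boundary, `eu = 1`. -/
theorem Mf.ctr_of_eu (h : Mf 2 A) {E : Set P} (hE : E ⊆ A) (hc : Conn E) (hesc : Esc A E)
    (hχ : 1 ≤ eu E) : Ctr E :=
  ctr_fs.1 ((Mf.noCyc h hE hesc).ctr (Mf.dim h hE) (cn_fs.2 hc) (chi_fs E ▸ hχ))

/-- HALF, first form: a part of a 3-manifold with `eu ≤ 0` has `H^1(·; ℤ) ≠ 0`. -/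
theorem Mf.exists_cocOn (h : Mf 3 A) {E : Set P} (hE : E ⊆ A) (hne : E.Nonempty)
    (hesc : Esc A E) (hχ : eu E ≤ 0) :
    ∃ w : P → P → ℤ, CocOn E w ∧ ¬ ExOn E w ∧ ¬ ExOn E fun x y => (w x y : ℚ) := by
  obtain ⟨x, hx⟩ := hne
  obtain ⟨w, h1, h2, h3⟩ := (Mf.noCyc h hE hesc).exists_coc (Mf.dim h hE) ⟨x, mem_fs.2 hx⟩
    (chi_fs E ▸ hχ)
  exact ⟨w, coc_fs.1 h1, fun h => h2 (ex_fs.2 h), fun h => h3 (ex_fs.2 h)⟩

end Crest.Agent.X212.Alg36
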