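import Crest.Agent.X212.Hp13.Tst
import Crest.Agent.X212.Sup43.Defs
import Crest.Agent.X212.Alg36.Sd2

-- ▼ part X212/Alg36/Inc1
section

/-! INC (helper36), part 1: a disc cut off by the curve `∂E` gives a positive closed piece. -/

set_option autoImplicit false
set_option linter.unusedSectionVars false

namespace Crest.Agent.X212.Alg36

open Finset Classical
open Crest.Agent.X212.Hp13
open Crest.Agent.X212.Sup43 (nu th Pc)
open Crest.Agent.X212.Sf30 (lo lo_iff lo_of_le lt_of_lo exists_dn lo_bot not_lo_top la_upper)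

variable {P Q : Type} [PartialOrder P] [Fintype P] [PartialOrder Q] [Fintype Q] {A : Set P}
  {X Y : P → P → ℤ} {ω : P → ℤ}

/-- closed curves have Euler characteristic zero -/
theorem Mf.sum_clo_mix {E : Set P} (h : Mf 2 E) {K : Set (Ch P)} (hK : K ⊆ mix E)
    (hc : ∀ c ∈ K, ∀ e ∈ mix E, Cm c e → e ∈ K) : ∑ c ∈ univ.filter (· ∈ K), c.sg = 0 := by
  have h1 := Mf.dual_sum h (ind K) fun e he => ind_of_not fun k => he (hK k).1
  have h2 : ∀ c : Ch P, ∑ e ∈ univ.filter (· ≤ c), e.sg * ind K e = ind K c := fun c => by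
    by_cases k : c ∈ K
    · rw [ind_of_mem k, ← sum_faces_mix (hK k)]
      refine sum_congr rfl fun e he => ?_
      by_cases l : e ∈ mix E
      · rw [ind_of_mem (hc c k e l (Or.inr (mem_filter.1 he).2)), iMt_of l.1, iMt_of l.2, one_mul]
      · rw [ind_of_not fun a => l (hK a)]
        rcases not_and_or.1 l with a | a <;> simp [iMt_not a]
    · rw [ind_of_not k]
      refine sum_eq_zero fun e he => ?_
      rw [ind_of_not fun a => k (hc e a c (mix_upper (hK a) (mem_filter.1 he).2)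
        (Or.inl (mem_filter.1 he).2)), mul_zero]
  simp only [h2] at h1
  have h3 : ∑ c ∈ univ.filter (· ∈ K), c.sg = ∑ c : Ch P, c.sg * ind K c := by
    rw [sum_filter]
    exact sum_congr rfl fun c _ => by unfold ind; split_ifs <;> simp
  norm_num at h1
  omega

theorem nu_anti [hX : IsCoc A X] (hY : Mono A Y) (ex : EqD A (X + Y) (cb ω)) :
    Antitone (nu ω : Lv A X → ℤ) := fun p q h => by
  obtain ⟨h1, h2⟩ := Lv.le_iff.1 h
  have d := q.2.1.dp q.1.1.bot_mem (h1 p.1.1.bot_mem) (Ch.bot_anti h1)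
  have e := ex _ _ d
  have := hY _ _ d
  simp only [Pi.add_apply, cb] at e
  simp only [nu]
  omega

theorem th_le [hY : IsCoc A Y] (hX : Coc A X) (ex : EqD A (X + Y) (cb ω)) {p q : Lv A Y}
    (h : p ≤ q) : th X ω q = th X ω p + X p.1.1.top q.1.1.top := by
  obtain ⟨h1, h2⟩ := Lv.le_iff.1 h
  have e := ex _ _ (q.2.1.dp q.1.1.bot_mem (h1 p.1.1.bot_mem) (Ch.bot_anti h1))
  have e1 := hX.add' q.2.1 q.1.1.bot_mem (h1 p.1.1.bot_mem) q.1.1.top_mem (Ch.bot_anti h1)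
    (Ch.le_top (h1 p.1.1.bot_mem))
  have e2 := hX.add' q.2.1 (h1 p.1.1.bot_mem) (h1 p.1.1.top_mem) q.1.1.top_mem p.1.1.bot_le_top
    (Ch.top_mono h1)
  simp only [Pi.add_apply, cb] at e
  simp only [th]
  omega

/-- DOWN: a positive closed union of pieces at a finer level -/
theorem down [IsCoc A X] {f : Q → P} {B : Set Q} {w : Q → Q → ℤ} [IsCoc B w]
    (h : Kh11.Rf f A X B w) (hX : Mono A X) (hY : Mono A Y) (ex : EqD A (X + Y) (cb ω))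
    {D : Set (Lv B w)} (hD : ∀ p ∈ D, ∀ q, q ≤ p → q ∈ LA B w)
    (hc : ∀ p ∈ D, ∀ r ∈ LA B w, Cm p r → nu (ω ∘ f) r = nu (ω ∘ f) p → r ∈ D)
    (hp : 0 < chiC D) : ∃ E', Pc (LA A X) (nu ω) E' ∧ 0 < chiC E' := by
  have e : ∀ p, nu ω (h.map p) = nu (ω ∘ f) p := fun p => by
    simp only [nu, Kh11.Rf.map_ch, Kh11.Rf.map_lv, h.im_bot, Function.comp]
  obtain ⟨n, hn⟩ : ∃ n, 0 < chiC {p | p ∈ D ∧ nu (ω ∘ f) p = n} := by
    by_contra k
    push Not at k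
    refine hp.not_ge ?_
    rw [chiC, ← sum_fiberwise_of_maps_to (t := (univ.filter (· ∈ D)).image (nu (ω ∘ f)))
      (g := nu (ω ∘ f)) fun p hp => mem_image_of_mem _ hp]
    refine sum_nonpos fun n _ => le_of_eq_of_le ?_ (k n)
    rw [chiC, filter_filter]
    exact sum_congr (by ext; simp) fun _ _ => rfl
  let V : Set (Lv A X) := {p | p ∈ LA A X ∧ nu ω p = n}
  have hV : V.OrdConnected := ⟨fun a ha b hb c hc => ⟨la_upper hc.1 ha.1, le_antisymm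
    (ha.2 ▸ nu_anti hY ex hc.1) (hb.2 ▸ nu_anti hY ex hc.2)⟩⟩
  have ws := h.ws hX (V := V) (fun _ k => k.1) hV
  have mem : ∀ p, p ∈ h.map ⁻¹' V ↔ p ∈ LA B w ∧ nu (ω ∘ f) p = n := fun p => by
    rw [← h.map_LA, ← e]; rfl
  have sub : {p | p ∈ D ∧ nu (ω ∘ f) p = n} ⊆ h.map ⁻¹' V := fun p k =>
    (mem p).2 ⟨hD p k.1 p le_rfl, k.2⟩
  have clo : ∀ p ∈ {p | p ∈ D ∧ nu (ω ∘ f) p = n}, ∀ q ∈ h.map ⁻¹' V, Cm p q →
      q ∈ {p | p ∈ D ∧ nu (ω ∘ f) p = n} := fun p k q l c =>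
    ⟨hc p k.1 q ((mem q).1 l).1 c (((mem q).1 l).2.trans k.2.symm), ((mem q).1 l).2⟩
  obtain ⟨p, k, l⟩ := exists_cmp_pos sub clo hn
  obtain ⟨E', h1, h2⟩ := ws.isCmp_ex (isCmp_cmp (sub k))
  have h3 : cmp (h.map ⁻¹' V) p = h.map ⁻¹' E' :=
    h2.trans (Set.ext fun t => ⟨fun a => a.2, fun a => ⟨h1.sub a, a⟩⟩)
  refine ⟨E', ⟨⟨n, h1⟩, fun a ha q hq => ?_⟩, by rwa [← h.chiC_pre fun _ a => (h1.sub a).1, ← h3]⟩
  obtain ⟨a, rfl⟩ := h.surj (h1.sub ha).1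
  obtain ⟨q, hq', rfl⟩ := h.face hq
  have : a ∈ cmp (h.map ⁻¹' V) p := h3 ▸ ha
  exact h.map_LA.2 (hD a ((this.2.in_clopen clo k).mem k).1 q hq')

theorem chiC_eq_of {α : Type} [Fintype α] {T : Set α} {G : Set (Lv A X)} (s : α → ℤ)
    (R : α → Lv A X → Prop) (h1 : ∀ a ∈ T, ∃ p ∈ G, R a p) (h2 : ∀ p ∈ G, ∃ a ∈ T, R a p)
    (h3 : ∀ a ∈ T, ∀ b ∈ T, ∀ p, R a p → R b p → a = b) (h4 : ∀ a p q, R a p → R a q → p = q)
    (h5 : ∀ a p, R a p → s a = p.1.1.sg) : chiC G = ∑ a ∈ univ.filter (· ∈ T), s a := by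
  choose g hg hg' using h1
  refine (sum_bij (fun a h => g a (mem_filter.1 h).2) (fun a h => mem_filter.2 ⟨mem_univ _, hg a _⟩)
    (fun a h b h' e => h3 a (mem_filter.1 h).2 b (mem_filter.1 h').2 _ (hg' a _) (e ▸ hg' b _))
    (fun p h => ?_) fun a h => h5 _ _ (hg' a _)).symm
  obtain ⟨a, ha, k⟩ := h2 p (mem_filter.1 h).2
  exact ⟨a, mem_filter.2 ⟨mem_univ _, ha⟩, h4 a _ _ (hg' a _) k⟩

section io
variable [IsCoc A Y]

/-- the chain of chains under a chain of cells -/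
noncomputable def io (K : Ch (Lv A Y)) : Ch (Ch P) := Ch.img Lv.ch (fun _ _ h => Lv.ch_le h) K

theorem mem_io {K : Ch (Lv A Y)} {c : Ch P} : c ∈ (io K).1 ↔ ∃ p ∈ K.1, p.1.1 = c := Ch.mem_img
theorem io_mem {K : Ch (Lv A Y)} {p : Lv A Y} (h : p ∈ K.1) : p.1.1 ∈ (io K).1 :=
  mem_io.2 ⟨p, h, rfl⟩
theorem top_io (K : Ch (Lv A Y)) : (io K).top = K.top.1.1 := Ch.top_img _ K
theorem bot_io (K : Ch (Lv A Y)) : (io K).bot = K.bot.1.1 := Ch.bot_img _ K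
theorem io_mono {K L : Ch (Lv A Y)} (h : K ≤ L) : io K ≤ io L := Ch.img_mono _ h

theorem sg_io (K : Ch (Lv A Y)) : (io K).sg = K.sg := by
  rw [Ch.sg, Ch.sg]
  congr 1
  exact card_image_of_injOn fun p hp q hq e => (K.total hp hq).elim
    (fun k => Sf30.lv_eq_of_le k e) fun k => (Sf30.lv_eq_of_le k e.symm).symm

theorem io_face {K : Ch (Lv A Y)} {C : Ch (Ch P)} (h : C ≤ io K) : ∃ L, L ≤ K ∧ io L = C := by
  obtain ⟨p, hp, e⟩ := mem_io.1 (h C.top_mem)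
  refine ⟨K.sub (K.1.filter fun p => p.1.1 ∈ C.1) ⟨p, mem_filter.2 ⟨hp, e ▸ C.top_mem⟩⟩
    (filter_subset _ _), filter_subset _ _, Ch.ext (Finset.ext fun c => mem_io.trans ?_)⟩
  refine ⟨fun ⟨q, hq, e⟩ => e ▸ (mem_filter.1 hq).2, fun k => ?_⟩
  obtain ⟨q, hq, rfl⟩ := mem_io.1 (h k)
  exact ⟨q, mem_filter.2 ⟨hq, k⟩, rfl⟩

theorem io_lift (hm : Mono A Y) (k : Lv A Y) {C : Ch (Ch P)} (h : k.1.1 ≤ C.bot)
    (hd : Dom A C.top) : ∃ K, io K = C ∧ ∀ p ∈ K.1, k ≤ p := by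
  have e : ∀ c, ∃ q : Lv A Y, c ∈ C.1 → q.1.1 = c ∧ k ≤ q := fun c => by
    by_cases hc : c ∈ C.1
    · obtain ⟨q, h1⟩ := Lv.exists_ge hm k (hd.mono (Ch.le_top hc)) (h.trans (Ch.bot_le hc))
      exact ⟨q, fun _ => h1⟩
    · exact ⟨k, fun a => absurd a hc⟩
  choose g hg using e
  refine ⟨Ch.mk' (C.1.image g) (C.2.1.image g) fun a ha b hb => ?_, Ch.ext (Finset.ext fun c =>
    mem_io.trans ⟨?_, fun a => ⟨g c, mem_image_of_mem _ a, (hg c a).1⟩⟩),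
    fun p hp => ?_⟩
  · obtain ⟨c, hc, rfl⟩ := mem_image.1 ha
    obtain ⟨d, hd, rfl⟩ := mem_image.1 hb
    exact (C.total hc hd).imp
      (fun l => Sf30.lv_le_of_ge (hg c hc).2 (hg d hd).2 (by rwa [(hg c hc).1, (hg d hd).1]))
      fun l => Sf30.lv_le_of_ge (hg d hd).2 (hg c hc).2 (by rwa [(hg c hc).1, (hg d hd).1])
  · rintro ⟨q, hq, e⟩
    obtain ⟨d, hd, rfl⟩ := mem_image.1 hq
    rw [← e, (hg d hd).1]; exact hd
  · obtain ⟨d, hd, rfl⟩ := mem_image.1 hp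
    exact (hg d hd).2

/-- the cells next to `E` are determined by their chains -/
def Inj (E : Set (Lv A Y)) : Prop :=
  ∀ p q : Lv A Y, (∃ e ∈ E, Cm e p) → (∃ e ∈ E, Cm e q) → p.1.1 = q.1.1 → p = q

variable {E : Set (Lv A Y)}

theorem Inj.le (h : Inj E) {K L : Ch (Lv A Y)} (hK : ∀ p ∈ K.1, ∃ e ∈ E, Cm e p)
    (hL : ∀ p ∈ L.1, ∃ e ∈ E, Cm e p) (k : io K ≤ io L) : K ≤ L := fun p hp => by
  obtain ⟨q, hq, e⟩ := mem_io.1 (k (io_mem hp))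
  exact h q p (hL q hq) (hK p hp) e ▸ hq

theorem near {K : Ch (Lv A Y)} (h : Mt E K) : ∀ p ∈ K.1, ∃ e ∈ E, Cm e p :=
  fun _ hp => let ⟨e, he, k⟩ := h; ⟨e, k, K.cm he hp⟩

/-- the curve `∂E` on the surface `X`, one level up -/
def Gam (X : P → P → ℤ) (E : Set (Lv A Y)) : Set (Lv (Ch.top ⁻¹' A) (pb Ch.top X)) :=
  {p | ∃ K ∈ mix E, io K = p.1.1}

/-- the high part of the chain of a cell -/
noncomputable def hp (k : Lv A Y) : Ch P :=
  k.1.1.sub (k.1.1.1.filter fun x => ¬ lo k x) ⟨_, mem_filter.2 ⟨k.1.1.top_mem, not_lo_top k⟩⟩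
    (filter_subset _ _)

theorem hp_le (k : Lv A Y) : hp k ≤ k.1.1 := filter_subset _ _

theorem hp_mono {k l : Lv A Y} (h : k ≤ l) : hp k ≤ hp l := fun x hx =>
  mem_filter.2 ⟨Lv.ch_le h (mem_filter.1 hx).1,
    fun a => (mem_filter.1 hx).2 ((lo_iff h (mem_filter.1 hx).1).1 a)⟩

theorem not_le_hp {k l : Lv A Y} (h : k ≤ l) : ¬ k.1.1 ≤ hp l := fun a =>
  (mem_filter.1 (a k.1.1.bot_mem)).2 ((lo_iff h k.1.1.bot_mem).2 (lo_bot k))

end io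

/-- FIN -/
theorem fin_piece [IsCoc A X] [hY : IsCoc A Y] [IsCoc (Ch.top ⁻¹' A) (pb Ch.top X)]
    (hM : Mf 3 A) (mX : Mono A X) (mY : Mono A Y) (jx : ∀ x y, Dp A x y → X x y ≤ 1)
    (ex : EqD A (X + Y) (cb ω)) {E : Set (Lv A Y)} (hE : E ⊆ LA A Y)
    (hA : ∀ p ∈ E, p.1.1.top ∈ A) (hi : Inj E)
    (hc : ∀ K ∈ mix E, 0 < X K.bot.1.1.top K.top.1.1.top) (hl : IsLowerSet (Gam X E))
    {D : Set (Lv (Ch.top ⁻¹' A) (pb Ch.top X))} (hD : D ⊆ LA _ _ \ Gam X E)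
    (hcl : ∀ p ∈ D, ∀ r ∈ LA _ _ \ Gam X E, Cm p r → r ∈ D) (hT : ¬ Tch _ _ D)
    (hp0 : 0 < chiC D) : ∃ E', Pc (LA A X) (nu ω) E' ∧ 0 < chiC E' := by
  have m1 : Mono (Ch.top ⁻¹' A) (pb Ch.top X) := mX.pb Ch.top_mono
  have emb := emb_univ m1 fun x y k => jx _ _ (k.map Ch.top_mono)
  have le : ∀ p q : Lv (Ch.top ⁻¹' A) (pb Ch.top X), p.1.1 ≤ q.1.1 → p ≤ q :=
    fun p q => emb p trivial q trivial
  have mt : ∀ K ∈ mix E, Mt (Ch.top ⁻¹' A) (io K) := fun K ⟨⟨e, he, k⟩, _⟩ =>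
    ⟨_, io_mem he, hA e k⟩
  have cell : ∀ K ∈ mix E, ∀ C, io K ≤ C → ∃ r ∈ LA (Ch.top ⁻¹' A) (pb Ch.top X), r.1.1 = C := by
    intro K hK C k
    obtain ⟨r, h, -⟩ := Lv.exists_ge m1 ⟨(io K, 0), (mt K hK).dom, le_rfl, by
      show 0 < X (io K).bot.top (io K).top.top
      rw [bot_io, top_io]; exact hc K hK⟩ ((mt K hK).mono k).dom k
    exact ⟨r, show Mt _ _ from h ▸ (mt K hK).mono k, h⟩
  have nG : ∀ K ∈ mix E, ∀ r : Lv (Ch.top ⁻¹' A) (pb Ch.top X), io K ≤ r.1.1 →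
      r.1.1.bot ≤ hp K.bot → r ∉ Gam X E := by
    rintro K hK r k l ⟨L, hL, e⟩
    rw [← e] at k l
    rw [bot_io] at l
    exact not_le_hp (Ch.bot_anti (hi.le (near hK.1) (near hL.1) k)) l
  have ins : ∀ (K : Ch (Lv A Y)) (c : Ch P), c ≤ hp K.bot → ∀ x ∈ (io K).1, Cm c x :=
    fun K c k x hx => Or.inl (k.trans ((hp_le _).trans (bot_io K ▸ Ch.bot_le hx)))
  -- all the high neighbours of a cell of the curve lie on one side
  have side : ∀ K ∈ mix E, ∀ r t : Lv (Ch.top ⁻¹' A) (pb Ch.top X), io K ≤ r.1.1 →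
      r.1.1.bot ≤ hp K.bot → t.1.1 = (io K).ins _ (ins K _ le_rfl) → (r ∈ D ↔ t ∈ D) := by
    intro K hK r t k l e
    have c2 : ∀ x ∈ ((io K).ins _ (ins K _ le_rfl)).1, Cm r.1.1.bot x := fun x hx => by
      rcases mem_insert.1 hx with rfl | hx
      exacts [Or.inl l, ins K _ l x hx]
    obtain ⟨a, ha, ea⟩ := cell K hK _ ((io K).le_ins _ (ins K _ l))
    obtain ⟨b, hb, eb⟩ := cell K hK _ (((io K).le_ins _ _).trans (Ch.le_ins _ _ c2))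
    have ar : a ≤ r := le _ _ (ea ▸ insert_subset r.1.1.bot_mem k)
    have ab : a ≤ b := le _ _ (by
      rw [ea, eb]; exact insert_subset_insert _ (subset_insert _ _))
    have tb : t ≤ b := le _ _ (by rw [e, eb]; exact Ch.le_ins _ _ _)
    have ka : io K ≤ a.1.1 := ea ▸ Ch.le_ins _ _ _
    have kt : io K ≤ t.1.1 := e ▸ Ch.le_ins _ _ _
    have na := nG K hK a ka ((Ch.bot_le (ea ▸ mem_insert_self _ _)).trans l)
    have nt := nG K hK t kt (Ch.bot_le (e ▸ mem_insert_self _ _))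
    have nb : b ∉ Gam X E := fun k => na (hl ab k)
    have nr : r ∉ Gam X E := fun k => na (hl ar k)
    have lt : t ∈ LA _ _ := (mt K hK).mono kt
    exact ⟨fun h => hcl _ (hcl _ (hcl _ h a ⟨ha, na⟩ (Or.inr ar)) b ⟨hb, nb⟩ (Or.inl ab)) t
      ⟨lt, nt⟩ (Or.inr tb), fun h => hcl _ (hcl _ (hcl _ h b ⟨hb, nb⟩ (Or.inl tb)) a ⟨ha, na⟩
        (Or.inr ab)) r ⟨la_upper ar ha, nr⟩ (Or.inl ar)⟩
  let KK : Set (Ch (Lv A Y)) := {K | K ∈ mix E ∧ ∃ r ∈ D, io K ≤ r.1.1 ∧ r.1.1.bot ≤ hp K.bot}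
  have all : ∀ K ∈ KK, ∀ r : Lv (Ch.top ⁻¹' A) (pb Ch.top X), io K ≤ r.1.1 →
      r.1.1.bot ≤ hp K.bot → r ∈ D := fun K ⟨hK, a, ha, k1, k2⟩ r k l => by
    obtain ⟨t, -, e⟩ := cell K hK _ ((io K).le_ins _ (ins K _ le_rfl))
    exact (side K hK r t k l e).2 ((side K hK a t k1 k2 e).1 ha)
  have clo : ∀ K ∈ KK, ∀ L ∈ mix E, Cm K L → L ∈ KK := fun K hK L hL c => by
    rcases c with c | c
    · obtain ⟨t, -, e⟩ := cell L hL _ ((io L).le_ins _ (ins L _ le_rfl))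
      have k1 : io L ≤ t.1.1 := e ▸ Ch.le_ins _ _ _
      have k2 : t.1.1.bot ≤ hp L.bot := Ch.bot_le (e ▸ mem_insert_self _ _)
      exact ⟨hL, t, all K hK t ((io_mono c).trans k1) (k2.trans (hp_mono (Ch.bot_anti c))), k1, k2⟩
    · obtain ⟨-, r, hr, k1, k2⟩ := hK
      exact ⟨hL, r, hr, (io_mono c).trans k1, k2.trans (hp_mono (Ch.bot_anti c))⟩
  -- above a cell of the curve and at the same level: on the curve or high
  have high : ∀ K ∈ mix E, ∀ p r : Lv (Ch.top ⁻¹' A) (pb Ch.top X), io K = p.1.1 → p ≤ r →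
      r ∉ Gam X E → nu (ω ∘ Ch.top) r = nu (ω ∘ Ch.top) p → r.1.1.bot ≤ hp K.bot := by
    intro K hK p r e k n l
    obtain ⟨k1, k2⟩ := Lv.le_iff.1 k
    have hb : r.1.1.bot ≤ K.bot.1.1 := by rw [← bot_io, e]; exact Ch.bot_anti k1
    have d := K.bot.2.1.dp (hb r.1.1.bot.top_mem) K.bot.1.1.top_mem (Ch.top_mono hb)
    have e1 := ex _ _ d
    have e2 := hY.coc.add' K.bot.2.1 K.bot.1.1.bot_mem (hb r.1.1.bot.top_mem) K.bot.1.1.top_mem
      (Ch.bot_le (hb r.1.1.bot.top_mem)) (Ch.top_mono hb)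
    have e3 := K.bot.2.2.2
    simp only [nu, Function.comp, pb, ← e, bot_io, Pi.add_apply, cb] at l k2 e1
    have t : ¬ lo K.bot r.1.1.bot.top := by unfold lo; omega
    refine fun x hx => mem_filter.2 ⟨hb hx, fun a => n ?_⟩
    obtain ⟨q, q1, q2⟩ := exists_dn mY K.bot hb hx r.1.1.bot.top_mem a t
    obtain ⟨a, ha, c⟩ := r.2.1
    obtain ⟨L, l1, l2⟩ := io_lift mY q (C := r.1.1) q1.le (dom_of_cm ha (c _ r.1.1.top_mem))
    have : K ≤ L := fun u hu => by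
      obtain ⟨v, hv, ev⟩ := mem_io.1 (l1 ▸ k1 (e ▸ io_mem hu))
      exact Sf30.lv_eq_of_ge (l2 v hv) (q2.trans (Ch.bot_le hu)) ev ▸ hv
    exact ⟨L, mix_upper hK this, l1⟩
  let G : Set (Lv (Ch.top ⁻¹' A) (pb Ch.top X)) := {p | ∃ K ∈ KK, io K = p.1.1}
  have GG : G ⊆ Gam X E := fun p ⟨K, hK, e⟩ => ⟨K, hK.1, e⟩
  have gla : Gam X E ⊆ LA (Ch.top ⁻¹' A) (pb Ch.top X) := fun p ⟨K, hK, e⟩ => show Mt _ _ from e ▸ mt K hK
  have z : chiC G = 0 := by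
    rw [← Mf.sum_clo_mix ((Sf30.mf_LA hM mY).mono hE) (fun _ k => k.1) clo]
    refine chiC_eq_of Ch.sg (fun K p => io K = p.1.1) (fun K h => ?_) (fun p h => h)
      (fun K h L h' p e e' => ?_) (fun K p q e e' => ?_) fun K p e => by rw [← e, sg_io]
    · obtain ⟨r, -, e⟩ := cell K h.1 _ le_rfl
      exact ⟨r, ⟨K, h, e.symm⟩, e.symm⟩
    · have n1 := near h.1.1
      have n2 := near h'.1.1
      exact le_antisymm (hi.le n1 n2 (e.trans e'.symm).le) (hi.le n2 n1 (e.trans e'.symm).ge)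
    · exact le_antisymm (le _ _ (e.symm.trans e').le) (le _ _ (e.symm.trans e').ge)
  refine down (Kh11.ce_top.rf A X) mX mY ex (D := D ∪ G) (fun p k q l => ?_)
    (fun p k r hr c l => ?_) (by
      rwa [chiC_union (Set.disjoint_left.2 fun p a b => (hD a).2 (GG b)), z, add_zero])
  · rcases k with k | k
    · exact by_contra fun n => hT ⟨p, k, q, n, l⟩
    · exact gla (hl l (GG k))
  by_cases g : r ∈ Gam X E
  · obtain ⟨L, hL, e⟩ := id g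
    refine Or.inr ⟨L, ?_, e⟩
    rcases k with k | ⟨K, hK, e'⟩
    · have c := c.resolve_left fun a => (hD k).2 (hl a g)
      exact ⟨hL, p, k, e ▸ Lv.ch_le c, high L hL r p e c (hD k).2 l.symm⟩
    · refine clo K hK L hL (c.imp (fun a => hi.le (near hK.1.1) (near hL.1) ?_)
        fun a => hi.le (near hL.1) (near hK.1.1) ?_) <;> rw [e, e'] <;> exact Lv.ch_le a
  · rcases k with k | ⟨K, hK, e'⟩
    · exact Or.inl (hcl p k r ⟨hr, g⟩ c)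
    · have c := c.resolve_right fun a => g (hl a ⟨K, hK.1, e'⟩)
      exact Or.inl (all K hK r (e' ▸ Lv.ch_le c) (high K hK.1 p r e' c g l))

end Crest.Agent.X212.Alg36
end

-- ▼ part X212/Alg36/Inc2
section

/-! INC (helper36), part 2: the lower and the upper piece. -/

set_option autoImplicit false
set_option linter.unusedSectionVars false

namespace Crest.Agent.X212.Alg36

open Finset Classical
open Crest.Agent.X212.Hp13
open Crest.Agent.X212.Sup43 (nu th Pc Pos IncLStmt)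
open Crest.Agent.X212.Sf30 (lo lo_iff exists_vx lo_bot not_lo_top la_upper lv_le_of_ge)

variable {P : Type} [PartialOrder P] [Fintype P] {A : Set P} {X Y : P → P → ℤ} {ω : P → ℤ}

theorem emb_lower [hY : IsCoc A Y] (hX : Coc A X) (mX : Mono A X) (mY : Mono A Y)
    (ex : EqD A (X + Y) (cb ω)) {E : Set (Lv A Y)} {n : ℤ}
    (hE : IsCmp {p | p ∈ LA A Y ∧ th X ω p = n} E) (hl : IsLowerSet E) :
    Emb {q | ∃ p ∈ E, p ≤ q} := by
  have aux : ∀ u v : Lv A Y, u.1.1 = v.1.1 → ∀ e ∈ E, ∀ f ∈ E, e ≤ u → f ≤ v →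
      ¬ u.1.2 < v.1.2 := by
    intro u v h e he f hf k l lt
    have t1 := th_le hX ex k
    have t2 := th_le hX ex l
    rw [(hE.sub he).2] at t1
    rw [(hE.sub hf).2] at t2
    have m1 : e.1.1.top ∈ u.1.1.1 := Lv.ch_le k e.1.1.top_mem
    have m2 : f.1.1.top ∈ u.1.1.1 := h ▸ Lv.ch_le l f.1.1.top_mem
    simp only [th, ← h] at t1 t2
    rcases u.1.1.total m1 m2 with a | a
    · have := hX.add' u.2.1 m1 m2 u.1.1.top_mem a (Ch.le_top m2)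
      have := mX _ _ (u.2.1.dp m1 m2 a)
      omega
    have nl : ¬ lo u f.1.1.top := fun b => (lo_iff l f.1.1.top_mem).not.2 (not_lo_top f) (by
      unfold lo at b ⊢; rw [← h]; omega)
    have c : ∀ x ∈ e.1.1.1, Cm f.1.1.top x := fun x hx => u.1.1.cm m2 (Lv.ch_le k hx)
    have c' : e.1.1.ins _ c ≤ u.1.1 := insert_subset m2 (Lv.ch_le k)
    obtain ⟨g, g1, g2⟩ := Lv.exists_ge mY e (u.2.1.mono c') (e.1.1.le_ins _ c)
    have gu : g ≤ u := lv_le_of_ge g2 k (g1 ▸ c')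
    have gt : g.1.1.top = e.1.1.top := by rw [g1, top_ins c a]
    have gE : g ∈ E := hE.clopen he ⟨la_upper g2 (hE.sub he).1, by
      rw [th_le hX ex g2, gt, Kh11.dom_self hX e.2.1 e.1.1.top_mem, add_zero, (hE.sub he).2]⟩
      (Or.inl g2)
    have m3 : f.1.1.top ∈ g.1.1.1 := g1 ▸ mem_insert_self _ _
    obtain ⟨w, w1, w2⟩ := exists_vx mY g g.1.1.bot_mem m3 (lo_bot g) ((lo_iff gu m3).not.1 nl)
    have t3 := th_le hX ex w2
    rw [(hE.sub gE).2, (hE.sub (hl w2 gE)).2, w1, Ch.top_pr, gt] at t3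
    have := hX.add' u.2.1 m2 m1 u.1.1.top_mem a (Ch.le_top m1)
    omega
  rintro p ⟨e, he, k⟩ q ⟨f, hf, l⟩ h
  obtain ⟨u, u1, u2⟩ := Lv.exists_ge mY p q.2.1 h
  exact Lv.ext u1 (le_antisymm (not_lt.1 (aux q u u1.symm f hf e he l (k.trans u2)))
    (not_lt.1 (aux u q u1 e he f hf (k.trans u2) l))) ▸ u2

theorem lev_zero (jx : ∀ x y, Dp A x y → X x y ≤ 1) (p : Lv A X) :
    p.1.2 = 0 ∧ X p.1.1.bot p.1.1.top = 1 := by
  have := jx _ _ p.2.1.bt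
  have := p.2.2
  omega

theorem mt_up (hA : IsUpperSet A) {c : Ch P} (h : Mt A c) : c.top ∈ A :=
  let ⟨_, ha, k⟩ := h; hA (Ch.le_top ha) k

theorem incLStmt : IncLStmt := by
  intro s X Y ω hX hY E h hE h1 hl hu
  obtain ⟨n, hn⟩ := hE.cmp
  have mX := h.sx.mono
  have mY := h.sy.mono
  have emb := emb_lower hX.coc mX mY h.ex hn hl
  have sub : E ⊆ LA s.A Y := fun p k => (hn.sub k).1
  have hA : ∀ p ∈ E, p.1.1.top ∈ s.A := fun p k => mt_up h.up (sub k)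
  have star : ∀ p ∈ E, ∀ q, Cm p q → q ∈ {q | ∃ p ∈ E, p ≤ q} := fun p k q c =>
    c.elim (fun a => ⟨p, k, a⟩) fun a => ⟨q, hl a k, le_rfl⟩
  have ES : E ⊆ {q | ∃ p ∈ E, p ≤ q} := fun p k => ⟨p, k, le_rfl⟩
  have jump : ∀ p ∈ E, ∀ q, p ≤ q → (q ∈ E ↔ X p.1.1.top q.1.1.top = 0) := fun p k q l => by
    have := th_le hX.coc h.ex l
    rw [(hn.sub k).2] at this
    exact ⟨fun a => by rw [(hn.sub a).2] at this; omega,
      fun a => hn.clopen k ⟨la_upper l (sub k), by omega⟩ (Or.inl l)⟩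
  have pos : ∀ p ∈ E, ∀ q, p ≤ q → q ∉ E → 0 < X p.1.1.top q.1.1.top := fun p k q l a =>
    lt_of_le_of_ne (mX _ _ (Dp.of_left (hA p k) (Ch.top_mono (Lv.ch_le l))))
      fun b => a ((jump p k q l).2 b.symm)
  have upp := emb.upp h.good.mf mY sub hA star hl hn.conn (by
    simp only [IsUpperSet, not_forall] at hu
    obtain ⟨p, q, a, b, c⟩ := hu
    exact ⟨p, b, q, c, a⟩)
  haveI : IsCoc (Ch.top ⁻¹' s.A) (pb Ch.top X) := ⟨hX.coc.pb Ch.top_mono⟩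
  have k1 : ∀ x y, Dp (Ch.top ⁻¹' s.A) x y → x ∈ Lv.ch '' E → y ∉ Lv.ch '' E →
      1 ≤ pb Ch.top X x y := by
    rintro _ y k ⟨p, a, rfl⟩ b
    obtain ⟨q, rfl, l⟩ := Lv.exists_ge mY p (Mt.mono (sub a) k.1).dom k.1
    exact pos p a q l fun c => b ⟨q, c, rfl⟩
  have k2 : ∀ x y, Dp (Ch.top ⁻¹' s.A) x y → x ∈ Lv.ch '' E → y ∈ Lv.ch '' E →
      pb Ch.top X x y = 0 := by
    rintro _ _ k ⟨p, a, rfl⟩ ⟨q, b, rfl⟩
    exact (jump p a q (emb p (ES a) q (ES b) k.1)).1 b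
  obtain ⟨z', z1, z2, -, -, z3⟩ := swap_up (Mf.sd h.good.mf)
    (Bnd.sd h.good.conv h.good.nice h.good.bnd) upp
    (by rw [(emb.mono ES).eu, eu_lower h.good.mf mY sub hl, h1])
    (show Sf (Ch.top ⁻¹' s.A) (pb Ch.top X) from (Desc.sd s).sf h.sx) k1 k2
  obtain ⟨D, d1, d2, d3⟩ := z3.resolve_left
    (h.mx.desc (Desc.sd s) _ _ Desc.refl z' z1 z2).not_gt inferInstance
  have bt : ∀ K ∈ mix E, K.bot ∈ E ∧ K.top ∉ E := fun K ⟨⟨_, a, b⟩, _, c, d⟩ =>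
    ⟨hl (Ch.bot_le a) b, fun k => d (hl (Ch.le_top c) k)⟩
  have e : CY (Ch.top ⁻¹' s.A) (pb Ch.top X) (Lv.ch '' E) = Gam X E := by
    ext q
    have q0 := lev_zero (fun x y k => h.jx _ _ (k.map Ch.top_mono)) q
    refine ⟨fun ⟨⟨p, a, b⟩, _⟩ => ?_, fun ⟨K, a, b⟩ => ⟨⟨_, (bt K a).1, ?_⟩, q0.1⟩⟩
    · obtain ⟨c, hc, d⟩ := q.2.1
      obtain ⟨K, l1, l2⟩ := io_lift mY p (C := q.1.1) b.le (dom_of_cm hc (d _ q.1.1.top_mem))
      have e1 : K.bot = p := Sf30.lv_eq_of_ge (l2 _ K.bot_mem) le_rfl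
        (by rw [← bot_io, l1]; exact b.symm)
      refine ⟨K, ⟨⟨_, K.bot_mem, e1 ▸ a⟩, _, K.top_mem, fun k => ?_⟩, l1⟩
      have := (jump p a _ (l2 _ K.top_mem)).1 k
      rw [← e1, ← bot_io, ← top_io, l1] at this
      exact one_ne_zero (q0.2.symm.trans this)
    · rw [← b, bot_io]; rfl
  have low : IsLowerSet (Gam X E) := e ▸ fun _ _ a b =>
    (mv_of_raise (mX.pb Ch.top_mono) k1 k2).Y_low b a
  rw [e] at d1
  exact fin_piece h.good.mf mX mY h.jx h.ex sub hA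
    (fun p q ⟨a, ha, b⟩ ⟨c, hc, d⟩ k => le_antisymm (emb _ (star a ha p b) _ (star c hc q d) k.le)
      (emb _ (star c hc q d) _ (star a ha p b) k.ge))
    (fun K a => pos _ (bt K a).1 _ K.bot_le_top (bt K a).2) low d1.sub
    (fun p a r b c => d1.clopen a b c) d2 (by omega)

/-- STRIP -/
theorem strip {T : Set (Ch P)} {Q : Set P} (r : P → P) (h0 : ∀ c ∈ T, c.top ∉ Q)
    (h1 : ∀ c ∈ T, ∀ x ∈ c.1, x ∉ Q → r x ∈ Q ∧ r x ≤ x ∧ ∀ y ∈ c.1, y ∈ Q → y ≤ x → y ≤ r x)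
    (h2 : ∀ c ∈ T, ∀ x ∈ c.1, x ∉ Q → ∀ d : Ch P,
      d.1 = insert (r x) c.1 ∨ d.1 = c.1.erase (r x) → d ∈ T) :
    ∑ c ∈ univ.filter (· ∈ T), c.sg = 0 := by
  have k : ∀ c : Ch P, ∃ x ∈ c.1, c.top ∉ Q → x ∉ Q ∧ ∀ y ∈ c.1, y ∉ Q → x ≤ y := fun c => by
    by_cases h : c.top ∈ Q
    · exact ⟨_, c.top_mem, fun a => absurd h a⟩
    · let S := c.sub (c.1.filter (· ∉ Q)) ⟨_, mem_filter.2 ⟨c.top_mem, h⟩⟩ (filter_subset _ _)
      exact ⟨S.bot, (mem_filter.1 S.bot_mem).1, fun _ => ⟨(mem_filter.1 S.bot_mem).2,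
        fun y hy a => Ch.bot_le (c := S) (mem_filter.2 ⟨hy, a⟩)⟩⟩
  choose f f1 f2 using k
  have uq : ∀ c ∈ T, ∀ x ∈ c.1, x ∉ Q → (∀ y ∈ c.1, y ∉ Q → x ≤ y) → f c = x :=
    fun c hc x a b d => le_antisymm ((f2 c (h0 c hc)).2 x a b) (d _ (f1 c) (f2 c (h0 c hc)).1)
  rw [← sum_fiberwise (g := f)]
  refine sum_eq_zero fun x _ => ?_
  have m : ∀ c, c ∈ (univ.filter (· ∈ T)).filter (f · = x) ↔ c ∈ T ∧ f c = x := by simp
  refine toggle _ (r x) (fun c hc y hy => ?_) (fun c hc a => ?_) fun c hc => ?_ <;>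
    replace hc := (m c).1 hc <;> obtain ⟨hc, rfl⟩ := hc <;> have g := f2 c (h0 c hc) <;>
    have g' := h1 c hc _ (f1 c) g.1
  · rcases c.total (f1 c) hy with a | a
    · exact Or.inl (g'.2.1.trans a)
    · by_cases b : y ∈ Q
      exacts [Or.inr (g'.2.2 y hy b a), Or.inl (g'.2.1.trans (g.2 y hy b))]
  · have t := h2 c hc _ (f1 c) g.1 (c.ins _ a) (Or.inl rfl)
    refine (m _).2 ⟨t, uq _ t _ (mem_insert_of_mem (f1 c)) g.1 fun y hy b => ?_⟩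
    rcases mem_insert.1 hy with rfl | hy
    exacts [absurd g'.1 b, g.2 y hy b]
  · have n : f c ≠ r (f c) := fun e => g.1 (e ▸ g'.1)
    have t := h2 c hc _ (f1 c) g.1 (ers c _ ⟨_, f1 c, n⟩) (Or.inr rfl)
    exact ⟨_, (m _).2 ⟨t, uq _ t _ (mem_erase.2 ⟨n, f1 c⟩) g.1
      fun y hy b => g.2 y (mem_erase.1 hy).2 b⟩, rfl⟩

end Crest.Agent.X212.Alg36
end

-- ▼ part X212/Alg36/Inc3

/-! INC (helper36), part 3: the upper piece. -/

set_option autoImplicit false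
set_option linter.unusedSectionVars false

namespace Crest.Agent.X212.Alg36

open Finset Classical
open Crest.Agent.X212.Hp13
open Crest.Agent.X212.Sup43 (nu th Pc Pos)
open Crest.Agent.X212.Sf30 (la_upper lv_le_of_le)

variable {P : Type} [PartialOrder P] [Fintype P] {A : Set P} {X Y : P → P → ℤ} {ω : P → ℤ}

/-- the open star of an upper piece whose closure is only injective on chains -/
theorem low_io [IsCoc A Y] (hM : Mf 3 A) (mY : Mono A Y) {E : Set (Lv A Y)} (hE : E ⊆ LA A Y)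
    (hA : ∀ p ∈ E, p.1.1.top ∈ A) (hi : Inj E) (hu : IsUpperSet E) (hl : ¬ IsLowerSet E)
    (hc : Conn E) : Low (Ch.top ⁻¹' (Ch.top ⁻¹' A)) (io '' Cq {q | ∃ e ∈ E, Cm e q})
      (io '' Ce {q | ∃ e ∈ E, Cm e q} E) ∧ eu (io '' Ce {q | ∃ e ∈ E, Cm e q} E) = chiC E := by
  set S := {q | ∃ e ∈ E, Cm e q} with hS
  have ES : E ⊆ S := fun p k => ⟨p, k, Cm.rfl⟩
  have le : ∀ K ∈ Cq S, ∀ L ∈ Cq S, io K ≤ io L ↔ K ≤ L := fun K a L b => ⟨hi.le a b, io_mono⟩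
  have ws := ws_image (B := Ce S E) (f := io) fun K a L b => le K a.1 L b.1
  have top : ∀ K : Ch (Lv A Y), Mt E K → K.top ∈ E := fun K => mt_up hu
  have e : ∀ c : io '' Cq S, c.2.choose ∈ Cq S ∧ io c.2.choose = c.1 := fun c => c.2.choose_spec
  have m : ∀ c : io '' Cq S, c.1 ∈ io '' Ce S E → Mt E c.2.choose := fun c ⟨K, a, b⟩ =>
    a.2.mono ((le _ a.1 _ (e c).1).1 (b.trans (e c).2.symm).le)
  refine ⟨⟨?_, ?_, ?_, ?_, ws.conn_iff.1 (conn_ce ES hc), ?_⟩,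
    by rw [← ws.eu_eq, eu_ce ES, eu_upper hM mY hE hu]⟩
  · refine @Mf.emb _ _ _ _ _ (_) _ _ _ (fun c : io '' Cq S => c.2.choose) (fun a b => ?_)
      (fun b hb => hE (top _ (m b hb))) (fun b hb K k => ?_) (Mf.sd (Sf30.mf_LA hM mY))
    · rw [← le _ (e a).1 _ (e b).1, (e a).2, (e b).2]; rfl
    · have hK : K ∈ Cq S := k.elim (fun a => near ((m b hb).mono a))
        fun a => lower_cq S a (e b).1
      let c : io '' Cq S := ⟨io K, K, hK, rfl⟩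
      exact ⟨c, le_antisymm ((le _ (e c).1 _ hK).1 (e c).2.le) ((le _ hK _ (e c).1).1 (e c).2.ge)⟩
  · rintro _ ⟨K, a, rfl⟩
    show (io K).top.top ∈ A
    rw [top_io]; exact hA _ (top K a.2)
  · rintro _ ⟨K, a, rfl⟩ C k
    obtain ⟨L, b, rfl⟩ := io_face k
    exact ⟨L, lower_cq S b a.1, rfl⟩
  · rintro _ ⟨K, a, rfl⟩ _ ⟨L, b, rfl⟩ k
    exact ⟨L, ⟨b, a.2.mono ((le _ a.1 _ b).1 k)⟩, rfl⟩
  · simp only [IsLowerSet, not_forall] at hl
    obtain ⟨p, q, a, b, c⟩ := hl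
    have h1 : Ch.pr q p a ∈ Cq S := near ⟨p, by simp, b⟩
    have h2 : Ch.pt q ≤ Ch.pr q p a := Ch.pt_le.2 (by simp)
    refine ⟨io (Ch.pt q), fun ⟨K, k, l⟩ => c (mt_pt.1 (k.2.mono ?_)), _,
      ⟨_, ⟨h1, p, by simp, b⟩, rfl⟩, io_mono h2⟩
    exact (le _ k.1 _ (lower_cq S h2 h1)).1 l.le

/-- INC, upper piece -/
theorem incU (s : St) (X Y : s.P → s.P → ℤ) (ω : s.P → ℤ) [hX : IsCoc s.A X] [hY : IsCoc s.A Y]
    (E : Set (Lv s.A Y)) (h : Pos s X Y ω) (hE : ∃ n, IsCmp {p | p ∈ LA s.A Y ∧ th X ω p = n} E)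
    (hcl : ∀ p ∈ E, ∀ q, q ≤ p → th X ω q = th X ω p → q ∈ LA s.A Y) (h1 : chiC E = 1)
    (hu : IsUpperSet E) (hl : ¬ IsLowerSet E) : ∃ E', Pc (LA s.A X) (nu ω) E' ∧ 0 < chiC E' := by
  obtain ⟨n, hn⟩ := hE
  have mX := h.sx.mono
  have mY := h.sy.mono
  have sub : E ⊆ LA s.A Y := fun p k => (hn.sub k).1
  have hA : ∀ p ∈ E, p.1.1.top ∈ s.A := fun p k => mt_up h.up (sub k)
  have dp : ∀ p q : Lv s.A Y, p ≤ q → Dp s.A p.1.1.top q.1.1.top := fun p q k =>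
    q.2.1.dp (Lv.ch_le k p.1.1.top_mem) q.1.1.top_mem (Ch.top_mono (Lv.ch_le k))
  have val : ∀ q : Lv s.A Y, (∃ e ∈ E, Cm e q) → (q ∈ E ∧ th X ω q = n) ∨
      (q ∉ E ∧ th X ω q = n - 1 ∧ ∃ e ∈ E, q ≤ e) := by
    rintro q ⟨e, he, c⟩
    by_cases a : q ∈ E
    · exact Or.inl ⟨a, (hn.sub a).2⟩
    have c := c.resolve_left fun b => a (hu b he)
    have t := th_le hX.coc h.ex c
    have := mX _ _ (dp _ _ c)
    have := h.jx _ _ (dp _ _ c)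
    have t' := (hn.sub he).2
    have : th X ω q ≠ n := fun b => a (hn.clopen he ⟨hcl e he q c (b.trans t'.symm), b⟩ (Or.inr c))
    exact Or.inr ⟨a, by omega, e, he, c⟩
  have hi : Inj E := by
    have k : ∀ p q : Lv s.A Y, p.1.1 = q.1.1 → p ∈ E → th X ω q = n - 1 → ¬ ∃ e ∈ E, q ≤ e := by
      rintro p q e a b ⟨f, hf, c⟩
      obtain ⟨u, u1, u2⟩ := Lv.exists_ge mY p f.2.1 (e ▸ Lv.ch_le c)
      have t1 := th_le hX.coc h.ex c
      have t2 := th_le hX.coc h.ex u2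
      rw [(hn.sub (hu u2 a)).2, (hn.sub a).2, u1, e] at t2
      rw [(hn.sub hf).2] at t1
      omega
    intro p q a b e
    have : th X ω p = th X ω q := by
      rcases val p a with a | a <;> rcases val q b with b | b
      · rw [a.2, b.2]
      · exact absurd b.2.2 (k p q e a.1 b.2.1)
      · exact absurd a.2.2 (k q p e.symm b.1 a.2.1)
      · rw [a.2.1, b.2.1]
    simp only [th, e] at this
    exact Lv.ext e (by omega)
  set S := {q | ∃ e ∈ E, Cm e q} with hS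
  have mixiff : ∀ K ∈ Cq S, K ∈ mix E ↔ 0 < X K.bot.1.1.top K.top.1.1.top := fun K hK => by
    have t := th_le hX.coc h.ex K.bot_le_top
    have := mX _ _ (dp _ _ K.bot_le_top)
    rcases val _ (hK _ K.bot_mem) with a | a <;> rcases val _ (hK _ K.top_mem) with b | b
    · exact iff_of_false (fun ⟨_, x, c, d⟩ => d (hu (Ch.bot_le c) a.1)) (by omega)
    · exact absurd (hu K.bot_le_top a.1) b.1
    · exact iff_of_true ⟨⟨_, K.top_mem, b.1⟩, _, K.bot_mem, a.1⟩ (by omega)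
    · exact iff_of_false (fun c => b.1 (mt_up hu c.1)) (by omega)
  haveI i1 : IsCoc (Ch.top ⁻¹' s.A) (pb Ch.top X) := ⟨hX.coc.pb Ch.top_mono⟩
  haveI i2 : IsCoc (Ch.top ⁻¹' (Ch.top ⁻¹' s.A)) (pb Ch.top (pb Ch.top X)) :=
    ⟨i1.coc.pb Ch.top_mono⟩
  have gam : ∀ K ∈ Cq S, ∀ q : Lv (Ch.top ⁻¹' s.A) (pb Ch.top X), q.1.1 ≤ io K → q ∈ Gam X E := by
    intro K hK q k
    obtain ⟨L, a, b⟩ := io_face k
    refine ⟨L, (mixiff L (lower_cq S a hK)).2 ?_, b⟩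
    rw [← bot_io, ← top_io, b]
    exact q.2.2.1.trans_lt q.2.2.2
  have low : IsLowerSet (Gam X E) := fun p q a ⟨K, b, c⟩ => gam K (near b.1) q (c ▸ Lv.ch_le a)
  obtain ⟨lw, eu1⟩ := low_io h.good.mf mY sub hA hi hu hl hn.conn
  rw [← hS] at lw eu1
  have g1 := Good.sd h.good
  have m1 : Mono (Ch.top ⁻¹' s.A) (pb Ch.top X) := mX.pb Ch.top_mono
  have j2 : ∀ x y, Dp (Ch.top ⁻¹' (Ch.top ⁻¹' s.A)) x y → pb Ch.top (pb Ch.top X) x y ≤ 1 :=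
    fun x y k => h.jx _ _ ((k.map Ch.top_mono).map Ch.top_mono)
  obtain ⟨z', z1, z2, -, -, z3⟩ := swap_low (Mf.sd (Mf.sd h.good.mf))
    (Bnd.sd g1.conv g1.nice g1.bnd) lw (eu1.trans h1)
    (show Sf (Ch.top ⁻¹' (Ch.top ⁻¹' s.A)) (pb Ch.top (pb Ch.top X)) from
      (Desc.sd s.sd).sf ((Desc.sd s).sf h.sx))
    (by
      rintro x _ k a ⟨L, b, rfl⟩
      obtain ⟨K, c, rfl⟩ := io_face k.1
      have t := th_le hX.coc h.ex (Ch.top_mono c)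
      have := (val _ (b.1 _ (c K.top_mem))).resolve_left fun d =>
        a ⟨K, ⟨lower_cq S c b.1, _, K.top_mem, d.1⟩, rfl⟩
      rw [(hn.sub (mt_up hu b.2)).2] at t
      simp only [pb, top_io]
      omega)
    (by
      rintro _ _ k ⟨K, a, rfl⟩ ⟨L, b, rfl⟩
      have t := th_le hX.coc h.ex (Ch.top_mono (hi.le a.1 b.1 k.1))
      rw [(hn.sub (mt_up hu a.2)).2, (hn.sub (mt_up hu b.2)).2] at t
      simp only [pb, top_io]
      omega)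
  obtain ⟨D, d1, d2, d3⟩ := z3.resolve_left
    ((h.mx.desc (Desc.sd s)).desc (Desc.sd s.sd) _ _ Desc.refl z' z1 z2).not_gt inferInstance
  have cw : ∀ p, p ∈ CW (Ch.top ⁻¹' (Ch.top ⁻¹' s.A)) (pb Ch.top (pb Ch.top X)) (io '' Ce S E) ↔
      p.1.1.top ∈ io '' Ce S E := fun p =>
    ⟨fun a => a.1, fun a => ⟨a, by rw [(lev_zero j2 p).1, (lev_zero j2 p).2]; rfl⟩⟩
  have R := Kh11.ce_top.rf (Ch.top ⁻¹' s.A) (pb Ch.top X)
  have mim : ∀ (d : Ch (Ch (Ch s.P))) c, c ∈ (R.im d).1 ↔ ∃ C ∈ d.1, C.top = c :=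
    fun d c => Ch.mem_img
  have cwB : ∀ p : Lv _ (pb Ch.top (pb Ch.top X)), p.1.1.top ∈ io '' Ce S E →
      R.map p ∈ Gam X E := fun p ⟨K, a, b⟩ => gam K a.1 _ fun c hc => by
    obtain ⟨C, c1, rfl⟩ := (mim _ c).1 hc
    exact b ▸ Ch.le_top c1 C.top_mem
  have emb := emb_univ (m1.pb Ch.top_mono) j2
  have le : ∀ p q : Lv _ (pb Ch.top (pb Ch.top X)), p.1.1 ≤ q.1.1 → p ≤ q :=
    fun p q => emb p trivial q trivial
  -- the strip
  have z : chiC (D ∩ R.map ⁻¹' Gam X E) = 0 := by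
    have k : ∀ C : Ch (Ch s.P), ∃ r : Ch (Ch s.P), ∀ p ∈ S, p.1.1 = C.top →
        ∀ c, c ∈ r.1 ↔ c ∈ C.1 ∧ ∃ k, k ≤ p ∧ k.1.1 = c := fun C => by
      by_cases a : ∃ p ∈ S, p.1.1 = C.top
      · obtain ⟨p, a, b⟩ := a
        refine ⟨C.sub (C.1.filter fun c => ∃ k, k ≤ p ∧ k.1.1 = c)
          ⟨_, mem_filter.2 ⟨C.top_mem, p, le_rfl, b⟩⟩ (filter_subset _ _), fun q c d e => ?_⟩
        rw [hi q p c a (d.trans b.symm)]
        exact mem_filter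
      · exact ⟨C, fun p b c => absurd ⟨p, b, c⟩ a⟩
    choose r hr using k
    have top : ∀ p : Lv _ (pb Ch.top (pb Ch.top X)), ∀ L : Ch (Lv s.A Y),
        io L = (R.map p).1.1 → ∀ x ∈ p.1.1.1, ∃ u ∈ L.1, u.1.1 = x.top := fun p L e x hx =>
      mem_io.1 (by rw [e]; exact (mim _ _).2 ⟨x, hx, rfl⟩)
    have rt : ∀ (x : Ch (Ch s.P)) (u : Lv s.A Y), u ∈ S → u.1.1 = x.top →
        r x ≤ x ∧ (r x).top = x.top := fun x u a b =>
      have l : r x ≤ x := fun c hc => ((hr x u a b c).1 hc).1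
      ⟨l, le_antisymm (Ch.top_mono l) (Ch.le_top ((hr x u a b _).2 ⟨x.top_mem, u, le_rfl, b⟩))⟩
    have nq : ∀ p ∈ D ∩ R.map ⁻¹' Gam X E, p.1.1.top ∉ io '' Cq S := by
      rintro p ⟨a, L, b, c⟩ ⟨K, d, e⟩
      refine (d1.sub a).2 ((cw p).2 ⟨K, ⟨d, _, K.top_mem, ?_⟩, e⟩)
      rw [hi K.top L.top (d _ K.top_mem) (near b.1 _ L.top_mem)
        (by rw [← top_io, ← top_io, e, c]; exact (R.im_top _).symm)]
      exact mt_up hu b.1
    rw [chiC_eq_of (T := Lv.ch '' (D ∩ R.map ⁻¹' Gam X E)) Ch.sg (fun c p => p.1.1 = c)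
      (fun c a => a) (fun p a => ⟨_, ⟨p, a, rfl⟩, rfl⟩) (fun _ _ _ _ _ a b => a.symm.trans b)
      (fun _ p q a b => le_antisymm (le _ _ (a.trans b.symm).le) (le _ _ (a.trans b.symm).ge))
      fun _ _ a => by rw [a]]
    refine strip (Q := io '' Cq S) r (by rintro _ ⟨p, a, rfl⟩; exact nq p a) ?_ ?_
    · rintro _ ⟨p, ⟨-, L, b, c⟩, rfl⟩ x hx -
      obtain ⟨u, u1, u2⟩ := top p L c x hx
      have uS : u ∈ S := near b.1 u u1
      obtain ⟨r1, r2⟩ := rt x u uS u2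
      refine ⟨?_, r1, ?_⟩
      · obtain ⟨k, k1, k2⟩ := ((hr x u uS u2 _).1 (r x).bot_mem).2
        obtain ⟨K, l1, l2⟩ := io_lift mY k (C := r x) k2.le (by rw [r2, ← u2]; exact u.2.1)
        have : K.top = u := Sf30.lv_eq_of_ge (l2 _ K.top_mem) k1 (by rw [← top_io, l1, r2, u2])
        refine ⟨K, fun v hv => ?_, l1⟩
        have hv' : v ≤ L.top := (this ▸ Ch.le_top hv).trans (Ch.le_top u1)
        exact ⟨_, mt_up hu b.1, Or.inr hv'⟩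
      · rintro _ hy ⟨K, k1, rfl⟩ k2 c hc
        obtain ⟨v, v1, rfl⟩ := mem_io.1 hc
        obtain ⟨t, t1, t2⟩ := top p L c _ hy
        rw [top_io] at t2
        have : t ≤ u := lv_le_of_le (Ch.le_top t1) (Ch.le_top u1)
          (by rw [t2, u2, ← top_io]; exact Ch.top_mono k2)
        exact (hr x u uS u2 _).2 ⟨k2 hc, v, (Ch.le_top v1).trans
          (hi t K.top (near b.1 t t1) (k1 _ K.top_mem) t2 ▸ this), rfl⟩
    · rintro _ ⟨p, a, rfl⟩ x hx nx d hd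
      obtain ⟨L, b, c⟩ := a.2
      obtain ⟨u, u1, u2⟩ := top p L c x hx
      obtain ⟨r1, r2⟩ := rt x u (near b.1 u u1) u2
      have ne : ∀ y ∈ p.1.1.1, x ≤ y → y ≠ r x := fun y _ k e => nx (by
        have ex : r x = x := le_antisymm r1 (e ▸ k)
        obtain ⟨k, k1, k2⟩ := ((hr x u (near b.1 u u1) u2 x.bot).1
          (by rw [ex]; exact x.bot_mem)).2
        obtain ⟨K, l1, l2⟩ := io_lift mY k (C := x) k2.le (by rw [← u2]; exact u.2.1)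
        have : K.top = u := Sf30.lv_eq_of_ge (l2 _ K.top_mem) k1 (by rw [← top_io, l1, u2])
        exact ⟨K, fun v hv => ⟨_, mt_up hu b.1,
          Or.inr ((this ▸ Ch.le_top hv).trans (Ch.le_top u1))⟩, l1⟩)
      have m : (∀ y ∈ d.1, y = r x ∨ y ∈ p.1.1.1) ∧ (∀ y ∈ p.1.1.1, y ≠ r x → y ∈ d.1) ∧
          Cm p.1.1 d := by
        rcases hd with e | e
        · exact ⟨fun y hy => mem_insert.1 (e ▸ hy), fun y hy _ => e ▸ mem_insert_of_mem hy,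
            Or.inl (by rw [Ch.le_iff, e]; exact subset_insert _ _)⟩
        · exact ⟨fun y hy => Or.inr (mem_erase.1 (e ▸ hy)).2,
            fun y hy k => e ▸ mem_erase.2 ⟨k, hy⟩,
            Or.inr (by rw [Ch.le_iff, e]; exact erase_subset _ _)⟩
      have dt : d.top = p.1.1.top := Ch.top_eq (m.2.1 _ p.1.1.top_mem
        (ne _ p.1.1.top_mem (Ch.le_top hx))) fun y hy => (m.1 y hy).elim
          (fun e => e ▸ r1.trans (Ch.le_top hx)) Ch.le_top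
      have im : R.im d = (R.map p).1.1 := Ch.ext (Finset.ext fun c => by
        rw [mim, Kh11.Rf.map_ch, mim]
        refine ⟨fun ⟨y, hy, e⟩ => ?_, fun ⟨y, hy, e⟩ => ?_⟩
        · rcases m.1 y hy with rfl | k
          exacts [⟨x, hx, r2 ▸ e⟩, ⟨y, k, e⟩]
        · by_cases k : y = r x
          exacts [⟨x, m.2.1 x hx (ne x hx le_rfl), by rw [← r2, ← k, e]⟩, ⟨y, m.2.1 y hy k, e⟩])
      have md : Mt (Ch.top ⁻¹' (Ch.top ⁻¹' s.A)) d := R.mt.1 (im ▸ R.map_LA.2 (d1.sub a.1).1)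
      refine ⟨R.lift (R.map p) d md.dom im, ⟨d1.clopen a.1 ⟨md, fun k => (d1.sub a.1).2
        ((cw p).2 (dt ▸ (cw _).1 k))⟩ (m.2.2.imp (le _ _) (le _ _)), ?_⟩, rfl⟩
      rw [Set.mem_preimage, R.map_lift]; exact a.2
  -- projection to the first level
  let V := LA (Ch.top ⁻¹' s.A) (pb Ch.top X) \ Gam X E
  have hV : V.OrdConnected := ⟨fun a ha b _ c hc => ⟨la_upper hc.1 ha.1, fun k => ha.2 (low hc.1 k)⟩⟩
  have ws := R.ws m1 (V := V) (fun _ k => k.1) hV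
  have inV : ∀ p ∈ D \ R.map ⁻¹' Gam X E, p ∈ R.map ⁻¹' V := fun p k =>
    ⟨R.map_LA.2 (d1.sub k.1).1, k.2⟩
  have clo : ∀ p ∈ D \ R.map ⁻¹' Gam X E, ∀ q ∈ R.map ⁻¹' V, Cm p q →
      q ∈ D \ R.map ⁻¹' Gam X E := fun p k q l c =>
    ⟨d1.clopen k.1 ⟨R.map_LA.1 l.1, fun a => l.2 (cwB q ((cw q).1 a))⟩ c, l.2⟩
  have key : ∀ p ∈ D \ R.map ⁻¹' Gam X E, ∀ q ∈ R.map ⁻¹' V, Rch V (R.map p) (R.map q) →
      q ∈ D \ R.map ⁻¹' Gam X E := fun p k q l c =>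
    ((((ws.rch_iff (inV p k) l).2 c).in_clopen clo k).mem k)
  have sV : R.map '' (D \ R.map ⁻¹' Gam X E) ⊆ V := by rintro _ ⟨p, k, rfl⟩; exact inV p k
  have pre : R.map ⁻¹' (R.map '' (D \ R.map ⁻¹' Gam X E)) = D \ R.map ⁻¹' Gam X E :=
    Set.ext fun q => ⟨fun ⟨p, k, e⟩ => key p k q (sV ⟨p, k, e⟩) (e ▸ Rch.rfl), fun k => ⟨q, k, rfl⟩⟩
  refine fin_piece h.good.mf mX mY h.jx h.ex sub hA hi
    (fun K a => (mixiff K (near a.1)).1 a) low sV ?_ (fun k => d2 ?_) ?_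
  · rintro _ ⟨p, k, rfl⟩ r l c
    obtain ⟨q, rfl⟩ := R.surj l.1
    exact ⟨q, key p k q l (Rch.of_cm (inV p k) l c), rfl⟩
  · rw [← R.tch_pre fun _ a => (sV a).1, pre] at k
    obtain ⟨p, a, b⟩ := k
    exact ⟨p, a.1, b⟩
  · have := chiC_split D (R.map ⁻¹' Gam X E)
    rw [← R.chiC_pre fun _ a => (sV a).1, pre]
    omega

end Crest.Agent.X212.Alg36
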