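import Crest.Agent.X212.Alg36.Rev

-- ▼ part X212/Alg36/Nm1
section

/-! NM (helper36), part 1: chains mod 2; a closed surface is not `Ctr`; the boundary of a `Ctr`
3-manifold is connected. -/

set_option autoImplicit false
set_option linter.unusedSectionVars false

namespace Crest.Agent.X212.Alg36

open Finset Module Classical
open Crest.Agent.X212.Hp13 Crest.Agent.X212.Hk
open Crest.Agent.X212.Kh11 (WS)

section lin
variable {α : Type*} [PartialOrder α] [DecidableEq α] (K : Type*) [Field K] {A : Finset α}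

theorem k0_pos (hne : A.Nonempty) : 1 ≤ finrank K (LinearMap.ker (mat K A 1).mulVecLin) := by
  rw [Nat.one_le_iff_ne_zero, Ne, Submodule.finrank_eq_zero, LinearMap.ker_eq_bot']
  intro h0
  obtain ⟨x, hx⟩ := hne
  have : (fun _ => (1 : K) : chains A 1 → K) = 0 := by
    apply h0
    funext c
    obtain ⟨a, ha, b, hb, hab, hc⟩ := eq_pair c.2
    rw [Matrix.mulVecLin_apply, mat_mulVec, hc, dd_pair _ hab, ex_mem _ (single_mem ha),
      ex_mem _ (single_mem hb)]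
    simp
  exact one_ne_zero (congrFun this ⟨_, single_mem hx⟩)

/-- the first Betti number -/
noncomputable def b1 (A : Finset α) : ℤ := (finrank K (LinearMap.ker (mat K A 2).mulVecLin) : ℤ) -
  finrank K (LinearMap.range (mat K A 1).mulVecLin)

theorem euler (hd : Dim A 4) : Kh11.chi A = finrank K (LinearMap.ker (mat K A 1).mulVecLin) -
    b1 K A + finrank K (Cyc K A 2) - (chains A 4).card := by
  have e0 := rank_add_ker (K := K) A 1
  have e1 := rank_add_ker (K := K) A 2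
  have e2 : _ = (chains A 3).card := rank_add_cyc (K := K) A 2
  rw [chi_eq_chi4 hd, chi4, b1]
  omega

theorem b1_le (hex : ∀ z : α → α → K, Kh11.Coc A z → Kh11.Ex A z) : b1 K A ≤ 0 :=
  sub_nonpos.2 (Int.ofNat_le.2 (Submodule.finrank_mono fun φ hφ =>
    ker_d1 (fun z hz => hex z hz) φ hφ))

/-- 2-cycles bound -/
theorem fill2 (hd : Dim A 4) (hne : A.Nonempty)
    (hex : ∀ z : α → α → K, Kh11.Coc A z → Kh11.Ex A z) (h3 : finrank K (Cyc K A 3) = 0)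
    (hχ : Kh11.chi A ≤ 1) {u : chains A 3 → K} (hu : Matrix.vecMul u (mat K A 2) = 0) :
    ∃ v : chains A 4 → K, Matrix.vecMul v (mat K A 3) = u := by
  have e := euler K hd
  have := k0_pos K hne
  have := b1_le K hex
  have r := LinearMap.finrank_range_add_finrank_ker (mat K A 3).transpose.mulVecLin
  have le : LinearMap.range (mat K A 3).transpose.mulVecLin ≤ Cyc K A 2 := by
    rintro _ ⟨v, rfl⟩
    rw [mem_cyc, Matrix.mulVecLin_apply, Matrix.mulVec_transpose, Matrix.vecMul_vecMul]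
    have : mat K A 3 * mat K A 2 = 0 := Matrix.ext_of_mulVec_single fun i => by
      rw [← Matrix.mulVec_mulVec, mat_mat, Matrix.zero_mulVec]
    rw [this, Matrix.vecMul_zero]
  simp only [finrank_fintype_fun_eq_card, Fintype.card_coe, Nat.reduceAdd] at r
  rw [h3] at r
  have hle : finrank K (Cyc K A 2) ≤
      finrank K (LinearMap.range (mat K A 3).transpose.mulVecLin) := by omega
  have := Submodule.eq_of_le_of_finrank_le le hle
  obtain ⟨v, hv⟩ : u ∈ LinearMap.range (mat K A 3).transpose.mulVecLin := this ▸ mem_cyc.2 hu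
  exact ⟨v, by rwa [Matrix.mulVecLin_apply, Matrix.mulVec_transpose] at hv⟩

end lin

variable {P : Type} [PartialOrder P] [Fintype P] {A B W Z : Set P} {d : ℕ}

/-- the boundary mod 2 -/
noncomputable def pd (u : Ch P → ZMod 2) (e : Ch P) : ZMod 2 :=
  ∑ c ∈ univ.filter (fun c : Ch P => e ≤ c ∧ c.1.card = e.1.card + 1), u c

theorem pd_add (u v : Ch P → ZMod 2) (e : Ch P) : pd (u + v) e = pd u e + pd v e := sum_add_distrib

theorem pd_zero {u : Ch P → ZMod 2} {e : Ch P} (h : ∀ c, e ≤ c → c.1.card = e.1.card + 1 → u c = 0) :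
    pd u e = 0 := sum_eq_zero fun c hc => h c (mem_filter.1 hc).2.1 (mem_filter.1 hc).2.2

theorem pd_pd (u : Ch P → ZMod 2) (f : Ch P) : pd (pd u) f = 0 := by
  simp only [pd, sum_filter]
  have : ∀ e : Ch P, (if f ≤ e ∧ e.1.card = f.1.card + 1 then
      ∑ c : Ch P, if e ≤ c ∧ c.1.card = e.1.card + 1 then u c else 0 else 0) =
      ∑ c : Ch P, if (f ≤ e ∧ e.1.card = f.1.card + 1) ∧ e ≤ c ∧ c.1.card = e.1.card + 1
        then u c else 0 := fun e => by split_ifs with h <;> simp [h]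
  rw [sum_congr rfl fun e _ => this e, sum_comm]
  refine sum_eq_zero fun c _ => ?_
  rw [← sum_filter, sum_const]
  by_cases h : f ≤ c ∧ c.1.card = f.1.card + 2
  · rw [show (univ.filter fun e : Ch P => (f ≤ e ∧ e.1.card = f.1.card + 1) ∧ e ≤ c ∧
        c.1.card = e.1.card + 1) = univ.filter fun e => f < e ∧ e < c from
      filter_congr fun e _ => ⟨fun ⟨⟨a, b⟩, k, l⟩ => ⟨lt_of_le_of_ne a fun j => by
        rw [j] at b; omega, lt_of_le_of_ne k fun j => by rw [j] at l; omega⟩, fun ⟨a, b⟩ => by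
          have := Ch.card_lt a
          have := Ch.card_lt b
          exact ⟨⟨a.le, by omega⟩, b.le, by omega⟩⟩, Sf30.card_between h.1 h.2, two_nsmul]
    exact CharTwo.add_self_eq_zero _
  · rw [filter_eq_empty_iff.2 fun e _ ⟨⟨a, b⟩, k, l⟩ => h ⟨a.trans k, by omega⟩, card_empty,
      zero_nsmul]

theorem Mf.pd_two (h : Mf d A) (u : Ch P → ZMod 2) {e a b : Ch P} (he : Mt A e)
    (hc : e.1.card = d) (ha : e < a) (hb : e < b) (hn : a ≠ b) : pd u e = u a + u b := by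
  have k : ∀ c, e < c → c.1.card = e.1.card + 1 := fun c l => by
    have := Ch.card_lt l
    have := h.card_le c (he.mono l.le)
    omega
  rw [pd, ← sum_pair hn]
  refine sum_congr (Finset.ext fun c => ?_) fun _ _ => rfl
  simp only [mem_filter, mem_univ, true_and, mem_insert, mem_singleton]
  refine ⟨fun ⟨l, m⟩ => ?_, fun l => l.elim (fun l => l ▸ ⟨ha.le, k a ha⟩) fun l => l ▸ ⟨hb.le, k b hb⟩⟩
  rcases Mf.two h he hc ha hb (lt_of_le_of_ne l fun j => by rw [j] at m; omega) with j | j | j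
  exacts [absurd j hn, Or.inl j.symm, Or.inr j.symm]

theorem Mf.ex_two (h : Mf d A) {e : Ch P} (he : Mt A e) (hc : e.1.card = d) :
    ∃ a b, e < a ∧ e < b ∧ a ≠ b := by
  obtain ⟨a, b, n, k⟩ := card_eq_two.1 (Mf.card_two h he hc)
  have m : ∀ c, c ∈ ({a, b} : Finset (Ch P)) → e < c := fun c hc => (mem_filter.1 (k ▸ hc)).2
  exact ⟨a, b, m a (by simp), m b (by simp), n⟩

theorem mem_chains_fs {k : ℕ} {c : Ch P} :
    c.1 ∈ chains (fs A) k ↔ (∀ x ∈ c.1, x ∈ A) ∧ c.1.card = k :=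
  mem_chains.trans ⟨fun h => ⟨fun _ hx => mem_fs.1 (h.1 hx), h.2.2⟩,
    fun h => ⟨fun x hx => mem_fs.2 (h.1 x hx), c.2.2, h.2⟩⟩

/-- a member of `chains` as a chain -/
def toCh {k : ℕ} (c : chains (fs A) (k + 1)) : Ch P :=
  ⟨c.1, card_pos.1 (by rw [(mem_chains.1 c.2).2.2]; omega), (mem_chains.1 c.2).2.1⟩

theorem vecMul_pd {k : ℕ} (v : chains (fs A) (k + 1 + 1) → ZMod 2) (e : chains (fs A) (k + 1)) :
    Matrix.vecMul v (mat (ZMod 2) (fs A) (k + 1)) e = pd (fun c => ex v c.1) (toCh e) := by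
  have ce := (mem_chains.1 e.2).2.2
  rw [vecMul_mat, bd, pd, ← sum_filter_of_ne (p := (e.1 ⊆ ·))
    fun c _ h => by_contra fun k => h (by rw [coef_zero k, mul_zero]),
    ← sum_filter_of_ne (s := univ.filter _) (p := fun c : Ch P => c.1 ∈ chains (fs A) (k + 1 + 1))
      fun c _ h => by_contra fun k => h (ex_not v k)]
  refine (sum_bij (fun c _ => c.1) (fun c hc => ?_) (fun _ _ _ _ h => Ch.ext h) (fun c hc => ?_)
    fun c hc => ?_).symm
  · exact mem_filter.2 ⟨(mem_filter.1 hc).2, (mem_filter.1 (mem_filter.1 hc).1).2.1⟩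
  · obtain ⟨a, b⟩ := mem_filter.1 hc
    exact ⟨toCh ⟨c, a⟩, mem_filter.2 ⟨mem_filter.2 ⟨mem_univ _, b,
      (mem_chains.1 a).2.2.trans (congrArg (· + 1) ce.symm)⟩, a⟩, rfl⟩
  · obtain ⟨a, b⟩ := (mem_filter.1 (mem_filter.1 hc).1).2
    have := coef_ne (K := ZMod 2) (c := c.1) (e := e.1) a b
    rw [(show ∀ t : ZMod 2, t ≠ 0 → t = 1 by decide) _ this, mul_one]

theorem h1_two (h : Ctr Z) (z : P → P → ZMod 2) (hz : Kh11.Coc (fs Z) z) : Kh11.Ex (fs Z) z :=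
  ex_fs.2 (h.ex _ z (coc_fs.1 hz))

/-- a closed surface carries a cycle mod 2 -/
theorem Mf.cyc_pos (h : Mf 2 B) (hZ : Z ⊆ B) (hne : Z.Nonempty)
    (hc : ∀ x ∈ Z, ∀ y, Cm x y → y ∈ Z) : 1 ≤ finrank (ZMod 2) (Cyc (ZMod 2) (fs Z) 2) := by
  have all : ∀ c : Ch P, Mt Z c → ∀ x ∈ c.1, x ∈ Z := fun c ⟨a, a1, a2⟩ x hx =>
    hc a a2 x (c.cm a1 hx)
  rw [Nat.one_le_iff_ne_zero, Ne, Submodule.finrank_eq_zero, Submodule.eq_bot_iff]
  intro h0
  obtain ⟨x, hx⟩ := hne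
  obtain ⟨t, t1, t2⟩ := h.pure (Ch.pt x) (mt_pt.2 (hZ hx))
  refine one_ne_zero (congrFun (h0 (fun _ => 1) (mem_cyc.2 (funext fun e => ?_)))
    ⟨t.1, mem_chains_fs.2 ⟨all t ((mt_pt.2 hx).mono t1), t2⟩⟩)
  obtain ⟨e1, e2⟩ := (mem_chains_fs (c := toCh e)).1 e.2
  have m : Mt Z (toCh e) := ⟨_, (toCh e).top_mem, e1 _ (toCh e).top_mem⟩
  obtain ⟨a, b, a1, b1, n⟩ := Mf.ex_two h (m.sub hZ) e2
  have k : ∀ c, toCh e < c → c.1 ∈ chains (fs Z) (1 + 1 + 1) := fun c l => mem_chains_fs.2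
    ⟨all c (m.mono l.le), by
      have := Ch.card_lt l
      have := h.card_le c ((m.sub hZ).mono l.le)
      omega⟩
  rw [vecMul_pd, Mf.pd_two h _ (m.sub hZ) e2 a1 b1 n, ex_mem _ (k a a1), ex_mem _ (k b b1)]
  rfl

theorem Mf.exit (h : Mf 2 B) (hZ : Z ⊆ B) (hc : Ctr Z) : ∃ x ∈ Z, ∃ y, y ∉ Z ∧ Cm x y := by
  by_contra k
  have := Mf.cyc_pos h hZ hc.ne fun x hx y l => by_contra fun n => k ⟨x, hx, y, n, l⟩
  have d := Mf.dim h hZ
  have e := euler (ZMod 2) (d.le (m := 4) (by norm_num))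
  have := k0_pos (ZMod 2) (A := fs Z) (let ⟨x, hx⟩ := hc.ne; ⟨x, mem_fs.2 hx⟩)
  have := b1_le (ZMod 2) (h1_two hc)
  rw [chi_fs, hc.eu, d.chains_eq (k := 4) (by norm_num), card_empty] at e
  omega

theorem ws_val {G : Set P} (hZ : Z ⊆ G) : WS (Subtype.val ⁻¹' Z : Set G) Z Subtype.val :=
  WS.of_iso (fun _ h => h) (fun y h => ⟨⟨y, hZ h⟩, h, rfl⟩) fun _ _ _ _ => Iff.rfl

theorem mfIn_exit {G : Set P} (h : MfIn G Set.univ) (hZ : Z ⊆ G) (hc : Ctr Z) :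
    ∃ x ∈ Z, ∃ y ∈ G, y ∉ Z ∧ Cm x y :=
  let ⟨x, a, y, b, c⟩ := Mf.exit (Z := Subtype.val ⁻¹' Z) h (fun _ _ => trivial)
    ((ws_val hZ).ctr_iff.2 hc)
  ⟨x.1, a, y.1, y.2, b, c⟩

theorem fill_pd (h : Mf 3 W) (hc : Ctr W) (he : Esc W W) {z : Ch P → ZMod 2}
    (h0 : ∀ c, Mt Wᶜ c → z c = 0)
    (hz : ∀ f : Ch P, ¬ Mt Wᶜ f → f.1.card = 2 → pd z f = 0) : ∃ v : Ch P → ZMod 2,
      (∀ c, Mt Wᶜ c → v c = 0) ∧ ∀ e : Ch P, ¬ Mt Wᶜ e → e.1.card = 3 → pd v e = z e := by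
  have ins : ∀ {c : Ch P}, ¬ Mt Wᶜ c ↔ ∀ x ∈ c.1, x ∈ W :=
    ⟨fun a x hx => by_contra fun n => a ⟨x, hx, n⟩, fun a ⟨x, hx, n⟩ => n (a x hx)⟩
  obtain ⟨v, hv⟩ := fill2 (ZMod 2) (Mf.dim h subset_rfl) (let ⟨x, hx⟩ := hc.ne; ⟨x, mem_fs.2 hx⟩)
    (h1_two hc) (Mf.noCyc h subset_rfl he _) (by rw [chi_fs, hc.eu])
    (u := fun c => z (toCh c)) (funext fun f => by
      obtain ⟨f1, f2⟩ := (mem_chains_fs (c := toCh f)).1 f.2
      rw [vecMul_pd, Pi.zero_apply, ← hz _ (ins.2 f1) f2]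
      refine sum_congr rfl fun c k => ?_
      by_cases a : Mt Wᶜ c
      · exact (ex_not _ fun j => ins.2 (mem_chains_fs.1 j).1 a).trans (h0 c a).symm
      · exact ex_mem _ (mem_chains_fs.2 ⟨ins.1 a, by rw [(mem_filter.1 k).2.2, f2]⟩))
  refine ⟨fun c => ex v c.1, fun c a => ex_not _ fun j => ins.2 (mem_chains_fs.1 j).1 a,
    fun e a b => ?_⟩
  have := congrFun hv ⟨e.1, mem_chains_fs.2 ⟨ins.1 a, b⟩⟩
  rw [vecMul_pd] at this
  exact this

theorem conn_mix3 (h : Mf 3 W) (hc : Ctr W) : Conn (mix W) := fun x hx y hy => by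
  by_contra n
  have he : Esc W W := fun a ha =>
    let ⟨⟨b, b1, b2⟩, o, o1, o2⟩ := hx; ⟨b, b2, hc.conn a ha b b2, o, o2, x.cm b1 o1⟩
  let u : Ch P → ZMod 2 := fun c => if c ∈ mix W ∧ Rch (mix W) x c then 1 else 0
  have up : ∀ e ∈ mix W, ∀ c, e ≤ c → u c = u e := fun e a c l =>
    have r := Rch.of_cm a (mix_upper a l) (Or.inl l)
    if_congr ⟨fun k => ⟨a, k.2.trans r.symm⟩, fun k => ⟨mix_upper a l, k.2.trans r⟩⟩ rfl rfl
  have p0 : ∀ e ∈ mix W, e.1.card = 3 → pd u e = 0 := fun e a b => by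
    obtain ⟨s, t, s1, t1, k⟩ := Mf.ex_two h a.1 b
    rw [Mf.pd_two h u a.1 b s1 t1 k, up e a s s1.le, up e a t t1.le]
    exact CharTwo.add_self_eq_zero _
  have mt : ∀ {c : Ch P}, ¬ Mt Wᶜ c → Mt W c := fun {c} a =>
    ⟨_, c.top_mem, by_contra fun k => a ⟨_, c.top_mem, k⟩⟩
  obtain ⟨v, v1, v2⟩ := fill_pd h hc he (z := fun c => if Mt Wᶜ c then 0 else pd u c)
    (fun c a => if_pos a) fun f a b => by
      refine Eq.trans (sum_congr rfl fun c k => ?_) (pd_pd u f)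
      beta_reduce
      split_ifs with j
      · exact (p0 c ⟨(mt a).mono (mem_filter.1 k).2.1, j⟩ (by rw [(mem_filter.1 k).2.2, b])).symm
      · rfl
  have key : ∀ e : Ch P, Mt W e → e.1.card = 3 → pd (u + v) e = 0 := fun e a b => by
    rw [pd_add]
    by_cases j : Mt Wᶜ e
    · rw [p0 e ⟨a, j⟩ b, pd_zero fun c l _ => v1 c (j.mono l), add_zero]
    · rw [v2 e j b, if_neg j]
      exact CharTwo.add_self_eq_zero _
  obtain ⟨s, s1, s2⟩ := h.pure x hx.1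
  obtain ⟨t, t1, t2⟩ := h.pure y hy.1
  obtain ⟨a, a1, a2⟩ := hx.1
  obtain ⟨b, b1, b2⟩ := hy.1
  have := Mf.along h (fun c => (u + v) c = 0) (fun e m c p q k l j => by
      by_cases i : p = q
      · exact i ▸ j
      have := key e m c
      rwa [Mf.pd_two h _ m c k l i, j, zero_add] at this) b2 (hc.conn b b2 a a2) (t1 b1) (s1 a1) t2 s2
    (by rw [Pi.add_apply, up y hy t t1, v1 t (hy.2.mono t1), add_zero]; exact if_neg fun k => n k.2)
  rw [Pi.add_apply, up x hx s s1, v1 s (hx.2.mono s1), add_zero] at this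
  exact one_ne_zero ((if_pos ⟨hx, Rch.rfl⟩).symm.trans this)

end Crest.Agent.X212.Alg36
end

-- ▼ part X212/Alg36/Nm2

/-! NM (helper36), part 2: the boundary of a nice region is a closed surface. -/

set_option autoImplicit false
set_option linter.unusedSectionVars false

namespace Crest.Agent.X212.Alg36

open Finset Classical
open Crest.Agent.X212.Hp13 Crest.Agent.X212.Hk
open Crest.Agent.X212.Kh11 (WS sctr_min sctr_max)
open Crest.Agent.X212.Pt30 (rs mem_rs rs_le ws_sr Sr)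
open Crest.Agent.X212.Cut21 (tp bt le_tp le_bt top_tp bot_bt mem_bt mem_tp)

variable {P : Type} [PartialOrder P] [Fintype P] {X A S : Set P} {d : ℕ}

theorem sum_join (c : Ch P) (h : ∀ x ∈ S, x ∉ c.1 ∧ ∀ y ∈ c.1, Cm x y) :
    ∑ e ∈ univ.filter (fun e : Ch P => c ≤ e ∧ Mt S e ∧ ∀ x ∈ e.1, x ∈ c.1 ∨ x ∈ S), e.sg =
      -(c.sg * eu S) := by
  rw [eu, mul_neg, neg_neg, mul_sum]
  have u : ∀ e : Ch P, c ≤ e → Mt S e → (∀ x ∈ e.1, x ∈ c.1 ∨ x ∈ S) → e.1 = c.1 ∪ (rs S e).1 :=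
    fun e a b k => Finset.ext fun x => by
      rw [mem_union, mem_rs b]
      exact ⟨fun j => (k x j).imp_right fun i => ⟨j, i⟩, fun j => j.elim (fun i => a i) And.left⟩
  refine sum_bij (fun e _ => rs S e) (fun e he => mem_filter.2 ⟨mem_univ _, fun x hx =>
    ((mem_rs (mem_filter.1 he).2.2.1).1 hx).2⟩) (fun e he f hf k => ?_) (fun e he => ?_)
    fun e he => ?_
  · obtain ⟨-, a⟩ := mem_filter.1 he
    obtain ⟨-, b⟩ := mem_filter.1 hf
    exact Ch.ext (by rw [u e a.1 a.2.1 a.2.2, u f b.1 b.2.1 b.2.2, k])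
  · have k := (mem_filter.1 he).2
    let f : Ch P := Ch.mk' (c.1 ∪ e.1) (c.2.1.mono subset_union_left) fun x hx y hy => by
      rcases mem_union.1 hx with hx | hx <;> rcases mem_union.1 hy with hy | hy
      exacts [c.cm hx hy, ((h y (k y hy)).2 x hx).symm, (h x (k x hx)).2 y hy, e.cm hx hy]
    have m : Mt S f := ⟨_, mem_union_right _ e.top_mem, k _ e.top_mem⟩
    refine ⟨f, mem_filter.2 ⟨mem_univ _, subset_union_left, m,
      fun x hx => (mem_union.1 hx).imp_right (k x)⟩, Ch.ext (Finset.ext fun x => ?_)⟩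
    rw [mem_rs m]
    exact ⟨fun j => (mem_union.1 j.1).resolve_left (h x j.2).1,
      fun j => ⟨mem_union_right _ j, k x j⟩⟩
  · obtain ⟨-, a⟩ := mem_filter.1 he
    rw [Ch.sg, Ch.sg, Ch.sg, ← pow_add, ← card_union_of_disjoint
      (disjoint_left.2 fun x i j => (h x ((mem_rs a.2.1).1 j).2).1 i), ← u e a.1 a.2.1 a.2.2]

theorem ctr_L (h : Rg X) {o : P} (ho : o ∈ Om X) : Ctr {e | e ∈ X ∧ o ≤ e} :=
  Nice.ctr_ge h.up.ordConnected h.nice ho

theorem sum_over (h : Rg X) {c : Ch P} (hc : c.top ∈ Om X) :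
    ∑ e ∈ univ.filter (fun e : Ch P => c ≤ e ∧ Mt X e ∧ ∀ x ∈ e.1, x ∈ c.1 ∨ x ∈ X), e.sg =
      -c.sg := by
  have n : ∀ x ∈ X, x ∉ c.1 := fun x a b => hc.1 (h.up (Ch.le_top b) a)
  have := sum_join (S := {e | e ∈ X ∧ c.top ≤ e}) c fun x hx =>
    ⟨n x hx.1, fun y hy => Or.inr ((Ch.le_top hy).trans hx.2)⟩
  rw [(ctr_L h hc).eu, mul_one] at this
  rw [← this]
  refine sum_congr (Finset.ext fun e => ?_) fun _ _ => rfl
  simp only [mem_filter, mem_univ, true_and]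
  refine and_congr_right fun a => ?_
  have k : ∀ x ∈ e.1, x ∈ X → c.top ≤ x := fun x i j =>
    (e.cm (a c.top_mem) i).resolve_right fun l => hc.1 (h.up l j)
  exact ⟨fun ⟨⟨x, i, j⟩, b⟩ => ⟨⟨x, i, j, k x i j⟩, fun y l => (b y l).imp_right fun m =>
    ⟨m, k y l m⟩⟩, fun ⟨⟨x, i, j⟩, b⟩ => ⟨⟨x, i, j.1⟩, fun y l => (b y l).imp_right And.left⟩⟩

theorem sum_mt (h : Rg X) {c : Ch P} (hc : c.top ∈ Om X) :
    ∑ e ∈ univ.filter (fun e : Ch P => c ≤ e ∧ Mt X e), e.sg = 1 := by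
  have n : ∀ x ∈ X, x ∉ c.1 := fun x a b => hc.1 (h.up (Ch.le_top b) a)
  let p : Ch P → Prop := fun e => c ≤ e ∧ Mt X e ∧ ∀ x ∈ e.1, x ∈ c.1 ∨ x ∈ X
  have := Mf.dual_sum h.mf (fun e => if p e then 1 else 0) fun e k => if_neg fun j => k j.2.1
  have k : ∀ t : Ch P, ∑ e ∈ univ.filter (· ≤ t), e.sg * (if p e then 1 else 0) =
      if c ≤ t ∧ Mt X t then -c.sg else 0 := fun t => by
    simp only [mul_ite, mul_one, mul_zero]
    rw [← sum_filter, filter_filter]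
    split_ifs with a
    · have := sum_join (S := {x | x ∈ t.1 ∧ x ∈ X}) c fun x hx =>
        ⟨n x hx.2, fun y hy => t.cm hx.1 (a.1 hy)⟩
      obtain ⟨m, m1, m2⟩ := a.2
      rw [eu_cone (E := {x | x ∈ t.1 ∧ x ∈ X}) (m := m) ⟨m1, m2⟩ fun x hx => t.cm m1 hx.1,
        mul_one] at this
      rw [← this]
      refine sum_congr (Finset.ext fun e => ?_) fun _ _ => rfl
      simp only [mem_filter, mem_univ, true_and]
      exact ⟨fun ⟨l, b, ⟨x, i, j⟩, k⟩ => ⟨b, ⟨x, i, l i, j⟩, fun y m => (k y m).imp_right fun o =>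
        ⟨l m, o⟩⟩, fun ⟨b, ⟨x, i, j⟩, k⟩ => ⟨fun y m => (k y m).elim (fun o => a.1 o) And.left, b,
          ⟨x, i, j.2⟩, fun y m => (k y m).imp_right And.right⟩⟩
    · exact sum_eq_zero fun e he => absurd ⟨(mem_filter.1 he).2.2.1.trans (mem_filter.1 he).2.1,
        (mem_filter.1 he).2.2.2.1.mono (mem_filter.1 he).2.1⟩ a
  rw [sum_congr rfl fun t _ => by rw [k t]] at this
  simp only [mul_ite, mul_one, mul_zero] at this
  rw [← sum_filter, ← sum_filter, ← sum_mul] at this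
  replace this := this.trans (congrArg (_ * ·) (by convert sum_over h hc))
  have e := c.sg_sq
  have : (∑ e ∈ univ.filter (fun e : Ch P => c ≤ e ∧ Mt X e), e.sg) * (c.sg * c.sg) =
      c.sg * c.sg := by norm_num at this; linear_combination this * c.sg
  rwa [e, mul_one] at this

theorem sum_om (h : Rg X) {c : Ch P} (hc : c.top ∈ Om X) :
    ∑ e ∈ univ.filter (fun e : Ch P => c ≤ e ∧ e.top ∈ Om X), e.sg = -1 := by
  have mc : ∀ e : Ch P, c ≤ e → Mt Xᶜ e := fun e a => ⟨_, a c.top_mem, hc.1⟩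
  rw [← sum_mt h hc, ← sum_fiberwise_of_maps_to (g := rs Xᶜ)
    (s := univ.filter fun e : Ch P => c ≤ e ∧ Mt X e)
    (t := univ.filter fun e : Ch P => c ≤ e ∧ e.top ∈ Om X) fun e he => ?_, ← sum_neg_distrib]
  · refine sum_congr rfl fun b hb => ?_
    obtain ⟨-, b1, b2⟩ := mem_filter.1 hb
    rw [neg_eq_iff_eq_neg.1 (sum_over h b2).symm, filter_filter, neg_inj]
    refine sum_congr (Finset.ext fun e => ?_) fun _ _ => rfl
    simp only [mem_filter, mem_univ, true_and]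
    refine ⟨fun ⟨a, m, k⟩ => ⟨⟨b1.trans a, m⟩, Ch.ext (Finset.ext fun x => ?_)⟩,
      fun ⟨⟨a, m⟩, k⟩ => ⟨k ▸ rs_le (mc e a), m, fun x hx => or_iff_not_imp_right.2 fun j =>
        k ▸ (mem_rs (mc e a)).2 ⟨hx, j⟩⟩⟩
    rw [mem_rs (mc e (b1.trans a))]
    exact ⟨fun j => (k x j.1).resolve_right j.2,
      fun j => ⟨a j, fun i => b2.1 (h.up (Ch.le_top j) i)⟩⟩
  · obtain ⟨-, a, m⟩ := mem_filter.1 he
    have t := (mem_rs (mc e a)).1 (rs Xᶜ e).top_mem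
    exact mem_filter.2 ⟨mem_univ _, fun x hx => (mem_rs (mc e a)).2
      ⟨a hx, fun j => hc.1 (h.up (Ch.le_top hx) j)⟩, t.2, _, (Pt30.mt_top h.up).1 m, Ch.le_top t.1⟩

theorem card_om (h : Rg X) {c : Ch P} (hc : c.top ∈ Om X) : c.1.card ≤ 3 := by
  obtain ⟨n, a, ha, l⟩ := hc
  have := h.mf.card_le (tp c a l) ⟨a, by simp, ha⟩
  have := Ch.card_lt (lt_of_le_of_ne (le_tp c a l) fun e => n (by rwa [e, top_tp]))
  omega

theorem two_om (h : Rg X) {c : Ch P} (hc : c.top ∈ Om X) (h2 : c.1.card = 2) :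
    (univ.filter fun e : Ch P => c < e ∧ e.top ∈ Om X).card = 2 := by
  have := sum_om h hc
  rw [← add_sum_erase _ _ (a := c) (mem_filter.2 ⟨mem_univ _, le_rfl, hc⟩),
    sum_congr (s₂ := univ.filter fun e : Ch P => c < e ∧ e.top ∈ Om X) (g := fun _ => -1)
      (Finset.ext fun e => by
        simp only [mem_erase, mem_filter, mem_univ, true_and, lt_iff_le_and_ne]
        tauto) fun e he => ?_, Ch.sg, h2, sum_const] at this
  · simp only [smul_neg, nsmul_eq_mul] at this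
    omega
  · have := Ch.card_lt (mem_filter.1 he).2.1
    have := card_om h (mem_filter.1 he).2.2
    rw [Ch.sg, show e.1.card = 3 by omega]
    rfl

/-- the link of a minimal point -/
theorem Mf.link (h : Mf (d + 1) A) {a : P} (ha : IsMin a) :
    Mf d (Subtype.val ⁻¹' A : Set (Set.Ioi a)) := by
  let J : Ch (Set.Ioi a) → Ch P := fun c => bt c.up a (le_of_lt (c.up_sub _ c.up.bot_mem))
  have na : ∀ c : Ch (Set.Ioi a), a ∉ c.up.1 := fun c k => lt_irrefl a (c.up_sub a k)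
  have le : ∀ c e, J c ≤ J e ↔ c ≤ e := fun c e => ⟨fun k => Ch.up_le.1 fun x hx =>
    (mem_bt.1 (k (mem_bt.2 (Or.inr hx)))).resolve_left fun j => na c (j ▸ hx),
    fun k x hx => mem_bt.2 ((mem_bt.1 hx).imp_right fun j => Ch.up_le.2 k j)⟩
  have inj : ∀ c e, J c = J e → c = e := fun c e k => le_antisymm ((le _ _).1 k.le) ((le _ _).1 k.ge)
  have lt : ∀ c e, J c < J e ↔ c < e := fun c e => by simp only [lt_iff_le_not_ge, le]
  have cd : ∀ c, (J c).1.card = c.1.card + 1 := fun c =>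
    (card_insert_of_notMem (na c)).trans (by rw [Ch.card_up])
  have mt : ∀ c, Mt (Subtype.val ⁻¹' A) c → Mt A (J c) := fun c k => (mt_up.2 k).mono (le_bt _ _ _)
  have sj : ∀ c e, J c ≤ e → ∃ f, J f = e := fun c e k => by
    have ae : a ∈ e.1 := k (by simp [J])
    let e' := ers e a (ex_ne ((le_bt _ _ _).trans k) (na c))
    obtain ⟨f, hf⟩ := Ch.exists_up (c := e') (Q := Set.Ioi a) fun x hx =>
      lt_of_le_of_ne ((e.cm ae (mem_of_mem_erase hx)).elim id fun j => ha j)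
        (ne_of_mem_erase hx).symm
    exact ⟨f, Ch.ext (by show insert a f.up.1 = _; rw [hf]; exact insert_erase ae)⟩
  refine ⟨fun c k => by have := h.card_le _ (mt c k); rw [cd] at this; omega, fun c k => ?_,
    fun c k l => ?_, fun c k => ?_⟩
  · rw [← neg_inj, ← sum_neg_distrib, ← neg_one_mul, ← pow_succ', ← h.eul _ (mt c k)]
    refine sum_bij (fun e _ => J e) (fun e he => mem_filter.2 ⟨mem_univ _, (le _ _).2
      (mem_filter.1 he).2⟩) (fun e _ f _ => inj e f) (fun e he => ?_) fun e _ => ?_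
    · obtain ⟨f, rfl⟩ := sj c e (mem_filter.1 he).2
      exact ⟨f, mem_filter.2 ⟨mem_univ _, (le _ _).1 (mem_filter.1 he).2⟩, rfl⟩
    · rw [Ch.sg, Ch.sg, cd, pow_succ, mul_neg_one]
  · refine (WS.of_iso (f := J) (fun e he => (lt _ _).2 he) (fun e he => ?_)
      fun e _ f _ => le e f).conn_iff.2 (h.conn _ (mt c k) (by rw [cd]; omega))
    obtain ⟨f, rfl⟩ := sj c e (le_of_lt he)
    exact ⟨f, (lt _ _).1 he, rfl⟩
  · obtain ⟨e, e1, e2⟩ := h.pure _ (mt c k)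
    obtain ⟨f, rfl⟩ := sj c e e1
    exact ⟨f, (le _ _).1 e1, by rw [cd] at e2; omega⟩

theorem up_om (h : Rg X) {a : P} (ho : a ∈ Om X) (ha : IsMin a) :
    {y | y ∈ Om X ∧ a < y}.Nonempty ∧ Conn {y | y ∈ Om X ∧ a < y} := by
  have M := Mf.link h.mf ha
  have C : Ctr (Subtype.val ⁻¹' X : Set (Set.Ioi a)) :=
    (WS.of_iso (f := Subtype.val) (B := {e | e ∈ X ∧ a ≤ e}) (fun y k => ⟨k, le_of_lt y.2⟩)
      (fun y k => ⟨⟨y, lt_of_le_of_ne k.2 fun e => ho.1 (e ▸ k.1)⟩, k.1, rfl⟩)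
      fun _ _ _ _ => Iff.rfl).ctr_iff.2 (ctr_L h ho)
  have b : ∀ c ∈ mix (Subtype.val ⁻¹' X : Set (Set.Ioi a)), c.bot.1 ∈ {y | y ∈ Om X ∧ a < y} :=
    fun c ⟨⟨x, x1, x2⟩, y, y1, y2⟩ =>
      ⟨⟨fun k => y2 (h.up (Ch.bot_le (c := c) y1) k), x.1, x2, Ch.bot_le (c := c) x1⟩, c.bot.2⟩
  obtain ⟨x, x1, y, y1, l⟩ := Mf.exit M subset_rfl C
  refine ⟨⟨_, b _ (pr_mix x1 y1 l)⟩, fun x ⟨⟨x1, i, i1, i2⟩, x2⟩ y ⟨⟨y1, j, j1, j2⟩, y2⟩ => ?_⟩
  have := (Sf30.conn_mix2 M C.conn C.eu.ge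
    (Ch.pr (⟨x, x2⟩ : Set.Ioi a) ⟨i, x2.trans_le i2⟩ i2) ⟨⟨_, by simp; exact Or.inr rfl, i1⟩,
      _, by simp; exact Or.inl rfl, x1⟩
    (Ch.pr (⟨y, y2⟩ : Set.Ioi a) ⟨j, y2.trans_le j2⟩ j2) ⟨⟨_, by simp; exact Or.inr rfl, j1⟩,
      _, by simp; exact Or.inl rfl, y1⟩).map (f := fun c => c.bot.1) fun c k e m l =>
        Rch.of_cm (b c k) (b e m) (Or.inr (Ch.bot_anti l))
  simpa using this

theorem dn_om (h : Rg X) {a y : P} (ho : a ∈ Om X) (hy : y < a)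
    (hu : ∀ x ∈ Om X, ¬ a < x) : Conn {x | x < a} := by
  obtain ⟨t, ht⟩ : (univ.filter fun e : Ch P => Ch.pr y a hy.le < e ∧ e.top ∈ Om X).Nonempty :=
    card_pos.1 (by rw [two_om h (by simpa using ho) (card_pair hy.ne)]; omega)
  obtain ⟨-, t1, t2⟩ := mem_filter.1 ht
  have t3 : t.top = a := ((Ch.le_top (t1.le (by simp))).eq_or_lt.resolve_right (hu _ t2)).symm
  have t4 : 2 < t.1.card := card_pair hy.ne ▸ Ch.card_lt t1
  obtain ⟨n, i, hi, l⟩ := ho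
  have one : ∀ j ∈ X, ∀ k ∈ X, a ≤ j → ¬ j < k := fun j a1 k a2 a3 a4 => by
    have := h.mf.card_le (tp (tp t j (t3 ▸ a3)) k (by simpa using a4.le)) ⟨k, by simp, a2⟩
    have := Ch.card_lt (lt_of_le_of_ne (le_tp t j (t3 ▸ a3)) fun e =>
      n (by rw [← t3, e, top_tp]; exact a1))
    have := Ch.card_lt (lt_of_le_of_ne (le_tp (tp t j (t3 ▸ a3)) k (by simpa using a4.le))
      fun e => a4.ne (by simpa using congrArg Ch.top e))
    omega
  have b : ∀ c : Ch P, Ch.pr a i l < c → c.bot < a := fun c k => by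
    obtain ⟨x, x1, x2⟩ := Sf30.exists_xt k
    obtain ⟨x2, x3⟩ := Sf30.mem_xt.1 x2
    simp only [Ch.pr_val, mem_insert, mem_singleton, not_or, forall_eq_or_imp, forall_eq] at x2 x3
    refine (Ch.bot_le x1).trans_lt (lt_of_le_of_ne (x3.1.resolve_right fun j => ?_) x2.1)
    by_cases m : x ∈ X
    · exact x3.2.elim (fun o => one x m i hi j (lt_of_le_of_ne o x2.2))
        fun o => one i hi x m l (lt_of_le_of_ne o (Ne.symm x2.2))
    · exact hu x ⟨m, cm_cl h.up hi x3.2.symm⟩ (lt_of_le_of_ne j (Ne.symm x2.1))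
  have k : ∀ x (j : x < a), Ch.pr a i l < bt (Ch.pr a i l) x (by simpa using j.le) := fun x j =>
    lt_of_le_of_ne (le_bt _ _ _) fun e => j.ne' (by simpa using congrArg Ch.bot e)
  intro x hx z hz
  simpa using (h.mf.conn (Ch.pr a i l) ⟨i, by simp, hi⟩ (card_le_two.trans_lt (by norm_num)) _
    (k x hx) _ (k z hz)).map (F := {x | x < a}) (f := Ch.bot) fun c m e o j =>
      Rch.of_cm (b c m) (b e o) (Or.inr (Ch.bot_anti j))

theorem lk_om (h : Rg X) {a : P} (ho : a ∈ Om X) :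
    {x | x ∈ Om X ∧ x ≠ a ∧ Cm x a}.Nonempty ∧ Conn {x | x ∈ Om X ∧ x ≠ a ∧ Cm x a} := by
  have lo : ∀ x, x < a → x ∈ {x | x ∈ Om X ∧ x ≠ a ∧ Cm x a} := fun x k =>
    ⟨om_low h.up k.le ho, k.ne, Or.inl k.le⟩
  have cs : ∀ x ∈ {x | x ∈ Om X ∧ x ≠ a ∧ Cm x a}, x < a ∨ a < x := fun x k =>
    k.2.2.imp (fun j => lt_of_le_of_ne j k.2.1) fun j => lt_of_le_of_ne j k.2.1.symm
  by_cases m : IsMin a
  · convert up_om h ho m using 2 <;>
    exact Set.ext fun x => ⟨fun k => ⟨k.1, (cs x k).resolve_left m.not_lt⟩,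
      fun k => ⟨k.1, k.2.ne', Or.inr k.2.le⟩⟩
  obtain ⟨y, hy⟩ := not_isMin_iff.1 m
  refine ⟨⟨y, lo y hy⟩, ?_⟩
  by_cases u : ∃ x ∈ Om X, a < x
  · obtain ⟨u, u1, u2⟩ := u
    have m : u ∈ {x | x ∈ Om X ∧ x ≠ a ∧ Cm x a} := ⟨u1, u2.ne', Or.inr u2.le⟩
    have k : ∀ x ∈ {x | x ∈ Om X ∧ x ≠ a ∧ Cm x a}, Rch {x | x ∈ Om X ∧ x ≠ a ∧ Cm x a} x u :=
      fun x k => (cs x k).elim (fun j => Rch.of_cm k m (Or.inl (j.trans u2).le)) fun j =>
        (Rch.of_cm k (lo y hy) (Or.inr (hy.trans j).le)).trans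
          (Rch.of_cm (lo y hy) m (Or.inl (hy.trans u2).le))
    exact fun x a z b => (k x a).trans (k z b).symm
  · convert dn_om h ho hy fun x a b => u ⟨x, a, b⟩ using 1
    exact Set.ext fun x => ⟨fun k => (cs x k).resolve_right fun j => u ⟨x, k.1, j⟩, lo x⟩

theorem mfIn_om (h : Rg X) : MfIn (Om X) Set.univ := by
  have t : ∀ c : Ch (Om X), c.up.top ∈ Om X := fun c => c.up_sub _ c.up.top_mem
  have ws : ∀ a : Om X, WS (Sf30.lk a) {x | x ∈ Om X ∧ x ≠ a.1 ∧ Cm x a.1} Subtype.val := fun a =>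
    WS.of_iso (fun x k => ⟨x.2, fun e => k.1 (Subtype.ext e), k.2⟩)
      (fun x k => ⟨⟨x, k.1⟩, ⟨fun e => k.2.1 (congrArg Subtype.val e), k.2.2⟩, rfl⟩)
      fun _ _ _ _ => Iff.rfl
  refine Sf30.mf2_of (fun c _ => c.card_up ▸ card_om h (t c)) (fun c _ k => ?_)
    (fun a _ => (ws a).conn_iff.2 (lk_om h a.2).2) fun a _ => (ws a).ne_iff.2 (lk_om h a.2).1
  rw [Sf30.card_xt fun e _ => by have := card_om h (t e); rw [Ch.card_up] at this; omega,
    ← two_om h (t c) (c.card_up.trans k)]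
  refine card_bij (fun e _ => e.up) (fun e he => mem_filter.2 ⟨mem_univ _,
    Ch.up_lt.2 (mem_filter.1 he).2, t e⟩) (fun _ _ _ _ => Ch.up_inj) fun e he => ?_
  obtain ⟨f, rfl⟩ := Ch.exists_up (c := e) (Q := Om X) fun x hx =>
    om_low h.up (Ch.le_top hx) (mem_filter.1 he).2.2
  exact ⟨f, mem_filter.2 ⟨mem_univ _, Ch.up_lt.1 (mem_filter.1 he).2.1⟩, rfl⟩

theorem ws_cl (h : Rg X) : WS X (cl X) id :=
  WS.of_ge (sub_cl X) (fun _ _ _ _ k => k) fun y hy => by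
    by_cases k : y ∈ X
    · exact sctr_min (m := y) ⟨k, le_rfl⟩ fun _ j => j.2
    · exact ctr_L h ⟨k, hy⟩

theorem ws_mix (h : Rg X) : WS (mix X) (Om X) (Pt30.tw (Om X)) := by
  convert ws_sr h.up h.nice (W := Om X) subset_rfl using 1
  exact Set.ext fun c => ⟨fun ⟨a, x, x1, x2⟩ => ⟨(Pt30.mt_top h.up).1 a, x, x1, x2, _,
    (Pt30.mt_top h.up).1 a, Ch.le_top x1⟩, fun ⟨a, x, x1, x2⟩ => ⟨⟨_, c.top_mem, a⟩, x, x1, x2.1⟩⟩

theorem sum_bot_om (h : Rg X) {x : P} (hx : x ∈ Om X) :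
    ∑ c ∈ univ.filter (fun c : Ch P => c.bot = x), c.sg * iMt X c = eps x := by
  have := sum_through x (fun _ => 1) (iMt X) (iMt X) fun c c₁ c₂ a _ e => by
    rw [one_mul]
    refine if_congr ⟨fun ⟨y, y1, y2⟩ => ⟨y, (mem_union.1 (e ▸ y1)).resolve_left fun k =>
      hx.1 (h.up (a ▸ Ch.le_top k) y2), y2⟩, fun ⟨y, y1, y2⟩ => ⟨y, e ▸ mem_union_right _ y1, y2⟩⟩
      rfl rfl
  have e : ∑ c ∈ univ.filter (fun c : Ch P => x ∈ c.1), c.sg * iMt X c = 1 := by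
    rw [← sum_mt h (c := Ch.pt x) (by simpa using hx)]
    simp only [iMt, mul_ite, mul_one, mul_zero, ← sum_filter, filter_filter, Ch.pt_le]
  simp only [mul_one] at this
  rw [e, ← neg_mul] at this
  exact (Int.eq_of_mul_eq_one this.symm).symm

theorem chi_om (h : Rg X) {b : Set P} (hb : b ⊆ Om X) : chi X (cb (ind b)) = -ee b := by
  have e : chi X (cb (ind b)) = -∑ c : Ch P, c.sg * iMt X c * ind b c.bot := by
    rw [chi, sum_filter, ← sum_neg_distrib]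
    refine sum_congr rfl fun c _ => ?_
    split_ifs with k
    · rw [cb, ind_of_not fun j => (hb j).1 ((Pt30.mt_top h.up).1 k), iMt_of k]; ring
    · rw [iMt_not k]; ring
  rw [e, ← sum_fiberwise (g := Ch.bot), ← sum_eps_ind, neg_inj]
  refine sum_congr rfl fun x _ => ?_
  rw [sum_congr rfl fun c hc => by rw [(mem_filter.1 hc).2], ← sum_mul]
  by_cases k : x ∈ b
  · rw [sum_bot_om h (hb k)]
  · rw [ind_of_not k, mul_zero, mul_zero]

theorem nmStmt : NmStmt := fun _ _ _ =>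
  ⟨fun _ h => ⟨mfIn_om h, ws_cl h, (ws_mix h).conn_iff.symm,
    (ws_mix h).eu_eq.symm.trans (Mf.eu_mix h.mf), fun _ => chi_om h⟩,
    fun _ _ => mfIn_exit, fun _ a _ => conn_mix3 a⟩

end Crest.Agent.X212.Alg36
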